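import Crest.Agent.R022.Defs

set_option autoImplicit false

namespace Crest.Agent.R022

open Finset

/-- `c ^ e * q` is an integer of absolute value at most `B`. -/
def badprimesIB (c : ℤ) (e B : ℕ) (q : ℚ) : Prop :=
  ∃ n : ℤ, (c : ℚ) ^ e * q = n ∧ n.natAbs ≤ B

theorem badprimesIB_mul {c : ℤ} {e e' B B' : ℕ} {q q' : ℚ} (h : badprimesIB c e B q)
    (h' : badprimesIB c e' B' q') : badprimesIB c (e + e') (B * B') (q * q') := by
  obtain ⟨n, hn, hB⟩ := h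
  obtain ⟨n', hn', hB'⟩ := h'
  refine ⟨n * n', ?_, ?_⟩
  · rw [Int.cast_mul, ← hn, ← hn']; ring
  · rw [Int.natAbs_mul]; exact Nat.mul_le_mul hB hB'

theorem badprimesIB_mono {c : ℤ} {e B B' : ℕ} {q : ℚ} (h : badprimesIB c e B q) (hB : B ≤ B') :
    badprimesIB c e B' q := by
  obtain ⟨n, hn, h⟩ := h
  exact ⟨n, hn, h.trans hB⟩

theorem badprimesIB_int (c a : ℤ) : badprimesIB c 0 a.natAbs (a : ℚ) :=
  ⟨a, by simp, le_rfl⟩

theorem badprimesIB_raise {c : ℤ} {H e e' B : ℕ} {q : ℚ} (hc : c.natAbs ≤ H)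
    (h : badprimesIB c e B q) (he : e ≤ e') : badprimesIB c e' (B * H ^ (e' - e)) q := by
  obtain ⟨n, hn, hB⟩ := h
  obtain ⟨k, rfl⟩ := Nat.exists_eq_add_of_le he
  refine ⟨n * c ^ k, ?_, ?_⟩
  · push_cast; rw [← hn]; ring
  · rw [Int.natAbs_mul, Int.natAbs_pow, Nat.add_sub_cancel_left]
    exact Nat.mul_le_mul hB (Nat.pow_le_pow_left hc k)

theorem badprimesIB_sum {α : Type*} {c : ℤ} {e B : ℕ} (s : Finset α) (f : α → ℚ)
    (h : ∀ a ∈ s, badprimesIB c e B (f a)) : badprimesIB c e (s.card * B) (∑ a ∈ s, f a) := by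
  classical
  induction s using Finset.induction_on with
  | empty => exact ⟨0, by simp, by simp⟩
  | insert a s ha ih =>
    obtain ⟨n, hn, hB⟩ := h a (mem_insert_self _ _)
    obtain ⟨n', hn', hB'⟩ := ih fun b hb => h b (mem_insert_of_mem hb)
    refine ⟨n + n', ?_, ?_⟩
    · rw [sum_insert ha, mul_add, hn, hn', Int.cast_add]
    · rw [card_insert_of_notMem ha]
      have := Int.natAbs_add_le n n'
      nlinarith

theorem badprimesIB_pow {c : ℤ} {H : ℕ} {q : ℚ} (h : badprimesIB c 1 H q) (k : ℕ) :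
    badprimesIB c k (H ^ k) (q ^ k) := by
  induction k with
  | zero => exact ⟨1, by simp, by simp⟩
  | succ k ih => rw [pow_succ, pow_succ]; exact badprimesIB_mul ih h

theorem badprimesIB_prod {α : Type*} {c : ℤ} {H : ℕ} (s : Finset α) (z : α → ℚ) (m : α → ℕ)
    (h : ∀ a, badprimesIB c 1 H (z a)) :
    badprimesIB c (∑ a ∈ s, m a) (H ^ ∑ a ∈ s, m a) (∏ a ∈ s, z a ^ m a) := by
  classical
  induction s using Finset.induction_on with
  | empty => exact ⟨1, by simp, by simp⟩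
  | insert a s ha ih =>
    rw [sum_insert ha, prod_insert ha, pow_add]
    exact badprimesIB_mul (badprimesIB_pow (h a) _) ih

theorem badprimes_card_support {σ : Type*} [Fintype σ] {δ : ℕ} {p : MvPolynomial σ ℤ}
    (hp : p.totalDegree ≤ δ) : p.support.card ≤ (δ + 1) ^ Fintype.card σ := by
  classical
  have h1 : (Fintype.piFinset fun _ : σ => range (δ + 1)).card = (δ + 1) ^ Fintype.card σ := by
    simp [Fintype.card_piFinset]
  rw [← h1]
  refine card_le_card_of_injOn (fun m => (m : σ → ℕ)) (fun m hm => ?_)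
    fun m _ m' _ h => DFunLike.coe_injective h
  refine Finset.mem_coe.2 (Fintype.mem_piFinset.2 fun i => Finset.mem_range.2 ?_)
  show m i < δ + 1
  have h2 := MvPolynomial.le_totalDegree (p := p) (s := m) hm
  have h3 : m i ≤ m.sum fun _ e => e :=
    Finsupp.single_eval_le_sum (g := fun e => e) m rfl (fun _ => Nat.zero_le _) i
  omega

theorem badprimesIB_ev {σ : Type*} [Fintype σ] {c : ℤ} {δ H : ℕ} (hc : c.natAbs ≤ H)
    {z : σ → ℚ} (hz : ∀ i, badprimesIB c 1 H (z i)) {p : MvPolynomial σ ℤ} (hp : Bd δ H p) :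
    badprimesIB c δ ((δ + 1) ^ Fintype.card σ * H ^ (δ + 1)) (ev z p) := by
  have h1 : ev z p = ∑ m ∈ p.support, ((p.coeff m : ℤ) : ℚ) * ∏ i ∈ m.support, z i ^ m i := by
    rw [ev, MvPolynomial.coe_eval₂Hom, MvPolynomial.eval₂_eq]
    rfl
  rw [h1]
  refine badprimesIB_mono (badprimesIB_sum (B := H ^ (δ + 1)) _ _ fun m hm => ?_)
    (Nat.mul_le_mul_right _ (badprimes_card_support hp.1))
  have h2 : ∑ i ∈ m.support, m i ≤ δ := (MvPolynomial.le_totalDegree hm).trans hp.1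
  have h3 := badprimesIB_mul (badprimesIB_int c (p.coeff m)) (badprimesIB_prod m.support z m hz)
  rw [zero_add] at h3
  refine badprimesIB_mono (badprimesIB_raise hc h3 h2) ?_
  rw [mul_assoc, ← pow_add, Nat.add_sub_cancel' h2, pow_succ']
  exact Nat.mul_le_mul_right _ (hp.2 m)

theorem badprimesIB_deriv {σ : Type*} [Fintype σ] {c : ℤ} {δ H : ℕ} (hc : c.natAbs ≤ H)
    {z : σ → ℚ} (hz : ∀ i, badprimesIB c 1 H (z i)) {g : Polynomial (MvPolynomial σ ℤ)}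
    (hd : g.natDegree ≤ δ) (hg : ∀ j, Bd δ H (g.coeff j)) (η : σ) :
    badprimesIB c (2 * δ) ((δ + 1) * ((δ + 1) * (δ + 1) ^ Fintype.card σ) * H ^ (2 * δ + 1))
      ((g.map (ev z)).derivative.eval (z η)) := by
  have h1 : (g.map (ev z)).derivative.natDegree < δ + 1 :=
    Nat.lt_succ_of_le ((Polynomial.natDegree_derivative_le _).trans
      ((Nat.sub_le _ _).trans (Polynomial.natDegree_map_le.trans hd)))
  rw [Polynomial.eval_eq_sum_range' h1]
  refine badprimesIB_mono (badprimesIB_sum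
    (B := (δ + 1) * (δ + 1) ^ Fintype.card σ * H ^ (2 * δ + 1)) _ _ fun j hj => ?_)
    (by rw [card_range]; exact le_of_eq (by ring))
  have hj' : j ≤ δ := Nat.le_of_lt_succ (mem_range.1 hj)
  rw [Polynomial.coeff_derivative, Polynomial.coeff_map]
  have h2 := badprimesIB_mul (badprimesIB_mul (badprimesIB_ev hc hz (hg (j + 1)))
    (badprimesIB_int c ((j : ℤ) + 1))) (badprimesIB_pow (hz η) j)
  push_cast at h2
  refine badprimesIB_mono (badprimesIB_raise hc h2 (by omega : δ + j ≤ 2 * δ)) ?_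
  have h3 : ((j : ℤ) + 1).natAbs ≤ δ + 1 := by omega
  have h4 : H ^ (δ + 1) * H ^ j * H ^ (2 * δ - (δ + j)) = H ^ (2 * δ + 1) := by
    rw [← pow_add, ← pow_add]; congr 1; omega
  calc (δ + 1) ^ Fintype.card σ * H ^ (δ + 1) * ((j : ℤ) + 1).natAbs * H ^ j *
        H ^ (2 * δ - (δ + j))
      = ((j : ℤ) + 1).natAbs * (δ + 1) ^ Fintype.card σ *
          (H ^ (δ + 1) * H ^ j * H ^ (2 * δ - (δ + j))) := by ring
    _ ≤ _ := by rw [h4]; gcongr

/-- All bad primes divide one integer of bounded size.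
Hint: with `c, a i` from `PtH`, put `W = c * ∏_{η dep} c ^ (2 δ) * (∂ g_η)(z)`; each factor
`c ^ (2δ) * (∂ g_η)(z)` is a nonzero integer of size `≤ (c' H) ^ c'`, the numerator of
`(∂ g_η)(z)` divides it, and `(z i).den ∣ c`. -/
theorem good_of_not_dvd {ι : Type} [Fintype ι] [DecidableEq ι] (δ : ℕ) :
    ∃ c : ℕ, ∀ (s : Sys ι) (H : ℕ) (z : Option ι → ℚ), 1 ≤ H → s.Cx δ H → s.ND z → PtH H z →
      ∃ W : ℤ, W ≠ 0 ∧ W.natAbs ≤ (c * H) ^ c ∧
        ∀ ℓ : ℕ, ℓ.Prime → ¬ (ℓ : ℤ) ∣ W → s.Good z ℓ := by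
  classical
  set K := Fintype.card (Option ι) with hK
  set C0 := (δ + 1) * ((δ + 1) * (δ + 1) ^ K) with hC0
  refine ⟨C0 + ((2 * δ + 1) * K + 1), fun s H z hH hs hnd hz => ?_⟩
  obtain ⟨c, hc0, hc, hz⟩ := hz
  have hz' : ∀ i, badprimesIB c 1 H (z i) := fun i => by
    obtain ⟨a, ha, h⟩ := hz i
    exact ⟨a, by rw [pow_one, h], ha⟩
  have hn : ∀ η, s.Dep η → badprimesIB c (2 * δ) (C0 * H ^ (2 * δ + 1))
      ((s.gv z η).derivative.eval (z η)) := fun η hη =>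
    badprimesIB_deriv hc hz' (hs η hη).1 (fun j => ((hs η hη).2 j).2) η
  choose! n hn1 hn2 using hn
  have hcq : (c : ℚ) ≠ 0 := Int.cast_ne_zero.2 hc0
  refine ⟨c * ∏ η ∈ univ.filter s.Dep, n η, mul_ne_zero hc0 (prod_ne_zero_iff.2 fun η hη => ?_),
    ?_, fun ℓ hℓ hW => ⟨fun i hi => hW ?_, fun η hη hd => hW ?_⟩⟩
  · have hη' := (mem_filter.1 hη).2
    have := mul_ne_zero (pow_ne_zero (2 * δ) hcq) (hnd η hη').2.1
    rw [hn1 η hη'] at this
    exact Int.cast_ne_zero.1 this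
  · have hC1 : 1 ≤ C0 := Nat.one_le_iff_ne_zero.2 (by positivity)
    have hB1 : 1 ≤ C0 * H ^ (2 * δ + 1) := Nat.one_le_iff_ne_zero.2 (by positivity)
    have h1 : (∏ η ∈ univ.filter s.Dep, n η).natAbs ≤ (C0 * H ^ (2 * δ + 1)) ^ K := by
      rw [← Int.natAbsHom_apply, map_prod]
      refine (prod_le_pow_card _ _ _ fun η hη => hn2 η (mem_filter.1 hη).2).trans ?_
      exact Nat.pow_le_pow_right hB1 (card_le_univ _)
    have h2 : C0 ^ K ≤ (C0 + ((2 * δ + 1) * K + 1)) ^ (C0 + ((2 * δ + 1) * K + 1)) :=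
      (Nat.pow_le_pow_left (Nat.le_add_right _ _) K).trans
        (Nat.pow_le_pow_right (by omega) (by nlinarith))
    have h3 : H ^ ((2 * δ + 1) * K + 1) ≤ H ^ (C0 + ((2 * δ + 1) * K + 1)) :=
      Nat.pow_le_pow_right hH (Nat.le_add_left _ _)
    rw [Int.natAbs_mul, mul_pow]
    calc c.natAbs * (∏ η ∈ univ.filter s.Dep, n η).natAbs
        ≤ H * (C0 * H ^ (2 * δ + 1)) ^ K := Nat.mul_le_mul hc h1
      _ = C0 ^ K * H ^ ((2 * δ + 1) * K + 1) := by rw [mul_pow, ← pow_mul]; ring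
      _ ≤ _ := Nat.mul_le_mul h2 h3
  · obtain ⟨a, -, h⟩ := hz i
    have h1 : z i = Rat.divInt a c := by
      rw [Rat.divInt_eq_div, ← h]; field_simp
    have h2 := Rat.den_dvd a c
    rw [← h1] at h2
    exact Dvd.dvd.mul_right ((Int.natCast_dvd_natCast.2 hi).trans h2) _
  · have h1 : (s.gv z η).derivative.eval (z η) = Rat.divInt (n η) (c ^ (2 * δ)) := by
      rw [Rat.divInt_eq_div, ← hn1 η hη]; push_cast; field_simp
    have h2 := Rat.num_dvd (n η) (pow_ne_zero (2 * δ) hc0)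
    rw [← h1] at h2
    exact Dvd.dvd.mul_left ((hd.trans h2).trans
      (dvd_prod_of_mem _ (mem_filter.2 ⟨mem_univ _, hη⟩))) _

/-- A nonzero integer `≤ P ^ E` has at most `E` prime divisors `≥ P`. -/
theorem card_primes_dvd (W : ℤ) (P E : ℕ) (hW : W ≠ 0) (hP : 2 ≤ P) (hWE : W.natAbs ≤ P ^ E)
    (T : Finset ℕ) (hT : ∀ ℓ ∈ T, ℓ.Prime ∧ P ≤ ℓ ∧ (ℓ : ℤ) ∣ W) : T.card ≤ E := by
  have h1 : ∏ ℓ ∈ T, ℓ ∣ W.natAbs :=
    Finset.prod_primes_dvd _ (fun ℓ hℓ => (hT ℓ hℓ).1.prime)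
      fun ℓ hℓ => Int.natCast_dvd.1 (hT ℓ hℓ).2.2
  have h2 : P ^ T.card ≤ ∏ ℓ ∈ T, ℓ := pow_card_le_prod _ _ _ fun ℓ hℓ => (hT ℓ hℓ).2.1
  have h3 := (h2.trans (Nat.le_of_dvd (Int.natAbs_pos.2 hW) h1)).trans hWE
  exact (Nat.pow_le_pow_iff_right hP).1 h3

/-- Bertrand: `T` primes in `[P, 2 ^ T P]`. -/
theorem exists_pool (T P : ℕ) (hP : 1 ≤ P) :
    ∃ Pool : Finset ℕ, Pool.card = T ∧ ∀ ℓ ∈ Pool, ℓ.Prime ∧ P ≤ ℓ ∧ ℓ ≤ 2 ^ T * P := by
  induction T with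
  | zero => exact ⟨∅, rfl, by simp⟩
  | succ T ih =>
    obtain ⟨Pool, hc, hP'⟩ := ih
    obtain ⟨p, hp, h1, h2⟩ := Nat.exists_prime_lt_and_le_two_mul (2 ^ T * P) (by positivity)
    have h3 : P ≤ 2 ^ T * P := Nat.le_mul_of_pos_left _ (by positivity)
    have h4 : 2 ^ (T + 1) * P = 2 * (2 ^ T * P) := by ring
    refine ⟨insert p Pool, ?_, fun ℓ hℓ => ?_⟩
    · rw [card_insert_of_notMem fun h => absurd (hP' p h).2.2 (not_le.2 h1), hc]
    · rcases mem_insert.1 hℓ with rfl | hℓ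
      · exact ⟨hp, by omega, by omega⟩
      · have := hP' ℓ hℓ
        exact ⟨this.1, this.2.1, by omega⟩

/-- distinct primes `≥ P`, each with `ℓ ^ G ∣ W`, force `P ^ (J G) ≤ |W|` -/
theorem pow_le_of_primes_dvd (W : ℤ) (hW : W ≠ 0) (P G : ℕ) {J : ℕ} (τ : Fin J → ℕ)
    (hτ : Function.Injective τ) (hp : ∀ l, (τ l).Prime ∧ P ≤ τ l)
    (hd : ∀ l, (τ l : ℤ) ^ G ∣ W) : P ^ (J * G) ≤ W.natAbs := by
  have h1 : ∏ l, τ l ^ G ∣ W.natAbs := by
    refine Finset.prod_dvd_of_isRelPrime (fun i _ j _ hij => ?_) fun l _ => ?_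
    · exact Nat.coprime_iff_isRelPrime.1 (Nat.Coprime.pow _ _
        ((Nat.coprime_primes (hp i).1 (hp j).1).2 fun h => hij (hτ h)))
    · have := hd l
      rw [← Nat.cast_pow] at this
      exact Int.natCast_dvd.1 this
  have h2 : (P ^ G) ^ (univ : Finset (Fin J)).card ≤ ∏ l, τ l ^ G :=
    pow_card_le_prod _ _ _ fun l _ => Nat.pow_le_pow_left (hp l).2 G
  rw [card_univ, Fintype.card_fin, ← pow_mul, mul_comm] at h2
  exact h2.trans (Nat.le_of_dvd (Int.natAbs_pos.2 hW) h1)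

/-- Hadamard-free bound for a determinant with row bounds -/
theorem natAbs_det_le {r : ℕ} (M : Matrix (Fin r) (Fin r) ℤ) (b : Fin r → ℕ)
    (h : ∀ i j, (M i j).natAbs ≤ b i) : M.det.natAbs ≤ r.factorial * ∏ i, b i := by
  rw [← Matrix.det_transpose, Matrix.det_apply']
  refine (Int.natAbs_sum_le _ _).trans ?_
  refine (sum_le_card_nsmul _ _ (∏ i, b i) fun σ _ => ?_).trans ?_
  · rw [Int.natAbs_mul, Int.cast_id, Int.units_natAbs, one_mul, ← Int.natAbsHom_apply, map_prod]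
    exact prod_le_prod' fun i _ => h i (σ i)
  · rw [card_univ, Fintype.card_perm, Fintype.card_fin, smul_eq_mul]

end Crest.Agent.R022
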