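import Crest.Agent.R022.Defs

set_option autoImplicit false

namespace Crest.Agent.R022

open Finset

theorem classes_ev_map {σ K L : Type*} [CommRing K] [CommRing L] (φ : K →+* L) (z : σ → K)
    (p : MvPolynomial σ ℤ) : ev (fun i => φ (z i)) p = φ (ev z p) := by
  have : ev (fun i => φ (z i)) = φ.comp (ev z) := by
    refine MvPolynomial.ringHom_ext (fun r => ?_) (fun i => ?_) <;> simp [ev]
  rw [this]; rfl

theorem classes_gv_map {ι K L : Type} [CommRing K] [CommRing L] (φ : K →+* L) (s : Sys ι)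
    (z : Option ι → K) (η : Option ι) : s.gv (fun i => φ (z i)) η = (s.gv z η).map φ := by
  ext j
  simp only [Sys.gv, Polynomial.coeff_map, classes_ev_map]

theorem classes_ev_congr {σ K : Type*} [CommRing K] {A : Set σ} {p : MvPolynomial σ ℤ}
    (hp : p ∈ MvPolynomial.supported ℤ A) {z z' : σ → K} (h : ∀ i ∈ A, z i = z' i) :
    ev z p = ev z' p :=
  MvPolynomial.eval₂Hom_congr' rfl
    (fun i hi _ => h i (MvPolynomial.mem_supported.mp hp hi)) rfl

theorem classes_gv_congr {ι K : Type} [CommRing K] {s : Sys ι} {δ H : ℕ} (hs : s.Cx δ H)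
    {η : Option ι} (hη : s.Dep η) {z z' : Option ι → K} (h : ∀ j ∈ s.J, z (some j) = z' (some j)) :
    s.gv z η = s.gv z' η := by
  ext j
  simp only [Sys.gv, Polynomial.coeff_map]
  refine classes_ev_congr ((hs η hη).2 j).1 ?_
  rintro _ ⟨i, hi, rfl⟩
  exact h i hi

/-- weak nondegeneracy -/
def classes_ND0 {ι K : Type} [CommRing K] (s : Sys ι) (z : Option ι → K) : Prop :=
  ∀ η, s.Dep η → (s.gv z η).eval (z η) = 0 ∧ (s.gv z η).derivative.eval (z η) ≠ 0

theorem classes_mem_roots {ι K : Type} [Field K] [DecidableEq K] {s : Sys ι} {δ H : ℕ}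
    (hs : s.Cx δ H) {η : Option ι} (hη : s.Dep η) {z z' : Option ι → K} (hz : classes_ND0 s z)
    (h : ∀ j ∈ s.J, z (some j) = z' (some j)) : z η ∈ (s.gv z' η).roots.toFinset := by
  rw [← classes_gv_congr hs hη h, Multiset.mem_toFinset, Polynomial.mem_roots]
  · exact (hz η hη).1
  · intro e
    exact (hz η hη).2 (by rw [e]; simp)

theorem classes_card_roots {ι K : Type} [Field K] [DecidableEq K] {s : Sys ι} {δ H : ℕ}
    (hs : s.Cx δ H) {η : Option ι} (hη : s.Dep η) (z : Option ι → K) :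
    (s.gv z η).roots.toFinset.card ≤ δ :=
  (Multiset.toFinset_card_le _).trans ((Polynomial.card_roots' _).trans
    (Polynomial.natDegree_map_le.trans (hs η hη).1))

theorem classes_fiber {ι K : Type} [Fintype ι] [DecidableEq ι] [Field K] {s : Sys ι} {δ H : ℕ}
    (hs : s.Cx δ H) (z' : Option ι → K) (T : Finset (ι → K))
    (hT : ∀ x ∈ T, ∃ z : Option ι → K, classes_ND0 s z ∧ (fun i => z (some i)) = x ∧
      ∀ j ∈ s.J, z (some j) = z' (some j)) : T.card ≤ (δ + 1) ^ Fintype.card ι := by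
  classical
  have sub : T ⊆ Fintype.piFinset fun i =>
      if i ∈ s.J then {z' (some i)} else (s.gv z' (some i)).roots.toFinset := by
    intro x hx
    obtain ⟨z, hz, rfl, hj⟩ := hT x hx
    refine Fintype.mem_piFinset.mpr fun i => ?_
    split_ifs with hi
    · exact mem_singleton.mpr (hj i hi)
    · exact classes_mem_roots hs (η := some i) hi hz hj
  refine (card_le_card sub).trans ?_
  rw [Fintype.card_piFinset, ← card_univ]
  refine prod_le_pow_card _ _ _ fun i _ => ?_
  split_ifs with hi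
  · simp
  · exact (classes_card_roots hs (η := some i) hi z').trans (Nat.le_succ _)

theorem classes_red {ι : Type} (s : Sys ι) (ℓ : ℕ) [Fact ℓ.Prime] (z : Option ι → ℚ)
    (hz : s.ND z) (hg : s.Good z ℓ) :
    ∃ zb : Option ι → ZMod ℓ, classes_ND0 s zb ∧ ∀ i, (zb i).val = res ℓ (z i) := by
  let w : Option ι → ℤ_[ℓ] := fun i => ⟨(z i : ℚ_[ℓ]), Padic.norm_rat_le_one (hg.1 i)⟩
  have key : ∀ (v : ℤ_[ℓ]) (q : ℚ), (v : ℚ_[ℓ]) = q →
      PadicInt.toZMod v * (q.den : ZMod ℓ) = (q.num : ZMod ℓ) := by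
    intro v q h
    have : v * (q.den : ℤ_[ℓ]) = (q.num : ℤ_[ℓ]) := by
      apply Subtype.ext
      push_cast
      rw [h]
      exact_mod_cast Rat.mul_den_eq_num q
    simpa using congrArg PadicInt.toZMod this
  have hw : (fun i => PadicInt.Coe.ringHom (w i)) = fun i => Rat.castHom ℚ_[ℓ] (z i) := rfl
  have gw : ∀ η, (s.gv w η).map PadicInt.Coe.ringHom = (s.gv z η).map (Rat.castHom ℚ_[ℓ]) := by
    intro η
    rw [← classes_gv_map, ← classes_gv_map, hw]
  have e1 : ∀ η, ∀ P : Polynomial ℤ_[ℓ], ∀ Q : Polynomial ℚ,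
      P.map PadicInt.Coe.ringHom = Q.map (Rat.castHom ℚ_[ℓ]) →
      ((P.eval (w η) : ℤ_[ℓ]) : ℚ_[ℓ]) = (Q.eval (z η) : ℚ) := by
    intro η P Q h
    have h1 := Polynomial.eval_map_apply (p := P) (PadicInt.Coe.ringHom (p := ℓ)) (w η)
    have h2 := Polynomial.eval_map_apply (p := Q) (Rat.castHom ℚ_[ℓ]) (z η)
    rw [h] at h1
    exact h1.symm.trans h2
  refine ⟨fun i => PadicInt.toZMod (w i), fun η hη => ⟨?_, ?_⟩, fun i => ?_⟩
  · rw [classes_gv_map, Polynomial.eval_map_apply]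
    have := e1 η _ _ (gw η)
    rw [(hz η hη).1] at this
    have h0 : (s.gv w η).eval (w η) = 0 := Subtype.ext (by simpa using this)
    rw [h0, map_zero]
  · rw [classes_gv_map, Polynomial.derivative_map, Polynomial.eval_map_apply]
    intro h0
    have := key _ _ (e1 η (s.gv w η).derivative (s.gv z η).derivative
      (by rw [← Polynomial.derivative_map, ← Polynomial.derivative_map, gw]))
    rw [h0, zero_mul] at this
    exact hg.2 η hη ((ZMod.intCast_zmod_eq_zero_iff_dvd _ _).mp this.symm)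
  · unfold res
    congr 1
    have d0 : ((z i).den : ZMod ℓ) ≠ 0 := fun h => hg.1 i ((ZMod.natCast_eq_zero_iff _ _).mp h)
    rw [← key (w i) (z i) rfl, mul_assoc, mul_inv_cancel₀ d0, mul_one]

/-- Number of classes of good points modulo `ℓ`.
Hint: reduce `z` to `z̄ : Option ι → ZMod ℓ` (`q ↦ num * den⁻¹` is additive and multiplicative on
rationals with denominator prime to `ℓ`, and vanishes iff `ℓ ∣ num`).  For `η = some i` dependent,
`z̄ η` is a root of `s.gv z̄ η`, a polynomial of degree `≤ δ` over `ZMod ℓ` which is nonzero (its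
derivative does not vanish at `z̄ η`) and only depends on the coordinates in `J`. -/
theorem class_count {ι : Type} [Fintype ι] [DecidableEq ι] (s : Sys ι) (δ H : ℕ) (hs : s.Cx δ H)
    (ℓ : ℕ) (hℓ : ℓ.Prime) (T : Finset (ι → ℕ))
    (hT : ∀ c ∈ T, ∃ z : Option ι → ℚ, s.ND z ∧ s.Good z ℓ ∧ cl ℓ z = c) :
    T.card ≤ (δ + 1) ^ Fintype.card ι * ℓ ^ s.J.card := by
  classical
  have := Fact.mk hℓ
  let f : (ι → ℕ) → (ι → ZMod ℓ) := fun c i => (c i : ZMod ℓ)
  have H1 : ∀ c ∈ T, ∃ zb : Option ι → ZMod ℓ, classes_ND0 s zb ∧ (fun i => zb (some i)) = f c ∧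
      (fun i => (zb (some i)).val) = c := by
    intro c hc
    obtain ⟨z, h1, h2, rfl⟩ := hT c hc
    obtain ⟨zb, h3, h4⟩ := classes_red s ℓ z h1 h2
    refine ⟨zb, h3, funext fun i => ?_, funext fun i => h4 _⟩
    simp only [f, cl, ← h4, ZMod.natCast_zmod_val]
  have inj : Set.InjOn f T := by
    intro c hc c' hc' e
    obtain ⟨zb, -, h1, h2⟩ := H1 c hc
    obtain ⟨zb', -, h1', h2'⟩ := H1 c' hc'
    rw [← h2, ← h2']
    funext i
    rw [congrFun h1 i, congrFun h1' i, e]
  rw [← card_image_of_injOn inj]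
  let r : (ι → ZMod ℓ) → (s.J → ZMod ℓ) := fun x j => x j
  refine (card_le_mul_card_image (f := r) _ ((δ + 1) ^ Fintype.card ι) fun y hy => ?_).trans ?_
  · refine classes_fiber hs (fun o => o.elim 0 fun i => if h : i ∈ s.J then y ⟨i, h⟩ else 0) _
      fun x hx => ?_
    obtain ⟨hx1, hx2⟩ := mem_filter.mp hx
    obtain ⟨c, hc, rfl⟩ := mem_image.mp hx1
    obtain ⟨zb, h0, h1, -⟩ := H1 c hc
    refine ⟨zb, h0, h1, fun j hj => ?_⟩
    simp only [Option.elim, hj, dite_true, ← hx2, r]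
    exact congrFun h1 j
  · refine Nat.mul_le_mul_left _ ((card_le_univ _).trans ?_)
    simp [ZMod.card]

/-- In the non-vertical case the class of `N` is determined up to `δ` choices. -/
theorem classN_count {ι : Type} [Fintype ι] [DecidableEq ι] (s : Sys ι) (δ H : ℕ)
    (hs : s.Cx δ H) (hv : s.vert = false) (ℓ : ℕ) (hℓ : ℓ.Prime) (c₀ : ι → ℕ) (T : Finset ℕ)
    (hT : ∀ c ∈ T, ∃ z : Option ι → ℚ, s.ND z ∧ s.Good z ℓ ∧ cl ℓ z = c₀ ∧ res ℓ (z none) = c) :
    T.card ≤ δ := by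
  classical
  have := Fact.mk hℓ
  have hd : s.Dep none := hv
  let z' : Option ι → ZMod ℓ := fun o => o.elim 0 fun i => (c₀ i : ZMod ℓ)
  have sub : T ⊆ (s.gv z' none).roots.toFinset.image ZMod.val := by
    intro c hc
    obtain ⟨z, h1, h2, h3, h4⟩ := hT c hc
    obtain ⟨zb, h5, h6⟩ := classes_red s ℓ z h1 h2
    refine mem_image.mpr ⟨zb none, classes_mem_roots hs hd h5 fun j _ => ?_, (h6 none).trans h4⟩
    simp only [z', Option.elim, ← h3, cl, ← h6, ZMod.natCast_zmod_val]
  exact (card_le_card sub).trans (card_image_le.trans (classes_card_roots hs hd z'))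

/-- With `J = ∅` the `ξ`-part of a nondegenerate point takes boundedly many values. -/
theorem xi_count {ι : Type} [Fintype ι] [DecidableEq ι] (s : Sys ι) (δ H : ℕ) (hs : s.Cx δ H)
    (hJ : s.J = ∅) (T : Finset (ι → ℚ))
    (hT : ∀ x ∈ T, ∃ z : Option ι → ℚ, s.ND z ∧ (fun i => z (some i)) = x) :
    T.card ≤ (δ + 1) ^ Fintype.card ι := by
  refine classes_fiber hs (fun _ => 0) T fun x hx => ?_
  obtain ⟨z, h1, h2⟩ := hT x hx
  exact ⟨z, fun η hη => ⟨(h1 η hη).1, (h1 η hη).2.1⟩, h2, by simp [hJ]⟩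

/-- A single point of bounded height is a nondegenerate point of a rank zero system
(`g i = C c * X - C (a i)`). -/
theorem exists_sys_point {ι : Type} [Fintype ι] [DecidableEq ι] (H : ℕ) (z : Option ι → ℚ)
    (hz : PtH H z) : ∃ s : Sys ι, s.Cx 1 H ∧ s.rank = 0 ∧ s.ND z := by
  obtain ⟨c, c0, cH, ha⟩ := hz
  choose a aH ha using ha
  have bd : ∀ n : ℤ, n.natAbs ≤ H → Bd 1 H (MvPolynomial.C n : MvPolynomial (Option ι) ℤ) := by
    intro n hn
    refine ⟨by rw [MvPolynomial.totalDegree_C]; exact zero_le_one, fun m => ?_⟩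
    rw [MvPolynomial.coeff_C]
    split_ifs
    · exact hn
    · simp
  have cm : ∀ n : ℤ, (MvPolynomial.C n : MvPolynomial (Option ι) ℤ) ∈
      MvPolynomial.supported ℤ (some '' ((∅ : Finset ι) : Set ι)) := fun n =>
    Subalgebra.algebraMap_mem _ n
  have c0' : (MvPolynomial.C c : MvPolynomial (Option ι) ℤ) ≠ 0 := by
    rwa [Ne, MvPolynomial.C_eq_zero]
  refine ⟨⟨∅, false, fun η => Polynomial.C (MvPolynomial.C c) * Polynomial.X +
    Polynomial.C (MvPolynomial.C (-a η))⟩, fun η _ => ⟨Polynomial.natDegree_linear_le, fun j => ?_⟩,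
    rfl, fun η _ => ?_⟩
  · have : ∃ n : ℤ, n.natAbs ≤ H ∧ (Polynomial.C (MvPolynomial.C c) * Polynomial.X +
        Polynomial.C (MvPolynomial.C (-a η)) : Polynomial (MvPolynomial (Option ι) ℤ)).coeff j =
        MvPolynomial.C n := by
      rw [Polynomial.coeff_add, Polynomial.coeff_C_mul_X, Polynomial.coeff_C]
      rcases j with _ | _ | j
      · exact ⟨-a η, by simpa using aH η, by simp⟩
      · exact ⟨c, cH, by simp⟩
      · exact ⟨0, by simp, by simp⟩
    obtain ⟨n, hn, e⟩ := this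
    dsimp only
    rw [e]
    exact ⟨cm n, bd n hn⟩
  · have cq : (c : ℚ) ≠ 0 := by exact_mod_cast c0
    have evC : ∀ n : ℤ, ev z (MvPolynomial.C n) = n := fun n => by simp [ev]
    refine ⟨?_, ?_, ?_⟩
    · simp only [Sys.gv, Polynomial.map_add, Polynomial.map_mul, Polynomial.map_C, Polynomial.map_X,
        evC, Polynomial.eval_add, Polynomial.eval_mul, Polynomial.eval_C, Polynomial.eval_X, ha]
      simp
    · simp only [Sys.gv, Polynomial.map_add, Polynomial.map_mul, Polynomial.map_C, Polynomial.map_X,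
        evC]
      simpa using cq
    · dsimp only
      rw [Polynomial.leadingCoeff_linear c0', evC]
      exact cq

theorem Sys.Cx.mono {ι : Type} {s : Sys ι} {δ H δ' H' : ℕ} (h : s.Cx δ H) (hδ : δ ≤ δ')
    (hH : H ≤ H') : s.Cx δ' H' := by
  intro η hη
  refine ⟨(h η hη).1.trans hδ, fun j => ⟨((h η hη).2 j).1, ((h η hη).2 j).2.1.trans hδ, fun m => ?_⟩⟩
  exact (((h η hη).2 j).2.2 m).trans hH

end Crest.Agent.R022
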