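import Crest.Agent.R022.Defs

set_option autoImplicit false

namespace Crest.Agent.R022

open Finset

section
variable {K K' : Type*} [CommRing K] [CommRing K'] {d : ℕ}

theorem comp_map_mulM (F : Polynomial ℤ) (φ : K →+* K') (a : Fin d → K) :
    φ.mapMatrix (mulM F a) = mulM F (fun j => φ (a j)) := by
  unfold mulM
  rw [map_sum]
  refine Finset.sum_congr rfl fun j _ => ?_
  have h : φ.mapMatrix ((cmp F d).map (Int.castRingHom K)) = (cmp F d).map (Int.castRingHom K') := by
    ext i l
    simp
  rw [← h, ← map_pow]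
  ext i l
  simp

theorem comp_mulM_smul (F : Polynomial ℤ) (c : K) (a : Fin d → K) :
    mulM F (fun j => c * a j) = c • mulM F a := by
  simp only [mulM, Finset.smul_sum, mul_smul]

theorem map_nm (F : Polynomial ℤ) (φ : K →+* K') (a : Fin d → K) :
    φ (nm F a) = nm F (fun j => φ (a j)) := by
  rw [nm, nm, RingHom.map_det, comp_map_mulM]

theorem map_bvec (F : Polynomial ℤ) (k : ℕ) (φ : K →+* K') (a : Fin d → K) (N : K) (j : Fin d) :
    φ (bvec F k a N j) = bvec F k (fun j => φ (a j)) (φ N) j := by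
  rw [bvec, bvec, ← comp_map_mulM, ← RingHom.map_adjugate, ← map_pow, RingHom.map_mulVec]
  congr 2
  funext i
  simp only [wv, Function.comp_apply]
  split_ifs <;> simp

theorem map_conj (φ : K →+* K') (a : Fin d → K) (t : K) :
    φ (conj a t) = conj (fun j => φ (a j)) (φ t) := by
  simp [conj]

theorem nm_smul (F : Polynomial ℤ) (c : K) (a : Fin d → K) :
    nm F (fun j => c * a j) = c ^ d * nm F a := by
  rw [nm, nm, comp_mulM_smul, Matrix.det_smul, Fintype.card_fin]

theorem bvec_smul (F : Polynomial ℤ) (k : ℕ) (c : K) (a : Fin d → K) (N : K) (j : Fin d) :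
    bvec F k (fun j => c * a j) N j = c ^ (k * (d - 1)) * bvec F k a N j := by
  rw [bvec, bvec, comp_mulM_smul, Matrix.adjugate_smul, Fintype.card_fin, smul_pow,
    Matrix.smul_mulVec, ← pow_mul, mul_comm (d - 1) k]
  rfl

theorem conj_smul (c : K) (a : Fin d → K) (t : K) :
    conj (fun j => c * a j) t = c * conj a t := by
  simp only [conj, Finset.mul_sum, mul_assoc]

/-- The row vector `(t ^ j)_j` is a left eigenvector of the companion matrix, up to `F(t)`. -/
theorem vecMul_cmp (F : Polynomial ℤ) (hF : F.Monic) (hd : F.natDegree = d) (t : K)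
    (ht : Polynomial.aeval t F = 0) :
    Matrix.vecMul (fun j : Fin d => t ^ (j : ℕ)) ((cmp F d).map (Int.castRingHom K)) =
      t • fun j : Fin d => t ^ (j : ℕ) := by
  funext j
  simp only [Matrix.vecMul, dotProduct, Matrix.map_apply, cmp, Pi.smul_apply, smul_eq_mul]
  by_cases hj : j.val + 1 = d
  · simp only [hj, if_true]
    rw [Polynomial.aeval_eq_sum_range, hd, Finset.sum_range_succ,
      show F.coeff d = 1 from hd ▸ hF.coeff_natDegree, one_smul, Finset.sum_range] at ht
    rw [← pow_succ', hj, ← neg_eq_iff_add_eq_zero.2 ht, ← Finset.sum_neg_distrib]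
    refine Finset.sum_congr rfl fun i _ => ?_
    simp [mul_comm]
  · simp only [hj, if_false]
    have hj' : j.val + 1 < d := by have := j.2; omega
    rw [Finset.sum_eq_single ⟨j.val + 1, hj'⟩]
    · simp [pow_succ']
    · intro i _ hi
      have : i.val ≠ j.val + 1 := fun h => hi (Fin.ext h)
      simp [this]
    · simp

theorem vecMul_mulM (F : Polynomial ℤ) (hF : F.Monic) (hd : F.natDegree = d) (t : K)
    (ht : Polynomial.aeval t F = 0) (a : Fin d → K) :
    Matrix.vecMul (fun j : Fin d => t ^ (j : ℕ)) (mulM F a) =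
      conj a t • fun j : Fin d => t ^ (j : ℕ) := by
  have h : ∀ n : ℕ, Matrix.vecMul (fun j : Fin d => t ^ (j : ℕ))
      (((cmp F d).map (Int.castRingHom K)) ^ n) = t ^ n • fun j : Fin d => t ^ (j : ℕ) := by
    intro n
    induction n with
    | zero => simp
    | succ n ih =>
      rw [pow_succ, ← Matrix.vecMul_vecMul, ih, Matrix.smul_vecMul, vecMul_cmp F hF hd t ht,
        smul_smul, pow_succ]
  rw [mulM, conj, Matrix.vecMul_sum, Finset.sum_smul]
  refine Finset.sum_congr rfl fun j _ => ?_
  rw [Matrix.vecMul_smul, h, smul_smul]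

theorem comp_vecMul_pow (F : Polynomial ℤ) (hF : F.Monic) (hd : F.natDegree = d) (t : K)
    (ht : Polynomial.aeval t F = 0) (a : Fin d → K) (k : ℕ) :
    Matrix.vecMul (fun j : Fin d => t ^ (j : ℕ)) (mulM F a ^ k) =
      conj a t ^ k • fun j : Fin d => t ^ (j : ℕ) := by
  induction k with
  | zero => simp
  | succ n ih =>
    rw [pow_succ, ← Matrix.vecMul_vecMul, ih, Matrix.smul_vecMul, vecMul_mulM F hF hd t ht,
      smul_smul, pow_succ]

theorem comp_dot_wv (hd2 : 2 ≤ d) (t N : K) :
    (fun j : Fin d => t ^ (j : ℕ)) ⬝ᵥ wv d N = N - t := by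
  obtain ⟨n, rfl⟩ := Nat.exists_eq_add_of_le' hd2
  simp [dotProduct, wv, Fin.sum_univ_succ, sub_eq_add_neg]

/-- `β α ^ k = nm ^ k (N - t)` (from `adj ^ k * M ^ k = det ^ k`, the matrices commute) -/
theorem conj_bvec (F : Polynomial ℤ) (hF : F.Monic) (hd : F.natDegree = d) (hd2 : 2 ≤ d) (k : ℕ)
    (t : K) (ht : Polynomial.aeval t F = 0) (a : Fin d → K) (N : K) :
    conj (bvec F k a N) t * conj a t ^ k = nm F a ^ k * (N - t) := by
  have h1 := comp_vecMul_pow F hF hd t ht a k
  have h2 : mulM F a ^ k * (mulM F a).adjugate ^ k = nm F a ^ k • 1 := by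
    have hc : Commute (mulM F a) (mulM F a).adjugate := by
      rw [Commute, SemiconjBy, Matrix.mul_adjugate, Matrix.adjugate_mul]
    rw [← hc.mul_pow, Matrix.mul_adjugate, smul_pow, one_pow, nm]
  have h3 : conj (bvec F k a N) t = (fun j : Fin d => t ^ (j : ℕ)) ⬝ᵥ bvec F k a N := by
    simp only [conj, dotProduct, mul_comm]
  rw [h3, mul_comm, ← smul_eq_mul, ← smul_dotProduct, ← h1, ← Matrix.dotProduct_mulVec, bvec,
    Matrix.mulVec_mulVec, h2, Matrix.smul_mulVec, Matrix.one_mulVec, dotProduct_smul,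
    comp_dot_wv hd2, smul_eq_mul]

end

theorem comp_isUnit_det {d : ℕ} {ϑ : Fin d → ℂ} (hinj : Function.Injective ϑ) {K : Type*}
    [CommRing K] [Algebra ℂ K] :
    IsUnit (Matrix.vandermonde fun i => algebraMap ℂ K (ϑ i)).det := by
  have h : (Matrix.vandermonde fun i => algebraMap ℂ K (ϑ i)) =
      (algebraMap ℂ K).mapMatrix (Matrix.vandermonde ϑ) := by
    ext i j
    simp
  rw [h, ← RingHom.map_det]
  exact (Matrix.det_vandermonde_ne_zero_iff.2 hinj).isUnit.map _

/-- the norm is the product of the conjugates (diagonalise with the Vandermonde matrix, whose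
determinant is the image of a nonzero complex number) -/
theorem nm_eq_prod {d : ℕ} {F : Polynomial ℤ} {ϑ : Fin d → ℂ} (hF : FS F ϑ) {K : Type*}
    [CommRing K] [Algebra ℂ K] (a : Fin d → K) :
    nm F a = ∏ i, conj a (algebraMap ℂ K (ϑ i)) := by
  have hV : (Matrix.vandermonde fun i => algebraMap ℂ K (ϑ i)) * mulM F a =
      Matrix.diagonal (fun i => conj a (algebraMap ℂ K (ϑ i))) *
        Matrix.vandermonde fun i => algebraMap ℂ K (ϑ i) := by
    ext i j
    have ht : Polynomial.aeval (algebraMap ℂ K (ϑ i)) F = 0 := by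
      have := congrArg (algebraMap ℂ K) (hF.root i)
      rw [map_zero] at this
      rw [← this]
      exact (Polynomial.aeval_algHom_apply (algebraMap ℂ K).toIntAlgHom (ϑ i) F)
    have h := congrFun (vecMul_mulM F hF.monic hF.deg _ ht a) j
    rw [Matrix.diagonal_mul]
    exact h
  have h1 := congrArg Matrix.det hV
  rw [Matrix.det_mul, Matrix.det_mul, Matrix.det_diagonal, mul_comm] at h1
  exact (comp_isUnit_det hF.inj).mul_right_cancel h1

/-- conjugates and coordinates span the same space -/
theorem span_conj {d : ℕ} {ϑ : Fin d → ℂ} (hinj : Function.Injective ϑ) {K : Type*} [CommRing K]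
    [Algebra ℂ K] (a : Fin d → K) :
    Submodule.span ℂ (Set.range fun i => conj a (algebraMap ℂ K (ϑ i))) =
      Submodule.span ℂ (Set.range a) := by
  apply le_antisymm
  · rw [Submodule.span_le]
    rintro _ ⟨i, rfl⟩
    refine Submodule.sum_mem _ fun j _ => ?_
    rw [← map_pow, mul_comm, ← Algebra.smul_def]
    exact Submodule.smul_mem _ _ (Submodule.subset_span ⟨j, rfl⟩)
  · rw [Submodule.span_le]
    rintro _ ⟨j, rfl⟩
    have hu : IsUnit (Matrix.vandermonde ϑ).det :=
      (Matrix.det_vandermonde_ne_zero_iff.2 hinj).isUnit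
    have h : a j = ∑ i, (Matrix.vandermonde ϑ)⁻¹ j i • conj a (algebraMap ℂ K (ϑ i)) := by
      have h1 : ∀ l : Fin d,
          ∑ i, (Matrix.vandermonde ϑ)⁻¹ j i * ϑ i ^ (l : ℕ) = if j = l then 1 else 0 :=
        fun l => by
          rw [← Matrix.one_apply, ← Matrix.nonsing_inv_mul _ hu]
          rfl
      simp only [conj, Finset.smul_sum]
      rw [Finset.sum_comm]
      simp only [← map_pow, mul_comm (a _), ← Algebra.smul_def, smul_smul, ← Finset.sum_smul, h1]
      simp
    rw [h]
    exact Submodule.sum_mem _ fun i _ => Submodule.smul_mem _ _ (Submodule.subset_span ⟨i, rfl⟩)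

/-- existence of the roots -/
theorem exists_FS (F : Polynomial ℤ) (hF : F.Monic)
    (hirr : Irreducible (F.map (Int.castRingHom ℚ))) {d : ℕ} (hd : F.natDegree = d) :
    ∃ ϑ : Fin d → ℂ, FS F ϑ := by
  classical
  have hsep : (F.map (Int.castRingHom ℂ)).Separable := by
    have h := hirr.separable.map (f := algebraMap ℚ ℂ)
    rwa [Polynomial.map_map, RingHom.ext_int ((algebraMap ℚ ℂ).comp (Int.castRingHom ℚ))
      (Int.castRingHom ℂ)] at h
  have hc : (F.map (Int.castRingHom ℂ)).roots.toFinset.card = d := by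
    rw [Multiset.toFinset_card_of_nodup (Polynomial.nodup_roots hsep),
      IsAlgClosed.card_roots_eq_natDegree, hF.natDegree_map, hd]
  let e := (Finset.equivFinOfCardEq hc).symm
  refine ⟨fun i => e i, hF, hd, hirr, fun i j h => e.injective (Subtype.ext h), fun i => ?_⟩
  have h := Polynomial.isRoot_of_mem_roots (Multiset.mem_toFinset.1 (e i).2)
  rw [Polynomial.aeval_def, Polynomial.eval₂_eq_eval_map]
  exact h

end Crest.Agent.R022
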