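import Crest.Agent.R022.Integ

set_option autoImplicit false

namespace Crest.Agent.R022

open Finset

theorem constr_minpoly {d : ℕ} {F : Polynomial ℤ} {ϑ : Fin d → ℂ} (hF : FS F ϑ) (i : Fin d) :
    (minpoly ℚ (ϑ i)).natDegree = d := by
  have h : Polynomial.aeval (ϑ i) (F.map (Int.castRingHom ℚ)) = 0 := by
    rw [← algebraMap_int_eq, Polynomial.aeval_map_algebraMap]
    exact hF.root i
  rw [← minpoly.eq_of_irreducible_of_monic hF.irr h (hF.monic.map _), hF.monic.natDegree_map,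
    hF.deg]

theorem constr_conj_ne {d : ℕ} {F : Polynomial ℤ} {ϑ : Fin d → ℂ} (hF : FS F ϑ) (i : Fin d)
    {a : Fin d → ℚ} {j : Fin d} (ha : a j ≠ 0) : conj (fun j => (a j : ℂ)) (ϑ i) ≠ 0 := by
  have h := linearIndependent_pow (K := ℚ) (ϑ i)
  rw [constr_minpoly hF i, Fintype.linearIndependent_iff] at h
  intro h0
  refine ha (h a ?_ j)
  simpa [conj, Rat.smul_def] using h0

theorem constr_sub_ne {d : ℕ} {F : Polynomial ℤ} {ϑ : Fin d → ℂ} (hF : FS F ϑ) (hd : 2 ≤ d)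
    (i : Fin d) (q : ℚ) : (q : ℂ) - ϑ i ≠ 0 := by
  intro h
  have h1 : (minpoly ℚ (ϑ i)).natDegree = 1 :=
    minpoly.natDegree_eq_one_iff.2 ⟨q, by simpa using sub_eq_zero.1 h⟩
  rw [constr_minpoly hF i] at h1
  omega

theorem constr_vand {d : ℕ} {ϑ : Fin d → ℂ} (hinj : Function.Injective ϑ) :
    ∃ C : ℝ, 0 ≤ C ∧ ∀ (b : Fin d → ℂ) (M : ℝ), 0 ≤ M → (∀ i, ‖conj b (ϑ i)‖ ≤ M) →
      ∀ j, ‖b j‖ ≤ C * M := by
  have hdet : IsUnit (Matrix.vandermonde ϑ).det :=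
    (Matrix.det_vandermonde_ne_zero_iff.2 hinj).isUnit
  refine ⟨∑ j, ∑ i, ‖(Matrix.vandermonde ϑ)⁻¹ j i‖, by positivity, fun b M hM h j => ?_⟩
  have e : b = Matrix.mulVec (Matrix.vandermonde ϑ)⁻¹ (fun i => conj b (ϑ i)) := by
    have e1 : (fun i => conj b (ϑ i)) = Matrix.mulVec (Matrix.vandermonde ϑ) b := by
      funext i
      simp [conj, Matrix.mulVec, dotProduct, Matrix.vandermonde_apply, mul_comm]
    rw [e1, Matrix.mulVec_mulVec, Matrix.nonsing_inv_mul _ hdet, Matrix.one_mulVec]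
  calc ‖b j‖ = ‖∑ i, (Matrix.vandermonde ϑ)⁻¹ j i * conj b (ϑ i)‖ := by
        conv_lhs => rw [e]
        rfl
    _ ≤ ∑ i, ‖(Matrix.vandermonde ϑ)⁻¹ j i‖ * M := by
        refine (norm_sum_le _ _).trans (Finset.sum_le_sum fun i _ => ?_)
        rw [norm_mul]
        exact mul_le_mul_of_nonneg_left (h i) (norm_nonneg _)
    _ ≤ _ := by
        rw [← Finset.sum_mul]
        exact mul_le_mul_of_nonneg_right (Finset.single_le_sum
          (f := fun j => ∑ i, ‖(Matrix.vandermonde ϑ)⁻¹ j i‖) (fun j _ => by positivity)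
          (Finset.mem_univ j)) hM

theorem constr_pigeon {d p A : ℕ} (hp : 0 < p) (h : p < (A + 1) ^ d) (N : ℤ) :
    ∃ a : Fin d → ℤ, (∃ j, a j ≠ 0) ∧ (∀ j, (a j).natAbs ≤ A) ∧ (p : ℤ) ∣ conj a N := by
  have : NeZero p := ⟨hp.ne'⟩
  obtain ⟨u, v, huv, he⟩ := Fintype.exists_ne_map_eq_of_card_lt
    (fun u : Fin d → Fin (A + 1) => ((conj (fun j => ((u j : ℕ) : ℤ)) N : ℤ) : ZMod p))
    (by simpa using h)
  refine ⟨fun j => ((v j : ℕ) : ℤ) - ((u j : ℕ) : ℤ), ?_, fun j => ?_, ?_⟩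
  · obtain ⟨j, hj⟩ := Function.ne_iff.1 huv
    refine ⟨j, fun h0 => hj (Fin.ext ?_)⟩
    simp only at h0
    omega
  · have h1 := (u j).2
    have h2 := (v j).2
    simp only
    omega
  · have h1 := (ZMod.intCast_eq_intCast_iff_dvd_sub _ _ _).1 he
    simpa only [conj, sub_mul, Finset.sum_sub_distrib] using h1

/-- Construction of the arithmetic data.
Hint: let `A ≥ 1` be maximal with `A ^ d ≤ p` (`Nat.findGreatest`, or `Nat.nthRoot`), so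
`p < (A + 1) ^ d`; pigeonhole on `[0, A] ^ d → ZMod p` gives `a ≠ 0`, `|a j| ≤ A`, `p ∣ conj a N`.  The
conjugates `α_i = conj a (ϑ i)` are nonzero (irreducibility: `F` is the minimal polynomial of `ϑ i`),
`‖α_i‖ ≤ C₁ A`, `nm = ∏ α_i = p m` so `|m| ≤ C₁ ^ d` and `‖α_i‖ ≥ A / C₁ ^ (d - 1)`.  With
`p ^ k b = bvec` (`dvd_nm_bvec`) and `β_i = conj b (ϑ i)`: `β_i α_i ^ k = m ^ k (N - ϑ_i)`
(`conj_bvec`), so `‖β_i‖ A ^ k ≤ C₂ X`; invert the Vandermonde matrix to bound `b j`.  Since `β_0 ≠ 0`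
(`ϑ_0` is not an integer, `d ≥ 2`) some `b j ≠ 0`, which gives `A ≤ A ^ k ≤ C X`.
`A < p` follows from `A ^ d ≤ p`, `d ≥ 2`. -/
theorem exists_AD {d : ℕ} {F : Polynomial ℤ} {ϑ : Fin d → ℂ} (hF : FS F ϑ) (hd : 2 ≤ d) (k : ℕ)
    (hk : 1 ≤ k) :
    ∃ C : ℕ, 1 ≤ C ∧ ∀ (X : ℕ) (N : ℤ) (p : ℕ), 1 ≤ X → p.Prime → 2 * X < p ^ 2 →
      N.natAbs ≤ X → (p : ℤ) ^ k ∣ F.eval N →
      ∃ (m : ℤ) (a b : Fin d → ℤ) (A : ℕ), AD F k C X N p m a b A := by
  obtain ⟨C₃, hC₃, hV⟩ := constr_vand hF.inj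
  obtain ⟨C₁, hC₁, hC₁'⟩ : ∃ C₁ : ℝ, 1 ≤ C₁ ∧ ∀ i, ∑ j : Fin d, ‖ϑ i‖ ^ (j : ℕ) ≤ C₁ :=
    ⟨1 + ∑ i, ∑ j : Fin d, ‖ϑ i‖ ^ (j : ℕ), le_add_of_nonneg_right (by positivity), fun i =>
      (Finset.single_le_sum (f := fun i => ∑ j : Fin d, ‖ϑ i‖ ^ (j : ℕ))
        (fun i _ => by positivity) (Finset.mem_univ i)).trans (by linarith)⟩
  obtain ⟨T, hT0, hT⟩ : ∃ T : ℝ, 0 ≤ T ∧ ∀ i, ‖ϑ i‖ ≤ T := ⟨‖ϑ‖, norm_nonneg _, norm_le_pi_norm ϑ⟩
  have hC0 : 0 < C₁ := by linarith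
  obtain ⟨C, hC⟩ := exists_nat_ge (1 + C₁ ^ d + C₃ * ((C₁ ^ d) ^ k * (1 + T) * (C₁ ^ (d - 1)) ^ k))
  have hp1 : 0 < C₁ ^ d := by positivity
  have hp2 : 0 ≤ C₃ * ((C₁ ^ d) ^ k * (1 + T) * (C₁ ^ (d - 1)) ^ k) := by positivity
  refine ⟨C, by exact_mod_cast (by linarith : (1 : ℝ) ≤ C), fun X N p hX hp hbig hN hdvd => ?_⟩
  obtain ⟨A, hA1, hA2⟩ : ∃ A : ℕ, A ^ d ≤ p ∧ p < (A + 1) ^ d :=
    ⟨Nat.nthRoot d p, Nat.pow_nthRoot_le_iff.2 (Or.inl (by omega)),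
      Nat.lt_pow_nthRoot_add_one (by omega) p⟩
  have hA0 : 1 ≤ A := by
    rcases Nat.eq_zero_or_pos A with rfl | h
    · have := hp.two_le
      simp at hA2
      omega
    · exact h
  have hA0' : (0 : ℝ) < A := by exact_mod_cast hA0
  have hp0 : (0 : ℝ) < p := by exact_mod_cast hp.pos
  have hX' : (1 : ℝ) ≤ X := by exact_mod_cast hX
  obtain ⟨a, ⟨j₀, hj₀⟩, ha, hpa⟩ := constr_pigeon hp.pos hA2 N
  obtain ⟨⟨m, hm⟩, hb⟩ := dvd_nm_bvec F hF.monic hF.deg hd k hk p N a hdvd hpa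
  choose b hb using hb
  have hα0 : ∀ i, conj (fun j => (a j : ℂ)) (ϑ i) ≠ 0 := fun i => by
    have := constr_conj_ne hF i (a := fun j => (a j : ℚ)) (j := j₀) (by exact_mod_cast hj₀)
    simpa using this
  have hα : ∀ i, ‖conj (fun j => (a j : ℂ)) (ϑ i)‖ ≤ C₁ * A := fun i => by
    refine (norm_sum_le _ _).trans (le_trans ?_ (mul_le_mul_of_nonneg_right (hC₁' i) hA0'.le))
    rw [Finset.sum_mul]
    refine Finset.sum_le_sum fun j _ => ?_
    rw [norm_mul, norm_pow, mul_comm, Complex.norm_intCast, ← Int.cast_abs, ← Nat.cast_natAbs]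
    exact mul_le_mul_of_nonneg_left (by exact_mod_cast ha j) (by positivity)
  have hnm : nm F (fun j => (a j : ℂ)) = p * m := by
    have := map_nm F (Int.castRingHom ℂ) a
    rw [hm] at this
    simpa using this.symm
  have hprod : ∏ i, conj (fun j => (a j : ℂ)) (ϑ i) = p * m := by
    rw [← hnm, nm_eq_prod hF]
    rfl
  have hm0 : m ≠ 0 := by
    rintro rfl
    exact Finset.prod_ne_zero_iff.2 (fun i _ => hα0 i) (by simpa using hprod)
  have hm1 : (1 : ℝ) ≤ ‖(m : ℂ)‖ := by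
    rw [Complex.norm_intCast, ← Int.cast_abs]
    exact_mod_cast Int.one_le_abs hm0
  have hAp : (A : ℝ) ^ d ≤ p := by exact_mod_cast hA1
  have hnp : ∏ i, ‖conj (fun j => (a j : ℂ)) (ϑ i)‖ = p * ‖(m : ℂ)‖ := by
    rw [← norm_prod, hprod, norm_mul, Complex.norm_natCast]
  have hmle : ‖(m : ℂ)‖ ≤ C₁ ^ d := by
    refine le_of_mul_le_mul_left ?_ hp0
    rw [← hnp]
    calc ∏ i, ‖conj (fun j => (a j : ℂ)) (ϑ i)‖ ≤ ∏ _i : Fin d, C₁ * A :=
          Finset.prod_le_prod (fun i _ => norm_nonneg _) fun i _ => hα i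
      _ = C₁ ^ d * A ^ d := by simp [mul_pow]
      _ ≤ C₁ ^ d * p := by gcongr
      _ = _ := mul_comm _ _
  have hαlo : ∀ i, (A : ℝ) ≤ ‖conj (fun j => (a j : ℂ)) (ϑ i)‖ * C₁ ^ (d - 1) := fun i => by
    refine le_of_mul_le_mul_right ?_ (pow_pos hA0' (d - 1))
    calc (A : ℝ) * A ^ (d - 1) = A ^ d := by rw [← pow_succ']; congr 1; omega
      _ ≤ p * ‖(m : ℂ)‖ := hAp.trans (le_mul_of_one_le_right hp0.le hm1)
      _ = ‖conj (fun j => (a j : ℂ)) (ϑ i)‖ *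
          ∏ i' ∈ univ.erase i, ‖conj (fun j => (a j : ℂ)) (ϑ i')‖ := by
          rw [← hnp, Finset.mul_prod_erase _ (fun i => ‖conj (fun j => (a j : ℂ)) (ϑ i)‖)
            (Finset.mem_univ i)]
      _ ≤ ‖conj (fun j => (a j : ℂ)) (ϑ i)‖ * ∏ _i ∈ univ.erase i, C₁ * A :=
          mul_le_mul_of_nonneg_left
            (Finset.prod_le_prod (fun i _ => norm_nonneg _) fun i _ => hα i) (norm_nonneg _)
      _ = _ := by
          rw [Finset.prod_const, Finset.card_erase_of_mem (Finset.mem_univ i), Finset.card_univ,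
            Fintype.card_fin, mul_pow, mul_assoc]
  have hrel : ∀ i, conj (fun j => (b j : ℂ)) (ϑ i) * conj (fun j => (a j : ℂ)) (ϑ i) ^ k =
      (m : ℂ) ^ k * (N - ϑ i) := fun i => by
    have h1 := conj_bvec F hF.monic hF.deg hd k (ϑ i) (hF.root i) (fun j => (a j : ℂ)) (N : ℂ)
    have h2 : bvec F k (fun j => (a j : ℂ)) (N : ℂ) = fun j => (p : ℂ) ^ k * (b j : ℂ) := by
      funext j
      have := map_bvec F k (Int.castRingHom ℂ) a N j
      rw [hb j] at this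
      simpa using this.symm
    rw [h2, conj_smul, hnm, mul_pow, mul_assoc, mul_assoc] at h1
    exact mul_left_cancel₀ (pow_ne_zero _ (Nat.cast_ne_zero.2 hp.ne_zero)) h1
  have hβ : ∀ i, ‖conj (fun j => (b j : ℂ)) (ϑ i)‖ ≤
      (C₁ ^ d) ^ k * (1 + T) * (C₁ ^ (d - 1)) ^ k * X / A ^ k := fun i => by
    rw [le_div_iff₀ (by positivity)]
    have h1 : ‖(N : ℂ) - ϑ i‖ ≤ (1 + T) * X := by
      refine (norm_sub_le _ _).trans ?_
      have h2 : ‖(N : ℂ)‖ ≤ X := by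
        rw [Complex.norm_intCast, ← Int.cast_abs, ← Nat.cast_natAbs]
        exact_mod_cast hN
      have h3 := (hT i).trans (le_mul_of_one_le_right hT0 hX')
      linarith
    calc ‖conj (fun j => (b j : ℂ)) (ϑ i)‖ * (A : ℝ) ^ k
        ≤ ‖conj (fun j => (b j : ℂ)) (ϑ i)‖ *
          (‖conj (fun j => (a j : ℂ)) (ϑ i)‖ * C₁ ^ (d - 1)) ^ k :=
          mul_le_mul_of_nonneg_left (pow_le_pow_left₀ hA0'.le (hαlo i) k) (norm_nonneg _)
      _ = ‖(m : ℂ)‖ ^ k * ‖(N : ℂ) - ϑ i‖ * (C₁ ^ (d - 1)) ^ k := by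
          rw [mul_pow, ← mul_assoc, ← norm_pow, ← norm_mul, hrel, norm_mul, norm_pow]
      _ ≤ (C₁ ^ d) ^ k * ((1 + T) * X) * (C₁ ^ (d - 1)) ^ k := by gcongr
      _ = _ := by ring
  have hbA : ∀ j, (b j).natAbs * A ^ k ≤ C * X := fun j => by
    have h1 := hV _ _ (by positivity) hβ j
    rw [Complex.norm_intCast, ← Int.cast_abs, ← Nat.cast_natAbs, ← mul_div_assoc,
      le_div_iff₀ (by positivity), ← mul_assoc] at h1
    have h2 : C₃ * ((C₁ ^ d) ^ k * (1 + T) * (C₁ ^ (d - 1)) ^ k) * X ≤ C * X :=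
      mul_le_mul_of_nonneg_right (by linarith) (by positivity)
    exact_mod_cast h1.trans h2
  have hb0 : ∃ j, b j ≠ 0 := by
    by_contra hc
    push Not at hc
    have h1 := hrel j₀
    have h2 : (N : ℂ) - ϑ j₀ ≠ 0 := by simpa using constr_sub_ne hF hd j₀ N
    simp only [conj, hc, Int.cast_zero, zero_mul, Finset.sum_const_zero] at h1
    exact mul_ne_zero (pow_ne_zero _ (Int.cast_ne_zero.2 hm0)) h2 h1.symm
  refine ⟨m, a, b, A, hp, hbig, hN, hdvd, hpa, hm, hm0, ?_, fun j => (hb j).symm, ha, hbA, ?_, ?_⟩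
  · rw [Complex.norm_intCast, ← Int.cast_abs, ← Nat.cast_natAbs] at hmle
    exact_mod_cast (by linarith : ((m.natAbs : ℕ) : ℝ) ≤ C)
  · obtain ⟨j, hj⟩ := hb0
    refine le_trans ?_ (hbA j)
    exact (Nat.le_self_pow (by omega) A).trans
      (Nat.le_mul_of_pos_left _ (Int.natAbs_pos.2 hj))
  · rcases hA0.eq_or_lt with h | h
    · rw [← h]; exact hp.one_lt
    · exact (lt_self_pow₀ h (by omega)).trans_le hA1

/-- at an arithmetic point the conjugates do not vanish -/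
theorem IsPt.ne_zero {n : ℕ} {F : Polynomial ℤ} {ϑ : Fin (n + 1) → ℂ} (hF : FS F ϑ) (hn : 1 ≤ n)
    {k C X : ℕ} {c : Fin (n + 1)} {m : ℤ} {z : Option (Fin n) → ℚ} (h : IsPt F k C X c m z)
    (i : Fin (n + 1)) : alv ϑ c (toC z) i ≠ 0 ∧ toC z none - ϑ i ≠ 0 := by
  have _ := h
  refine ⟨?_, constr_sub_ne hF (by omega) i _⟩
  have e : hom c (toC z) = fun j => ((hom c z j : ℚ) : ℂ) := by
    funext j
    refine Fin.succAboveCases c ?_ (fun j => ?_) j <;> simp [hom, toC]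
  unfold alv
  rw [e]
  exact constr_conj_ne hF i (j := c) (by simp [hom])

end Crest.Agent.R022
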