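import Crest.Agent.R022.ExStep

set_option autoImplicit false

namespace Crest.Agent.R022

open Finset

/-- The exchange argument (iterate `ex_step` from `ex_init`, finish with `ex_final`). -/
theorem exchange (n : ℕ) (J : ℕ → ℕ) (hJ0 : J 0 = 0) (hJ : StrictMono J) (M L : ℕ) :
    ∃ T K : ℕ, ∀ {X Sy Cl : Type} (E : ExData X Sy Cl), ExHyp E n J M L → E.Pool.card = T →
      E.S.card ≤ K * ∏ i ∈ range n, E.κ i ^ (J (i + 1) - J i) := by
  have key : ∀ i ≤ n, ∃ Li Kc Fi : ℕ, ∀ {X Sy Cl : Type} (E : ExData X Sy Cl), ExHyp E n J M L →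
      ∃ lab, ExInv E (J n) (J i) i Li (Kc * ∏ l ∈ range i, E.κ l ^ (J (l + 1) - J l)) Fi lab := by
    intro i
    induction i with
    | zero =>
      intro _
      refine ⟨1, 1, 0, fun E h => ?_⟩
      rw [hJ0, prod_range_zero, one_mul]
      exact ex_init E n J M L (J n) h
    | succ i ih =>
      intro hi
      obtain ⟨Li, Kc, Fi, hE⟩ := ih (by omega)
      refine ⟨Li ^ (J i + 1) * (L + 1), Kc * Li,
        (J i + 1) * Fi + J (i + 1) * M + J (i + 1) ^ 2, fun E h => ?_⟩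
      obtain ⟨lab, hl⟩ := hE E h
      have := ex_step E n J M L (J n) h i (by omega) (hJ (by omega)) (hJ.monotone hi) _ _ _ lab hl
      have e : Kc * Li * ∏ l ∈ range (i + 1), E.κ l ^ (J (l + 1) - J l) =
          (Kc * ∏ l ∈ range i, E.κ l ^ (J (l + 1) - J l)) * Li * E.κ i ^ (J (i + 1) - J i) := by
        rw [prod_range_succ]; ring
      rw [e]
      exact this
  obtain ⟨Ln, Kc, Fn, hE⟩ := key n le_rfl
  refine ⟨Fn + 1, (Fn + 1) ^ J n * (Kc * (Ln * L)), fun E h hT => ?_⟩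
  obtain ⟨lab, hl⟩ := hE E h
  refine (ex_final E n J M L _ _ _ _ _ h lab hl (by omega)).trans (le_of_eq ?_)
  rw [hT]; ring

end Crest.Agent.R022
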