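import Crest.Agent.R022.Defs

set_option autoImplicit false

namespace Crest.Agent.R022

open Finset

/-- number of primes used for the top levels -/
def Jtop (d : ℕ) : ℕ := if d = 4 then 319 else if d = 5 then 200 else if d = 6 then 150
  else if d = 7 then 110 else 90

/-- number of primes used for the lower levels -/
def Jlow (d : ℕ) : ℕ := if d = 4 then 337 else if d = 5 then 255 else if d = 6 then 205
  else if d = 7 then 171 else 145

/-- the schedule -/
def Jsch (d i : ℕ) : ℕ := if i = 0 then 0 else if i ≤ 2 then Jtop d + (i - 1) else Jlow d + (i - 3)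

theorem Jsch_zero (d : ℕ) : Jsch d 0 = 0 := by
  simp [Jsch]

theorem Jsch_strictMono (d : ℕ) : StrictMono (Jsch d) := by
  refine strictMono_nat_of_lt_succ fun i => ?_
  have h : Jtop d + 2 ≤ Jlow d ∧ 0 < Jtop d := by
    unfold Jtop Jlow
    split_ifs <;> omega
  unfold Jsch
  rw [if_neg (Nat.succ_ne_zero i)]
  split_ifs <;> omega

theorem Jsch_exponent (n : ℕ) (h3 : 3 ≤ n) (h7 : n ≤ 7) :
    ∑ i ∈ range (2 * n), ((2 * n + 1 - i) / 2) * (Jsch (n + 1) (i + 1) - Jsch (n + 1) i) < 1000 := by
  interval_cases n <;> decide +kernel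

theorem num_sum_sum (N : ℕ → ℕ) (D : ℕ) :
    ∑ e ∈ range D, ∑ e' ∈ range (e + 1), N e' = ∑ e' ∈ range D, (D - e') * N e' := by
  induction D with
  | zero => simp
  | succ D ih =>
    rw [sum_range_succ, ih, sum_range_succ (fun e' => (D + 1 - e') * N e'), sum_range_succ,
      ← add_assoc, ← sum_add_distrib, Nat.add_sub_cancel_left, one_mul]
    congr 1
    refine sum_congr rfl fun e he => ?_
    rw [Nat.sub_add_comm (mem_range.1 he).le, add_mul, one_mul]

/-- fast binomial coefficient -/
def numC (n k : ℕ) : ℕ := n.descFactorial k / k.factorial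

theorem num_choose (n k : ℕ) : n.choose k = numC n k :=
  Nat.choose_eq_descFactorial_div_factorial n k

/-- fast `cnt` -/
def numCnt (y y' R : ℕ) : ℕ :=
  ∑ t ∈ range (y' + 1), numC y' t * numC R t * numC (R + y - t) (y - t)

theorem num_cnt (y y' R : ℕ) : cnt y y' R = numCnt y y' R := by
  simp only [cnt, numCnt, num_choose]

/-- fast `Gf` -/
def numGf (r y D' I : ℕ) : ℕ := ∑ i ∈ range I, (r - (D' + 1) * numC (i + y) y)

theorem num_Gf (r y D' I : ℕ) : Gf r y D' I = numGf r y D' I := by
  simp only [Gf, numGf, num_choose]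

/-- fast `Nv` -/
def numNv (d y R : ℕ) : ℕ := if y = 1 then d * R + 1 else if y = 2 then N2 R else numCnt y y R

/-- fast `gfun` in the nonvertical case -/
def numG (d k y e : ℕ) : ℕ := if y = 1 then (k + 1) * e + 1 else numCnt y (y - 1) (Rad d k e)

/-- the final inequality -/
def numIneq (y Jn B D D' I r s : ℕ) : Bool := B * (D * r) < B * s + Jn * numGf r y D' I

/-- the check -/
def numChk (d k : ℕ) (vert : Bool) (y Jn B D I : ℕ) : Bool :=
  if vert then numIneq y Jn B D D I (∑ e ∈ range (D + 1), numNv d y (Rad d k e))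
    (∑ e ∈ range D, (D - e) * numNv d y (Rad d k e))
  else decide (∀ e < D, numG d k y e ≤ numG d k y (e + 1)) &&
    numIneq y Jn B D 0 I (numG d k y D) (∑ e ∈ range D, numG d k y e)

theorem num_of_chk {d k : ℕ} {vert : Bool} {y Jn B D I : ℕ}
    (h : numChk d k vert y Jn B D I = true) : NumOK d k vert y Jn B D I := by
  cases vert with
  | true =>
    simp only [numChk, numIneq, if_true, decide_eq_true_eq] at h
    refine ⟨fun e _ => ?_, ?_⟩
    · simp only [gfun, if_true]
      rw [sum_range_succ _ (e + 1)]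
      exact Nat.le_add_right _ _
    · simp only [gfun, if_true, num_sum_sum, num_Gf, Nv, num_cnt]
      exact h
  | false =>
    simp only [numChk, numIneq, Bool.false_eq_true, if_false, Bool.and_eq_true,
      decide_eq_true_eq] at h
    simp only [NumOK, gfun, Bool.false_eq_true, if_false, num_Gf, num_cnt]
    exact h

/-- the values `(D, I)` -/
def numTab : List (List (ℕ × ℕ)) :=
  [[(157, 529), (11, 39), (234, 786), (23, 73), (323, 1277), (34, 103)],
    [(49, 262), (14, 78), (29, 128), (12, 56), (44, 200), (20, 87), (24, 135), (19, 77)],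
    [(33, 236), (15, 110), (18, 99), (11, 63), (28, 154), (13, 73), (39, 222), (21, 115), (20, 147), (14, 71)],
    [(41, 393), (19, 185), (17, 114), (12, 84), (20, 131), (13, 90), (29, 189), (15, 101), (39, 265), (23, 151), (19, 170), (11, 67)],
    [(40, 467), (21, 248), (17, 133), (13, 105), (19, 147), (14, 115), (23, 178), (15, 122), (32, 244), (17, 134), (41, 323), (25, 191), (19, 198), (10, 71)]]

theorem num_all : ∀ n < 8, 3 ≤ n → ∀ i < 2 * n,
    numChk (n + 1) (n - 1) (i % 2 == 0) ((2 * n + 1 - i) / 2) (Jsch (n + 1) (i + 1)) 1000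
      ((numTab.getD (n - 3) []).getD i (0, 0)).1 ((numTab.getD (n - 3) []).getD i (0, 0)).2 =
      true := by
  decide +kernel

/-- The numerical inequalities.  Values `(D, I)` that work, listed for `i = 0, 1, …`:
d = 4: (200,676) (20,78) (250,840) (30,97) (400,1585) (40,121);
d = 5: (60,326) (20,122) (30,133) (20,108) (60,282) (20,87) (30,179) (20,81);
d = 6: (40,295) (20,163) (20,115) (20,151) (30,167) (20,134) (40,229) (30,177) (20,147) (20,101);
d = 7: (60,607) (20,199) (20,145) (20,189) (20,131) (20,175) (30,197) (20,155) (40,273) (30,212)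
(20,186) (20,121);
d = 8: (60,·) for `i = 0` is safe, (30,404) (20,173) (20,222) (20,160) (20,210) (30,258) (20,195)
(40,325) (20,173) (60,·) (30,243) (20,219) (20,·); here `I` is the largest number with
`(D' + 1) * (I - 1 + y).choose y ≤ r` (recompute in python).
Evaluate with `decide +kernel` after rewriting `Nat.choose` into a fast form
(`Nat.choose_eq_descFactorial_div_factorial`) and the nested sums into single passes
(`∑_{e < D} ∑_{e' ≤ e} N e' = ∑_{e' < D} (D - e') N e'`; monotonicity is automatic in the vertical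
case). -/
theorem numerics (n : ℕ) (h3 : 3 ≤ n) (h7 : n ≤ 7) (i : ℕ) (hi : i < 2 * n) (vert : Bool) (y : ℕ)
    (hy : 2 * y + (if vert then 1 else 0) + i = 2 * n + 1) :
    ∃ D I : ℕ, NumOK (n + 1) (n - 1) vert y (Jsch (n + 1) (i + 1)) 1000 D I := by
  have h := num_of_chk (num_all n (by omega) h3 i hi)
  have h1 : (i % 2 == 0) = vert := by
    cases vert <;> simp at hy ⊢ <;> omega
  have h2 : (2 * n + 1 - i) / 2 = y := by
    cases vert <;> simp at hy <;> omega
  rw [h1, h2] at h
  exact ⟨_, _, h⟩

end Crest.Agent.R022
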