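import Crest.Agent.R022.Step
import Crest.Agent.R022.Exchange
import Crest.Agent.R022.Num

set_option autoImplicit false

namespace Crest.Agent.R022

open Finset

theorem count_ptH_mono {σ : Type*} {H H' : ℕ} {z : σ → ℚ} (h : PtH H z) (hH : H ≤ H') :
    PtH H' z := by
  obtain ⟨c, h0, h1, h2⟩ := h
  exact ⟨c, h0, h1.trans hH, fun i => (h2 i).imp fun a ha => ⟨ha.1.trans hH, ha.2⟩⟩

theorem count_alv_congr {n : ℕ} (ϑ : Fin (n + 1) → ℂ) (c : Fin (n + 1))
    (z z' : Option (Fin n) → ℚ) (h : (fun i => z (some i)) = fun i => z' (some i)) :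
    alv ϑ c (toC z) = alv ϑ c (toC z') := by
  have h' : (fun j => toC z (some j)) = fun j => toC z' (some j) := by
    funext j; simp only [toC]; rw [congrFun h j]
  unfold alv hom
  rw [h']

/-- systems of rank `≤ 1` have boundedly many arithmetic points -/
theorem count_final {n : ℕ} {F : Polynomial ℤ} {ϑ : Fin (n + 1) → ℂ} (hF : FS F ϑ) (hn : 1 ≤ n)
    (k : ℕ) (hk : 2 ≤ k) (C δ : ℕ) :
    ∃ L X₀ : ℕ, ∀ X ≥ X₀, ∀ (c : Fin (n + 1)) (m : ℤ) (S : Finset (Option (Fin n) → ℚ)),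
      (∀ z ∈ S, IsPt F k C X c m z) →
      Set.InjOn (fun z : Option (Fin n) → ℚ => z none) (S : Set (Option (Fin n) → ℚ)) →
      ∀ (s : Sys (Fin n)) (H : ℕ), s.Cx δ H → s.rank ≤ 1 → (∀ z ∈ S, s.ND z) → S.card ≤ L := by
  classical
  obtain ⟨L, X₀, h⟩ := card_le_of_cert hF hn k hk C 1
  refine ⟨(δ + 1) ^ n * L, X₀, fun X hX c m S hS hinj s H hs hr hnd => ?_⟩
  have hJ : s.J = ∅ := by
    rw [← Finset.card_eq_zero]
    unfold Sys.rank at hr
    omega
  refine card_le_mul_of_fibers S (fun z i => z (some i)) _ _ (fun U hU => ?_) (fun x U hU hx => ?_)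
  · simpa using xi_count s δ H hs hJ U fun x hx => by
      obtain ⟨z, hz, rfl⟩ := hU x hx
      exact ⟨z, hnd z hz, rfl⟩
  · rcases U.eq_empty_or_nonempty with rfl | ⟨z₀, hz₀⟩
    · simp
    have h10 : (⟨1, by omega⟩ : Fin (n + 1)) ≠ 0 := by simp [Fin.ext_iff]
    refine h X hX c m U (fun z hz => hS z (hU hz)) (hinj.mono (Finset.coe_subset.mpr hU)) 0
      (Pi.single ⟨1, by omega⟩ 1)
      (MvPolynomial.C (alv ϑ c (toC z₀) ⟨1, by omega⟩ / alv ϑ c (toC z₀) 0))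
      (Pi.single_eq_of_ne h10.symm _) (by simp) (by simp) fun z hz => ?_
    rw [count_alv_congr ϑ c z z₀ ((hx z hz).trans (hx z₀ hz₀).symm)]
    have h0 := ((hS z₀ (hU hz₀)).ne_zero hF hn 0).1
    unfold CertAt
    rw [Finset.prod_eq_single ⟨1, by omega⟩ (fun j _ hj => by simp [Pi.single_eq_of_ne hj])
      (by simp)]
    simp only [Pi.single_eq_same, pow_one, MvPolynomial.aeval_C, Algebra.algebraMap_self,
      RingHom.id_apply]
    field_simp

/-- The main count. -/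
theorem count_main {n : ℕ} {F : Polynomial ℤ} {ϑ : Fin (n + 1) → ℂ} (hF : FS F ϑ) (h3 : 3 ≤ n)
    (h7 : n ≤ 7) (C : ℕ) (hC : 1 ≤ C) :
    ∃ K A P₀ : ℕ, ∀ P ≥ P₀, ∀ X : ℕ, A * P ^ 2 ≤ X → X ≤ P ^ 1000 →
      ∀ (c : Fin (n + 1)) (m : ℤ) (S : Finset (Option (Fin n) → ℚ)),
      (∀ z ∈ S, IsPt F (n - 1) C X c m z) →
      Set.InjOn (fun z : Option (Fin n) → ℚ => z none) (S : Set (Option (Fin n) → ℚ)) →
      S.card ≤ K * P ^ 999 := by
  classical
  set J := Jsch (n + 1) with hJ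
  have hk : 2 ≤ n - 1 := by omega
  have hstep : ∀ i δ : ℕ, ∃ δ' E' L P₀ : ℕ, i < 2 * n → ∀ P ≥ P₀, ∀ X : ℕ, P ≤ X → X ≤ P ^ 1000 →
      ∀ (c : Fin (n + 1)) (m : ℤ)
      (S : Finset (Option (Fin n) → ℚ)), (∀ z ∈ S, IsPt F (n - 1) C X c m z) →
      Set.InjOn (fun z : Option (Fin n) → ℚ => z none) (S : Set (Option (Fin n) → ℚ)) →
      ∀ (τ : Fin (J (i + 1)) → ℕ) (σ : Fin (J (i + 1)) → Sys (Fin n)) (H : ℕ),
      Function.Injective τ →
      (∀ l, (τ l).Prime ∧ P ≤ τ l ∧ C < τ l ∧ τ l ^ 2 ≤ 2 * X) →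
      (∀ l, (σ l).Cx δ H ∧ (σ l).rank + i = 2 * n + 1) →
      (∀ l, ∀ z ∈ S, (σ l).ND z ∧ (σ l).Good z (τ l)) →
      (∀ l, ∀ z ∈ S, ∀ z' ∈ S, cl (τ l) z = cl (τ l) z') →
      ∃ 𝓛 : Finset (Sys (Fin n)), 𝓛.card ≤ L ∧
        (∀ s ∈ 𝓛, s.Cx δ' (P ^ E') ∧ s.rank + (i + 1) ≤ 2 * n + 1) ∧
        ∀ z ∈ S, ∃ s ∈ 𝓛, s.ND z := by
    intro i δ
    by_cases hi : i < 2 * n
    swap
    · exact ⟨0, 0, 0, 0, fun h => absurd h hi⟩
    set vert : Bool := decide ((2 * n + 1 - i) % 2 = 1) with hvert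
    set y := (2 * n + 1 - i) / 2 with hy
    have hvy : 2 * y + (if vert then 1 else 0) + i = 2 * n + 1 := by
      simp only [hvert, decide_eq_true_eq]
      split_ifs <;> omega
    obtain ⟨D, I, hnum⟩ := numerics n h3 h7 i hi vert y hvy
    have hJpos : 0 < J (i + 1) := by
      have := Jsch_strictMono (n + 1) (Nat.succ_pos i)
      rw [Jsch_zero] at this
      exact this
    obtain ⟨δ', E', L, P₀, h⟩ := step_gen hF h3 (n - 1) hk C 1000 (J (i + 1)) D I y hC vert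
      (by omega) hJpos hnum δ
    refine ⟨δ', E', L, P₀, fun _ P hP X hPX hX c m S hS hinj τ σ H hτ hp hσ hnd hcl => ?_⟩
    obtain ⟨𝓛, h1, h2, h4⟩ := h P hP X hPX hX c m S hS hinj τ σ H hτ hp (fun l => by
      refine ⟨(hσ l).1, ?_⟩
      have h5 := (hσ l).2
      unfold Sys.rank at h5
      revert hvy h5
      cases (σ l).vert <;> cases vert <;> simp <;> omega) hnd hcl
    exact ⟨𝓛, h1, fun s hs => ⟨(h2 s hs).1, by have := (h2 s hs).2; omega⟩, h4⟩
  choose fδ fE fL fP hstep using hstep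
  let δs : ℕ → ℕ := fun i => Nat.rec 0 (fun i x => max x (fδ i x)) i
  let Es : ℕ → ℕ := fun i => Nat.rec 0 (fun i x => max x (fE i (δs i))) i
  have hδs : ∀ i, δs (i + 1) = max (δs i) (fδ i (δs i)) := fun i => rfl
  have hEs : ∀ i, Es (i + 1) = max (Es i) (fE i (δs i)) := fun i => rfl
  have hδm : Monotone δs := monotone_nat_of_le_succ fun i => by rw [hδs]; exact le_max_left _ _
  have hEm : Monotone Es := monotone_nat_of_le_succ fun i => by rw [hEs]; exact le_max_left _ _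
  obtain ⟨cg, hcg⟩ := good_of_not_dvd (ι := Fin n) (δs (2 * n))
  obtain ⟨Lf, X₀, hLf⟩ := count_final hF (by omega) (n - 1) hk C (δs (2 * n))
  set Eh := Es (2 * n) + 2001 with hEh
  set L := max ((range (2 * n)).sup fun i => fL i (δs i)) Lf with hL
  obtain ⟨T, K, hex⟩ := exchange (2 * n) J (Jsch_zero _) (Jsch_strictMono _) ((Eh + 1) * cg) L
  refine ⟨K * (∏ i ∈ range (2 * n), ((δs (2 * n) + 1) ^ n * (2 ^ T) ^ ((2 * n + 1 - i) / 2)) ^
      (J (i + 1) - J i)), (2 ^ T) ^ 2,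
    max (max ((range (2 * n)).sup fun i => fP i (δs i)) X₀) (max (C + 2) cg), ?_⟩
  intro P hP X hAX hX c m S hS hinj
  simp only [ge_iff_le, max_le_iff] at hP
  obtain ⟨⟨hP1, hP2⟩, hP3, hP4⟩ := hP
  have hP0 : 1 ≤ P := by omega
  have h2T : 1 ≤ 2 ^ T := Nat.one_le_two_pow
  have hPX : P ≤ X := by
    refine le_trans ?_ hAX
    calc P ≤ 1 * P ^ 2 := by nlinarith
      _ ≤ (2 ^ T) ^ 2 * P ^ 2 := Nat.mul_le_mul_right _ (Nat.one_le_pow _ _ h2T)
  obtain ⟨Pool, hPc, hPool⟩ := exists_pool T P hP0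
  let E : ExData (Option (Fin n) → ℚ) (Sys (Fin n)) (Fin n → ℕ) :=
    { S := S, Pool := Pool, rank := Sys.rank, cl := cl, ND := fun s z => s.ND z,
      Good := Sys.Good, Cx := fun i s => s.Cx (δs i) (P ^ Es i), ρ₀ := 2 * n + 1,
      κ := fun i => (δs (2 * n) + 1) ^ n * (2 ^ T * P) ^ ((2 * n + 1 - i) / 2) }
  have hE : ExHyp E (2 * n) J ((Eh + 1) * cg) L := by
    refine ⟨?_, ?_, ?_, ?_, ?_, ?_⟩
    · refine ⟨⟨Finset.univ, true, fun _ => 0⟩, ?_, ?_, ?_⟩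
      · intro η hη
        cases η <;> simp [Sys.Dep] at hη
      · simp [E, Sys.rank]
      · intro x _ η hη
        cases η <;> simp [Sys.Dep] at hη
    · intro i s hs
      exact Sys.Cx.mono hs (hδm (Nat.le_succ i)) (Nat.pow_le_pow_right hP0 (hEm (Nat.le_succ i)))
    · intro i hi s z hz hs hnd U hU
      have hs' : s.Cx (δs (2 * n)) (P ^ Eh) := Sys.Cx.mono hs (hδm hi.le)
        (Nat.pow_le_pow_right hP0 ((hEm hi.le).trans (Nat.le_add_right _ _)))
      have hz' : PtH (P ^ Eh) z := by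
        refine count_ptH_mono ((hS z hz).ptH (by omega)) ?_
        calc C * X ^ 2 ≤ P * (P ^ 1000) ^ 2 := by gcongr; omega
          _ = P ^ 2001 := by ring
          _ ≤ P ^ Eh := Nat.pow_le_pow_right hP0 (Nat.le_add_left _ _)
      obtain ⟨W, hW0, hW1, hW2⟩ := hcg s (P ^ Eh) z (Nat.one_le_pow _ _ hP0) hs' hnd hz'
      refine card_primes_dvd W P _ hW0 (by omega) (hW1.trans ?_) U fun ℓ hℓ => ?_
      · calc (cg * P ^ Eh) ^ cg ≤ (P * P ^ Eh) ^ cg := by gcongr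
          _ = P ^ ((Eh + 1) * cg) := by rw [← pow_succ', ← pow_mul]
      · obtain ⟨h1, h2⟩ := hU ℓ hℓ
        refine ⟨(hPool ℓ h1).1, (hPool ℓ h1).2.1, ?_⟩
        by_contra h
        exact h2 (hW2 ℓ (hPool ℓ h1).1 h)
    · intro i hi s ℓ hℓ hs hr U hU
      have h1 := class_count s _ _ hs ℓ (hPool ℓ hℓ).1 U fun x hx => by
        obtain ⟨z, -, h1, h2, h3⟩ := hU x hx
        exact ⟨z, h1, h2, h3⟩
      refine h1.trans ?_
      have h2 : s.J.card ≤ (2 * n + 1 - i) / 2 := by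
        have : s.rank + i ≤ 2 * n + 1 := hr
        unfold Sys.rank at this
        omega
      simp only [E, Fintype.card_fin]
      refine Nat.mul_le_mul (Nat.pow_le_pow_left (Nat.succ_le_succ (hδm hi.le)) _) ?_
      exact (Nat.pow_le_pow_left (hPool ℓ hℓ).2.2 _).trans
        (Nat.pow_le_pow_right (Nat.mul_pos h2T hP0) h2)
    · intro i hi S' hS' τ σ hτ hτP hσ hnd hcl
      have hfP : fP i (δs i) ≤ P :=
        le_trans (Finset.le_sup (f := fun i => fP i (δs i)) (Finset.mem_range.mpr hi)) hP1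
      obtain ⟨𝓛, h1, h2, h4⟩ := hstep i (δs i) hi P hfP X hPX hX c m S'
        (fun z hz => hS z (hS' hz)) (hinj.mono (Finset.coe_subset.mpr hS')) τ σ (P ^ Es i) hτ
        (fun l => by
          obtain ⟨h1, h2, h3⟩ := hPool _ (hτP l)
          refine ⟨h1, h2, by omega, ?_⟩
          calc τ l ^ 2 ≤ (2 ^ T * P) ^ 2 := Nat.pow_le_pow_left h3 _
            _ = (2 ^ T) ^ 2 * P ^ 2 := by ring
            _ ≤ 2 * X := by omega) hσ hnd hcl
      refine ⟨𝓛, h1.trans (le_trans (Finset.le_sup (f := fun i => fL i (δs i))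
        (Finset.mem_range.mpr hi)) (le_max_left _ _)), fun s hs => ⟨?_, (h2 s hs).2⟩, h4⟩
      exact Sys.Cx.mono (h2 s hs).1 (by rw [hδs]; exact le_max_right _ _)
        (Nat.pow_le_pow_right hP0 (by rw [hEs]; exact le_max_right _ _))
    · intro s hs hr U hU hnd
      have : s.rank + 2 * n ≤ 2 * n + 1 := hr
      exact (hLf X (by omega) c m U (fun z hz => hS z (hU hz))
        (hinj.mono (Finset.coe_subset.mpr hU)) s _ hs (by omega) hnd).trans (le_max_right _ _)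
  have h := hex E hE hPc
  refine le_trans h ?_
  rw [mul_assoc]
  refine Nat.mul_le_mul_left _ ?_
  have h1 : ∏ i ∈ range (2 * n), E.κ i ^ (J (i + 1) - J i) =
      (∏ i ∈ range (2 * n), ((δs (2 * n) + 1) ^ n * (2 ^ T) ^ ((2 * n + 1 - i) / 2)) ^
        (J (i + 1) - J i)) *
      P ^ (∑ i ∈ range (2 * n), ((2 * n + 1 - i) / 2) * (J (i + 1) - J i)) := by
    rw [← Finset.prod_pow_eq_pow_sum, ← Finset.prod_mul_distrib]
    refine Finset.prod_congr rfl fun i _ => ?_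
    simp only [E]
    rw [pow_mul P, ← mul_pow, mul_pow (2 ^ T), mul_assoc]
  rw [h1]
  refine Nat.mul_le_mul_left _ (Nat.pow_le_pow_right hP0 ?_)
  have := Jsch_exponent n h3 h7
  rw [← hJ] at this
  omega

end Crest.Agent.R022
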