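import Crest.Agent.R022.Dep

set_option autoImplicit false

namespace Crest.Agent.R022

open Finset

theorem cut_aeval_cons {n : ℕ} {B : Type*} [CommRing B] [Algebra ℂ B] (t : B) (y : Fin n → B)
    (Φ : MvPolynomial (Fin (n + 1)) ℂ) :
    MvPolynomial.aeval (Fin.cons t y : Fin (n + 1) → B) Φ =
      Polynomial.eval₂ (MvPolynomial.aeval y : MvPolynomial (Fin n) ℂ →ₐ[ℂ] B).toRingHom t
        (MvPolynomial.finSuccEquiv ℂ n Φ) := by
  induction Φ using MvPolynomial.induction_on with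
  | C c =>
    have : MvPolynomial.finSuccEquiv ℂ n (MvPolynomial.C c) = Polynomial.C (MvPolynomial.C c) :=
      (MvPolynomial.finSuccEquiv ℂ n).commutes c
    simp [this]
  | add p q hp hq => simp [hp, hq, Polynomial.eval₂_add]
  | mul_X p i hp =>
    rw [map_mul, map_mul, Polynomial.eval₂_mul, hp]
    refine Fin.cases ?_ (fun j => ?_) i
    · simp [MvPolynomial.finSuccEquiv_X_zero]
    · simp [MvPolynomial.finSuccEquiv_X_succ]

/-- Cutting by a polynomial `f` not vanishing at the generic point.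
Hint: enumerate `A` by `Fin s.m`; apply `dep_bound` to `(f, X a_1, …, X a_m)` (with
`δ₂' = max δ₂ 1`) to get `Φ`; write `Φ = T ^ e * Φ₁` (`T = X 0`) with `Φ₁ (T = 0) ≠ 0`; since
`aeval ω f ≠ 0`, `Φ₁ (f, X a)` vanishes at `ω`, hence at every specialisation `z`; put
`h := Φ₁ (0, X a)`. -/
theorem cut {ι : Type} [Fintype ι] [DecidableEq ι] (δ δ₂ : ℕ) :
    ∃ δ' : ℕ, ∀ (s : Sys ι) (H : ℕ) {Ω : Type} [Field Ω] [Algebra ℂ Ω] (ω : Option ι → Ω),
      s.Cx δ H → s.ND ω → ∀ f : MvPolynomial (Option ι) ℂ, f.totalDegree ≤ δ₂ →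
        MvPolynomial.aeval ω f ≠ 0 → ∀ A : Finset (Option ι), A.card = s.m →
        ∃ h : MvPolynomial (Option ι) ℂ, h ≠ 0 ∧
          h ∈ MvPolynomial.supported ℂ (A : Set (Option ι)) ∧ h.totalDegree ≤ δ' ∧
          ∀ z : Option ι → ℚ, Spec ω z → MvPolynomial.aeval (toC z) f = 0 →
            MvPolynomial.aeval (toC z) h = 0 := by
  obtain ⟨δ', hδ'⟩ := dep_bound (ι := ι) δ (max δ₂ 1)
  refine ⟨δ', fun s H Ω _ _ ω hcx hnd f hf hf0 A hA => ?_⟩
  let e : Fin s.m → Option ι := fun i => (A.equivFinOfCardEq hA).symm i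
  have he : Function.Injective e := fun i j h =>
    (A.equivFinOfCardEq hA).symm.injective (Subtype.ext h)
  obtain ⟨Φ, hΦ0, hΦd, hΦ⟩ := hδ' s H ω hcx hnd
    (Fin.cons f (fun i => MvPolynomial.X (e i))) (fun i => by
      refine Fin.cases ?_ (fun j => ?_) i
      · simpa using Or.inl hf
      · simp)
  have hp0 : MvPolynomial.finSuccEquiv ℂ s.m Φ ≠ 0 := by simpa using hΦ0
  obtain ⟨q, hq, hnd'⟩ := Polynomial.exists_eq_pow_rootMultiplicity_mul_and_not_dvd _ hp0 0
  rw [map_zero, sub_zero] at hq hnd'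
  set k := (MvPolynomial.finSuccEquiv ℂ s.m Φ).rootMultiplicity 0
  have hq0 : q.coeff 0 ≠ 0 := fun h => hnd' (Polynomial.X_dvd_iff.2 h)
  have hqc : (MvPolynomial.finSuccEquiv ℂ s.m Φ).coeff k = q.coeff 0 := by
    rw [hq]; simpa using Polynomial.coeff_X_pow_mul q k 0
  refine ⟨MvPolynomial.rename e (q.coeff 0), ?_, ?_, ?_, fun z hz hfz => ?_⟩
  · exact fun h => hq0 (MvPolynomial.rename_injective e he (by rw [h, map_zero]))
  · rw [MvPolynomial.supported_eq_range_rename]
    exact ⟨MvPolynomial.rename (A.equivFinOfCardEq hA).symm (q.coeff 0), by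
      simp only [AlgHom.toRingHom_eq_coe, RingHom.coe_coe, MvPolynomial.rename_rename]; rfl⟩
  · refine (MvPolynomial.totalDegree_rename_le _ _).trans (le_trans ?_ hΦd)
    have := MvPolynomial.totalDegree_coeff_finSuccEquiv_add_le Φ k (hqc ▸ hq0)
    rw [hqc] at this
    omega
  · have key : ∀ {B : Type} [CommRing B] [Algebra ℂ B] (w : Option ι → B),
        MvPolynomial.aeval w (Polynomial.eval₂ (MvPolynomial.rename e).toRingHom f q) =
          Polynomial.eval₂ (MvPolynomial.aeval (w ∘ e) : MvPolynomial (Fin s.m) ℂ →ₐ[ℂ] B).toRingHom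
            (MvPolynomial.aeval w f) q := by
      intro B _ _ w
      have := Polynomial.hom_eval₂ q (MvPolynomial.rename e).toRingHom
        (MvPolynomial.aeval w : MvPolynomial (Option ι) ℂ →ₐ[ℂ] B).toRingHom f
      refine this.trans ?_
      congr 1
      ext i <;> simp
    have e1 : (fun i => MvPolynomial.aeval ω
        ((Fin.cons f (fun i => MvPolynomial.X (e i)) : Fin (s.m + 1) → _) i)) =
        (Fin.cons (MvPolynomial.aeval ω f) (ω ∘ e) : Fin (s.m + 1) → Ω) := by
      funext i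
      refine Fin.cases ?_ (fun j => ?_) i <;> simp
    rw [e1, cut_aeval_cons, hq, Polynomial.eval₂_mul, Polynomial.eval₂_X_pow] at hΦ
    have h1 := hz _ ((key ω).trans ((mul_eq_zero.1 hΦ).resolve_left (pow_ne_zero _ hf0)))
    have h2 := key (toC z)
    rw [hfz, Polynomial.eval₂_at_zero] at h2
    rw [MvPolynomial.aeval_rename]
    exact h2.symm.trans h1

end Crest.Agent.R022
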