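import Crest.Agent.R022.DecompCore

set_option autoImplicit false

namespace Crest.Agent.R022

open Finset

theorem decomp_empty {σ : Type*} {δ H : ℕ} {S : Finset (σ → ℚ)} (h : Rel (∅ : Set σ) δ H S) :
    S = ∅ := by
  obtain ⟨p, h0, hs, -, hz⟩ := h
  rw [MvPolynomial.supported_empty, Algebra.mem_bot] at hs
  obtain ⟨a, rfl⟩ := hs
  refine Finset.eq_empty_of_forall_notMem fun z hzS => h0 ?_
  have := hz z hzS
  simp only [eq_intCast, map_intCast, Int.cast_eq_zero] at this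
  simp [this]

theorem decomp_dep {ι : Type} (J : Finset ι) (b : Bool)
    (g g' : Option ι → Polynomial (MvPolynomial (Option ι) ℤ)) (η : Option ι) :
    (⟨J, b, g⟩ : Sys ι).Dep η ↔ (⟨J, b, g'⟩ : Sys ι).Dep η := by
  cases η <;> rfl

theorem decomp_step {ι : Type} [Fintype ι] [DecidableEq ι] (b : Bool) (y δ L' : ℕ)
    (ih : ∀ (H : ℕ) (S : Finset (Option ι → ℚ)),
      (∀ A : Finset ι, A.card = y → Rel (some '' (A : Set ι)) δ H S) →
      ∃ 𝓛 : Finset (Sys ι), 𝓛.card ≤ L' ∧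
        (∀ s ∈ 𝓛, s.Cx δ (δ.factorial * H) ∧ s.rank < 2 * y) ∧
        ∀ z ∈ S, ∃ s ∈ 𝓛, s.ND z) :
    ∃ L : ℕ, ∀ (H : ℕ) (S : Finset (Option ι → ℚ)),
      (∀ J : Finset ι, J.card = y → ∀ η, (⟨J, b, 0⟩ : Sys ι).Dep η →
        Rel (insert η (some '' (J : Set ι))) δ H S) →
      ∃ 𝓛 : Finset (Sys ι), 𝓛.card ≤ L ∧
        (∀ s ∈ 𝓛, s.Cx δ (δ.factorial * H) ∧ s.rank ≤ 2 * y + (if b then 1 else 0)) ∧
        ∀ z ∈ S, ∃ s ∈ 𝓛, s.ND z := by
  classical
  refine ⟨Fintype.card (Finset ι) * (δ + 1) ^ Fintype.card (Option ι) +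
    Fintype.card (Finset ι → Option ι) * L', fun H S hS => ?_⟩
  have key : ∀ (J : Finset ι) (η : Option ι),
      ∃ (c : MvPolynomial (Option ι) ℤ) (𝒢 : Finset (Polynomial (MvPolynomial (Option ι) ℤ))),
        𝒢.card ≤ δ + 1 ∧ (¬ (⟨J, b, 0⟩ : Sys ι).Dep η → 0 ∈ 𝒢) ∧
        (J.card = y → (⟨J, b, 0⟩ : Sys ι).Dep η →
          c ≠ 0 ∧ c ∈ MvPolynomial.supported ℤ (some '' (J : Set ι)) ∧ Bd δ H c ∧
          (∀ g ∈ 𝒢, g.natDegree ≤ δ ∧ ∀ j, g.coeff j ∈
            MvPolynomial.supported ℤ (some '' (J : Set ι)) ∧ Bd δ (δ.factorial * H) (g.coeff j)) ∧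
          ∀ z ∈ S, ev z c = 0 ∨ ∃ g ∈ 𝒢, (g.map (ev z)).eval (z η) = 0 ∧
            (g.map (ev z)).derivative.eval (z η) ≠ 0 ∧ ev z g.leadingCoeff ≠ 0) := by
    intro J η
    by_cases h : J.card = y ∧ (⟨J, b, 0⟩ : Sys ι).Dep η
    · obtain ⟨p, h0, hs, hb, hz⟩ := hS J h.1 η h.2
      have hη : η ∉ some '' (J : Set ι) := by
        rintro ⟨i, hi, rfl⟩
        exact h.2 hi
      obtain ⟨c, 𝒢, h1, h2, h3, h4, h5, h6⟩ := decomp_core η _ hη δ H p h0 hs hb
      exact ⟨c, 𝒢, h4, fun h' => absurd h.2 h', fun _ _ =>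
        ⟨h1, h2, h3, h5, fun z hzS => h6 z (hz z hzS)⟩⟩
    · exact ⟨0, {0}, by simp, fun _ => by simp, fun h1 h2 => absurd ⟨h1, h2⟩ h⟩
  choose c 𝒢 hcard h0 hP using key
  let T : (Finset ι → Option ι) → Finset (Option ι → ℚ) := fun ch =>
    S.filter fun z => ∀ J : Finset ι, J.card = y → ev z (c J (ch J)) = 0
  have key2 : ∀ ch : Finset ι → Option ι, ∃ 𝓛 : Finset (Sys ι), 𝓛.card ≤ L' ∧
      (∀ s ∈ 𝓛, s.Cx δ (δ.factorial * H) ∧ s.rank < 2 * y) ∧
      ((∀ J : Finset ι, J.card = y → (⟨J, b, 0⟩ : Sys ι).Dep (ch J)) →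
        ∀ z ∈ T ch, ∃ s ∈ 𝓛, s.ND z) := by
    intro ch
    by_cases h : ∀ J : Finset ι, J.card = y → (⟨J, b, 0⟩ : Sys ι).Dep (ch J)
    · obtain ⟨𝓛, h1, h2, h3⟩ := ih H (T ch) fun A hA => by
        obtain ⟨h1, h2, h3, -⟩ := hP A (ch A) hA (h A hA)
        exact ⟨c A (ch A), h1, h2, h3, fun z hz => (Finset.mem_filter.1 hz).2 A hA⟩
      exact ⟨𝓛, h1, h2, fun _ => h3⟩
    · exact ⟨∅, by simp, by simp, fun h' => absurd h' h⟩
  choose 𝓛 hL1 hL2 hL3 using key2
  refine ⟨((univ.filter fun J : Finset ι => J.card = y).biUnion fun J =>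
      (Fintype.piFinset (𝒢 J)).image fun g => (⟨J, b, g⟩ : Sys ι)) ∪ univ.biUnion 𝓛,
    (Finset.card_union_le _ _).trans (add_le_add ?_ ?_), fun s hs => ?_, fun z hz => ?_⟩
  · refine (Finset.card_biUnion_le_card_mul _ _ ((δ + 1) ^ Fintype.card (Option ι))
      fun J _ => Finset.card_image_le.trans ?_).trans
      (Nat.mul_le_mul_right _ (Finset.card_le_univ _))
    rw [Fintype.card_piFinset, ← Finset.card_univ]
    exact Finset.prod_le_pow_card _ _ _ fun η _ => hcard J η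
  · exact Finset.card_biUnion_le_card_mul _ _ _ fun ch _ => hL1 ch
  · rcases Finset.mem_union.1 hs with hs | hs
    · obtain ⟨J, hJ, hs⟩ := Finset.mem_biUnion.1 hs
      obtain ⟨g, hg, rfl⟩ := Finset.mem_image.1 hs
      have hJ' := (Finset.mem_filter.1 hJ).2
      refine ⟨fun η hη => (hP J η hJ' ((decomp_dep J b g 0 η).1 hη)).2.2.2.1 _
        (Fintype.mem_piFinset.1 hg η), ?_⟩
      simp only [Sys.rank, hJ', le_refl]
    · obtain ⟨ch, -, hs⟩ := Finset.mem_biUnion.1 hs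
      exact ⟨(hL2 ch s hs).1, (hL2 ch s hs).2.le.trans (Nat.le_add_right _ _)⟩
  · by_cases h : ∀ J : Finset ι, J.card = y → ∃ η, (⟨J, b, 0⟩ : Sys ι).Dep η ∧ ev z (c J η) = 0
    · choose! ch h1 h2 using h
      obtain ⟨s, hs, hnd⟩ := hL3 ch h1 z (Finset.mem_filter.2 ⟨hz, h2⟩)
      exact ⟨s, Finset.mem_union_right _ (Finset.mem_biUnion.2 ⟨ch, mem_univ _, hs⟩), hnd⟩
    · push Not at h
      obtain ⟨J, hJ, h⟩ := h
      have h3 : ∀ η, ∃ g ∈ 𝒢 J η, (⟨J, b, 0⟩ : Sys ι).Dep η → (g.map (ev z)).eval (z η) = 0 ∧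
          (g.map (ev z)).derivative.eval (z η) ≠ 0 ∧ ev z g.leadingCoeff ≠ 0 := by
        intro η
        by_cases hη : (⟨J, b, 0⟩ : Sys ι).Dep η
        · obtain ⟨g, hg, h4⟩ := ((hP J η hJ hη).2.2.2.2 z hz).resolve_left (h η hη)
          exact ⟨g, hg, fun _ => h4⟩
        · exact ⟨0, h0 J η hη, fun h' => absurd h' hη⟩
      choose g hg1 hg2 using h3
      exact ⟨⟨J, b, g⟩, Finset.mem_union_left _ (Finset.mem_biUnion.2
        ⟨J, Finset.mem_filter.2 ⟨mem_univ _, hJ⟩,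
          Finset.mem_image_of_mem _ (Fintype.mem_piFinset.2 hg1)⟩),
        fun η hη => hg2 η ((decomp_dep J b g 0 η).1 hη)⟩

/-- If every `y` of the `ξ`-coordinates satisfy a relation on `S`, then `S` is covered by boundedly
many systems of rank `< 2 y`.
Hint: induction on `y`.  `y = 0`: a nonzero constant vanishes, `S = ∅`.  Step `y + 1`: for each
`J` with `#J = y` and `η ∉ J` apply `decomp_core` to the relation on `insert η J`, getting
`c J η`, `𝒢 J η`.  A point `z` either has some `J` with `ev z (c J η) ≠ 0` for all `η ∉ J` (then it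
is a nondegenerate point of a vertical system `⟨J, true, g⟩` with `g (some η) ∈ 𝒢 J η`; boundedly many
such systems), or for every `J` there is `η = ch J ∉ J` with `ev z (c J η) = 0`; group these points by
the choice function `ch` and apply the induction hypothesis to each group. -/
theorem decompV {ι : Type} [Fintype ι] [DecidableEq ι] (y δ : ℕ) :
    ∃ L : ℕ, ∀ (H : ℕ) (S : Finset (Option ι → ℚ)),
      (∀ A : Finset ι, A.card = y → Rel (some '' (A : Set ι)) δ H S) →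
      ∃ 𝓛 : Finset (Sys ι), 𝓛.card ≤ L ∧
        (∀ s ∈ 𝓛, s.Cx δ (δ.factorial * H) ∧ s.rank < 2 * y) ∧
        ∀ z ∈ S, ∃ s ∈ 𝓛, s.ND z := by
  induction y with
  | zero =>
    refine ⟨0, fun H S hS => ⟨∅, le_rfl, by simp, ?_⟩⟩
    have := hS ∅ rfl
    rw [Finset.coe_empty, Set.image_empty] at this
    simp [decomp_empty this]
  | succ y ih =>
    obtain ⟨L', ih⟩ := ih
    obtain ⟨L, hL⟩ := decomp_step true y δ L' ih
    refine ⟨L, fun H S hS => ?_⟩
    obtain ⟨𝓛, h1, h2, h3⟩ := hL H S fun J hJ η hη => by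
      cases η with
      | none => exact absurd hη (by simp [Sys.Dep])
      | some i =>
        have := hS (insert i J) (by rw [Finset.card_insert_of_notMem hη, hJ])
        rwa [Finset.coe_insert, Set.image_insert_eq] at this
    refine ⟨𝓛, h1, fun s hs => ⟨(h2 s hs).1, ?_⟩, h3⟩
    have := (h2 s hs).2
    simp only [if_true] at this
    omega

/-- If every `m` coordinates satisfy a relation on `S`, then `S` is covered by boundedly many
systems of rank `≤ 2 (m - 1)`.  Same proof: non-vertical systems `⟨J, false, g⟩` with `#J = m - 1`,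
`η` ranging over all of `Option ι` outside `some '' J`; the remaining points go to `decompV`. -/
theorem decompN {ι : Type} [Fintype ι] [DecidableEq ι] (m δ : ℕ) :
    ∃ L : ℕ, ∀ (H : ℕ) (S : Finset (Option ι → ℚ)),
      (∀ A : Finset (Option ι), A.card = m → Rel (A : Set (Option ι)) δ H S) →
      ∃ 𝓛 : Finset (Sys ι), 𝓛.card ≤ L ∧
        (∀ s ∈ 𝓛, s.Cx δ (δ.factorial * H) ∧ s.rank + 2 ≤ 2 * m) ∧
        ∀ z ∈ S, ∃ s ∈ 𝓛, s.ND z := by
  cases m with
  | zero =>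
    refine ⟨0, fun H S hS => ⟨∅, le_rfl, by simp, ?_⟩⟩
    have := hS ∅ rfl
    rw [Finset.coe_empty] at this
    simp [decomp_empty this]
  | succ y =>
    obtain ⟨L', ih⟩ := decompV (ι := ι) y δ
    obtain ⟨L, hL⟩ := decomp_step false y δ L' ih
    refine ⟨L, fun H S hS => ?_⟩
    obtain ⟨𝓛, h1, h2, h3⟩ := hL H S fun J hJ η hη => by
      have hη' : η ∉ J.map Function.Embedding.some := by
        intro h
        obtain ⟨i, hi, rfl⟩ := Finset.mem_map.1 h
        exact hη hi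
      have := hS (insert η (J.map Function.Embedding.some))
        (by rw [Finset.card_insert_of_notMem hη', Finset.card_map, hJ])
      rwa [Finset.coe_insert, Finset.coe_map] at this
    refine ⟨𝓛, h1, fun s hs => ⟨(h2 s hs).1, ?_⟩, h3⟩
    have := (h2 s hs).2
    simp only [Bool.false_eq_true, if_false] at this
    omega

end Crest.Agent.R022
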