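import Crest.Agent.R022.Defs

set_option autoImplicit false

namespace Crest.Agent.R022

open Finset

/-- `h` as a polynomial in the variable `η` -/
noncomputable def decompcore_G {σ : Type*} [DecidableEq σ] (η : σ) (h : MvPolynomial σ ℤ) :
    Polynomial (MvPolynomial σ ℤ) :=
  ∑ m ∈ h.support, Polynomial.monomial (m η) (MvPolynomial.monomial (m.erase η) (h.coeff m))

theorem decompcore_coeff {σ : Type*} [DecidableEq σ] (η : σ) (h : MvPolynomial σ ℤ) (j : ℕ)
    (n : σ →₀ ℕ) : ((decompcore_G η h).coeff j).coeff n =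
      if n η = 0 then h.coeff (n + Finsupp.single η j) else 0 := by
  unfold decompcore_G
  rw [Polynomial.finsetSum_coeff, MvPolynomial.coeff_sum]
  have key : ∀ m : σ →₀ ℕ, MvPolynomial.coeff n ((Polynomial.monomial (m η)
      (MvPolynomial.monomial (m.erase η) (h.coeff m))).coeff j) =
      if n η = 0 ∧ m = n + Finsupp.single η j then h.coeff m else 0 := by
    intro m
    rw [Polynomial.coeff_monomial]
    by_cases h1 : m η = j
    · rw [if_pos h1, MvPolynomial.coeff_monomial]
      refine if_congr ⟨fun h2 => ?_, fun h2 => ?_⟩ rfl rfl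
      · subst h2
        refine ⟨by simp, ?_⟩
        rw [← h1, Finsupp.erase_add_single]
      · obtain ⟨h2, rfl⟩ := h2
        ext i
        by_cases hi : i = η
        · subst hi; simp [h2]
        · simp [Finsupp.erase_ne hi, Ne.symm hi]
    · rw [if_neg h1, if_neg, MvPolynomial.coeff_zero]
      rintro ⟨h2, rfl⟩
      simp [h2] at h1
  simp only [key]
  by_cases hn : n η = 0
  · simp only [hn, true_and, if_true]
    rw [Finset.sum_ite_eq']
    split_ifs with h1
    · rfl
    · exact (MvPolynomial.notMem_support_iff.1 h1).symm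
  · simp [hn]

theorem decompcore_eval {σ : Type*} [DecidableEq σ] (η : σ) (h : MvPolynomial σ ℤ) (z : σ → ℚ) :
    ((decompcore_G η h).map (ev z)).eval (z η) = ev z h := by
  conv_rhs => rw [h.as_sum]
  unfold decompcore_G
  rw [Polynomial.map_sum, Polynomial.eval_finsetSum, map_sum]
  refine Finset.sum_congr rfl (fun m _ => ?_)
  rw [Polynomial.map_monomial, Polynomial.eval_monomial]
  conv_rhs => rw [← Finsupp.erase_add_single η m]
  rw [MvPolynomial.monomial_add_single, map_mul, map_pow, Finsupp.erase_add_single]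
  simp [ev]

theorem decompcore_mem {σ : Type*} [DecidableEq σ] {η : σ} {h : MvPolynomial σ ℤ} {j : ℕ}
    {n : σ →₀ ℕ} (hn : n ∈ ((decompcore_G η h).coeff j).support) :
    n η = 0 ∧ n + Finsupp.single η j ∈ h.support := by
  rw [MvPolynomial.mem_support_iff, decompcore_coeff] at hn
  by_cases h1 : n η = 0
  · rw [if_pos h1] at hn; exact ⟨h1, MvPolynomial.mem_support_iff.2 hn⟩
  · simp [h1] at hn

theorem decompcore_deg {σ : Type*} [DecidableEq σ] {η : σ} {h : MvPolynomial σ ℤ} {j : ℕ}
    {n : σ →₀ ℕ} (hn : n ∈ ((decompcore_G η h).coeff j).support) :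
    (n.sum fun _ e => e) + j ≤ h.totalDegree := by
  have := MvPolynomial.le_totalDegree (decompcore_mem hn).2
  rwa [Finsupp.sum_add_index' (fun _ => rfl) (fun _ _ _ => rfl), Finsupp.sum_single_index rfl]
    at this

theorem decompcore_ne {σ : Type*} [DecidableEq σ] (η : σ) {h : MvPolynomial σ ℤ} (h0 : h ≠ 0) :
    decompcore_G η h ≠ 0 := by
  intro hG
  apply h0
  ext m
  have := decompcore_coeff η h (m η) (m.erase η)
  rw [hG, Finsupp.erase_add_single] at this
  simpa using this.symm

theorem decompcore_supp {σ : Type*} [DecidableEq σ] {η : σ} {A : Set σ} {h : MvPolynomial σ ℤ}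
    (hs : h ∈ MvPolynomial.supported ℤ (insert η A)) (j : ℕ) :
    (decompcore_G η h).coeff j ∈ MvPolynomial.supported ℤ A := by
  rw [MvPolynomial.mem_supported] at hs ⊢
  intro i hi
  obtain ⟨n, hn, hi'⟩ := (MvPolynomial.mem_vars_iff_mem_support i).1 hi
  obtain ⟨h1, h2⟩ := decompcore_mem hn
  rw [Finsupp.mem_support_iff] at hi'
  have h3 : i ∈ h.vars := (MvPolynomial.mem_vars_iff_mem_support i).2 ⟨_, h2, by
    rw [Finsupp.mem_support_iff, Finsupp.add_apply]; omega⟩
  rcases hs h3 with rfl | h4
  · exact absurd h1 hi'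
  · exact h4

theorem decompcore_bd {σ : Type*} [DecidableEq σ] (η : σ) {δ H : ℕ} {h : MvPolynomial σ ℤ}
    (hb : Bd δ H h) (j : ℕ) : Bd δ H ((decompcore_G η h).coeff j) := by
  refine ⟨Finset.sup_le (fun n hn => ?_), fun n => ?_⟩
  · have := decompcore_deg hn
    have := hb.1
    omega
  · rw [decompcore_coeff]
    split_ifs
    · exact hb.2 _
    · simp

theorem decompcore_natDegree {σ : Type*} [DecidableEq σ] (η : σ) (h : MvPolynomial σ ℤ) :
    (decompcore_G η h).natDegree ≤ h.totalDegree := by
  rw [Polynomial.natDegree_le_iff_coeff_eq_zero]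
  intro j hj
  by_contra h1
  obtain ⟨n, hn⟩ := MvPolynomial.support_nonempty.2 h1
  have := decompcore_deg hn
  omega

/-- From a relation among `insert η A`, produce its leading coefficient `c` in the variable `η`
and the list of iterated `η`-derivatives.
Hint: `G := aeval (fun i => if i = η then Polynomial.X else Polynomial.C (X i)) h`, a polynomial in
`η` whose coefficients are supported on `A`; every coefficient of a coefficient of `G` is a
coefficient of `h`.  `c := G.leadingCoeff`, `𝒢 := {derivative^[i] G | i ≤ δ}`.  If `ev z c ≠ 0` then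
`G.map (ev z) ≠ 0` has the root `z η` with multiplicity `μ ≥ 1`; take `i = μ - 1` (char 0:
`Polynomial.isRoot_iterate_derivative_of_lt_rootMultiplicity`,
`Polynomial.lt_rootMultiplicity_of_isRoot_iterate_derivative`), and the leading coefficient of
`derivative^[i] G` is `descFactorial * c` (`Polynomial.coeff_iterate_derivative`). -/
theorem decomp_core {σ : Type*} [DecidableEq σ] (η : σ) (A : Set σ) (hη : η ∉ A) (δ H : ℕ)
    (h : MvPolynomial σ ℤ) (h0 : h ≠ 0) (hs : h ∈ MvPolynomial.supported ℤ (insert η A))
    (hb : Bd δ H h) :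
    ∃ (c : MvPolynomial σ ℤ) (𝒢 : Finset (Polynomial (MvPolynomial σ ℤ))),
      c ≠ 0 ∧ c ∈ MvPolynomial.supported ℤ A ∧ Bd δ H c ∧ 𝒢.card ≤ δ + 1 ∧
      (∀ g ∈ 𝒢, g.natDegree ≤ δ ∧ ∀ j, g.coeff j ∈ MvPolynomial.supported ℤ A ∧
        Bd δ (δ.factorial * H) (g.coeff j)) ∧
      ∀ z : σ → ℚ, ev z h = 0 → ev z c = 0 ∨ ∃ g ∈ 𝒢, (g.map (ev z)).eval (z η) = 0 ∧
        (g.map (ev z)).derivative.eval (z η) ≠ 0 ∧ ev z g.leadingCoeff ≠ 0 := by
  classical
  have hG0 := decompcore_ne η h0
  have hdeg : (decompcore_G η h).natDegree ≤ δ := (decompcore_natDegree η h).trans hb.1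
  set G := decompcore_G η h with hG
  refine ⟨G.leadingCoeff, (range (δ + 1)).image (fun i => Polynomial.derivative^[i] G),
    Polynomial.leadingCoeff_ne_zero.2 hG0, decompcore_supp hs _, decompcore_bd η hb _,
    card_image_le.trans (by simp), fun g hg => ?_, fun z hz => ?_⟩
  · obtain ⟨i, _, rfl⟩ := mem_image.1 hg
    refine ⟨(Polynomial.natDegree_iterate_derivative G i).trans (by omega), fun j => ?_⟩
    rw [Polynomial.coeff_iterate_derivative]
    refine ⟨nsmul_mem (decompcore_supp hs _) _,
      (MvPolynomial.totalDegree_smul_le _ _).trans (decompcore_bd η hb _).1, fun m => ?_⟩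
    by_cases hj : j + i ≤ δ
    · rw [MvPolynomial.coeff_smul, nsmul_eq_mul, Int.natAbs_mul, Int.natAbs_natCast]
      refine Nat.mul_le_mul ?_ ((decompcore_bd η hb _).2 m)
      refine le_trans ?_ (Nat.factorial_le hj)
      rw [← Nat.factorial_mul_descFactorial (Nat.le_add_left i j)]
      exact Nat.le_mul_of_pos_left _ (Nat.factorial_pos _)
    · rw [Polynomial.coeff_eq_zero_of_natDegree_lt (by omega)]
      simp
  · by_cases hc : ev z G.leadingCoeff = 0
    · exact Or.inl hc
    right
    have hP0 : G.map (ev z) ≠ 0 := by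
      intro h1
      apply hc
      have := congrArg (fun p => Polynomial.coeff p G.natDegree) h1
      simpa [Polynomial.coeff_map] using this
    have hroot : (G.map (ev z)).IsRoot (z η) := by
      rw [Polynomial.IsRoot.def, hG, decompcore_eval, hz]
    have hμ : 0 < (G.map (ev z)).rootMultiplicity (z η) :=
      (Polynomial.rootMultiplicity_pos hP0).2 hroot
    have hμ' : (G.map (ev z)).rootMultiplicity (z η) ≤ G.natDegree := by
      have h1 := Polynomial.natDegree_le_of_dvd
        (Polynomial.pow_rootMultiplicity_dvd (G.map (ev z)) (z η)) hP0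
      rw [Polynomial.natDegree_pow, Polynomial.natDegree_X_sub_C, mul_one] at h1
      exact h1.trans Polynomial.natDegree_map_le
    obtain ⟨i, hi⟩ : ∃ i, (G.map (ev z)).rootMultiplicity (z η) = i + 1 :=
      ⟨_, (Nat.succ_pred_eq_of_pos hμ).symm⟩
    refine ⟨Polynomial.derivative^[i] G, mem_image.2 ⟨i, mem_range.2 (by omega), rfl⟩, ?_, ?_, ?_⟩
    · rw [← Polynomial.iterate_derivative_map]
      exact Polynomial.isRoot_iterate_derivative_of_lt_rootMultiplicity (by omega)
    · rw [← Polynomial.iterate_derivative_map, ← Function.iterate_succ_apply' Polynomial.derivative]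
      intro h1
      have h2 : i + 1 < (G.map (ev z)).rootMultiplicity (z η) := by
        refine Polynomial.lt_rootMultiplicity_of_isRoot_iterate_derivative hP0 (fun m hm => ?_)
        rcases Nat.lt_or_eq_of_le hm with hm | rfl
        · exact Polynomial.isRoot_iterate_derivative_of_lt_rootMultiplicity (by omega)
        · exact h1
      omega
    · have hin : i ≤ G.natDegree := by omega
      have hco : (Polynomial.derivative^[i] G).coeff (G.natDegree - i) =
          G.natDegree.descFactorial i • G.leadingCoeff := by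
        rw [Polynomial.coeff_iterate_derivative, Nat.sub_add_cancel hin]; rfl
      have hne : ev z ((Polynomial.derivative^[i] G).coeff (G.natDegree - i)) ≠ 0 := by
        rw [hco, map_nsmul, nsmul_eq_mul]
        exact mul_ne_zero (Nat.cast_ne_zero.2 (Nat.descFactorial_pos.2 hin).ne') hc
      have hnd : (Polynomial.derivative^[i] G).natDegree = G.natDegree - i :=
        le_antisymm (Polynomial.natDegree_iterate_derivative G i)
          (Polynomial.le_natDegree_of_ne_zero (fun h1 => hne (by rw [h1, map_zero])))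
      rw [Polynomial.leadingCoeff, hnd]
      exact hne

end Crest.Agent.R022
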