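import Mathlib
import Crest.Prelude.Def_PowerFree

/-!
# Row 22 (power-free values): definitions

Ambient space: coordinates `Option ι`; `some i` are the affine coordinates `ξ_i` of the projective
point `[α]`, `none` is the coordinate `N`.
-/

set_option autoImplicit false

namespace Crest.Agent.R022

open Finset

/-! ## Triangular systems -/

/-- evaluation of an integer polynomial at a point with coordinates in a commutative ring -/
noncomputable def ev {σ K : Type*} [CommRing K] (z : σ → K) : MvPolynomial σ ℤ →+* K :=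
  MvPolynomial.eval₂Hom (Int.castRingHom K) z

/-- total degree at most `δ`, all coefficients at most `H` in absolute value -/
def Bd {σ : Type*} (δ H : ℕ) (p : MvPolynomial σ ℤ) : Prop :=
  p.totalDegree ≤ δ ∧ ∀ m, (p.coeff m).natAbs ≤ H

/-- A triangular system: the variables `some j`, `j ∈ J`, are free, `none` is free iff `vert`;
every other variable `η` satisfies the univariate equation `g η` whose coefficients only involve
the variables `some j`, `j ∈ J`. -/
structure Sys (ι : Type) where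
  J : Finset ι
  vert : Bool
  g : Option ι → Polynomial (MvPolynomial (Option ι) ℤ)

namespace Sys

variable {ι : Type}

/-- dependent variables -/
def Dep (s : Sys ι) : Option ι → Prop
  | none => s.vert = false
  | some i => i ∉ s.J

/-- number of free variables -/
def m (s : Sys ι) : ℕ := s.J.card + (if s.vert then 1 else 0)

/-- rank -/
def rank (s : Sys ι) : ℕ := 2 * s.J.card + (if s.vert then 1 else 0)

/-- well-formedness and complexity -/
def Cx (s : Sys ι) (δ H : ℕ) : Prop :=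
  ∀ η, s.Dep η → (s.g η).natDegree ≤ δ ∧
    ∀ j, (s.g η).coeff j ∈ MvPolynomial.supported ℤ (some '' (s.J : Set ι)) ∧
      Bd δ H ((s.g η).coeff j)

/-- the equation of `η` specialised at the point `z` -/
noncomputable def gv {K : Type*} [CommRing K] (s : Sys ι) (z : Option ι → K) (η : Option ι) :
    Polynomial K := (s.g η).map (ev z)

/-- `z` is a nondegenerate solution of the system -/
def ND {K : Type*} [CommRing K] (s : Sys ι) (z : Option ι → K) : Prop :=
  ∀ η, s.Dep η → (s.gv z η).eval (z η) = 0 ∧ (s.gv z η).derivative.eval (z η) ≠ 0 ∧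
    ev z (s.g η).leadingCoeff ≠ 0

/-- `ω` is a generic point of (a component of) the system -/
structure Gen {Ω : Type*} [Field Ω] [Algebra ℂ Ω] (s : Sys ι) (ω : Option ι → Ω) : Prop where
  nd : s.ND ω
  indep : AlgebraicIndependent ℂ (fun i : {i : Option ι // ¬ s.Dep i} => ω i)

/-- the prime `ℓ` is good for the system at the rational point `z` -/
def Good (s : Sys ι) (z : Option ι → ℚ) (ℓ : ℕ) : Prop :=
  (∀ i, ¬ ℓ ∣ (z i).den) ∧
    ∀ η, s.Dep η → ¬ (ℓ : ℤ) ∣ ((s.gv z η).derivative.eval (z η)).num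

end Sys

/-- the rational point `z` is a specialisation of `ω` -/
def Spec {σ Ω : Type*} [Field Ω] [Algebra ℂ Ω] (ω : σ → Ω) (z : σ → ℚ) : Prop :=
  ∀ h : MvPolynomial σ ℂ, MvPolynomial.aeval ω h = 0 →
    MvPolynomial.aeval (fun i => (z i : ℂ)) h = 0

/-- a fixed big algebraically closed field holding all generic points -/
abbrev Om (ι : Type) : Type := AlgebraicClosure (FractionRing (MvPolynomial (Option ι) ℂ))

/-- height of a rational point -/
def PtH {σ : Type*} (H : ℕ) (z : σ → ℚ) : Prop :=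
  ∃ c : ℤ, c ≠ 0 ∧ c.natAbs ≤ H ∧ ∀ i, ∃ a : ℤ, a.natAbs ≤ H ∧ (c : ℚ) * z i = a

/-- a nonzero integer relation among the coordinates in `A` holds on `S` -/
def Rel {σ : Type*} (A : Set σ) (δ H : ℕ) (S : Finset (σ → ℚ)) : Prop :=
  ∃ h : MvPolynomial σ ℤ, h ≠ 0 ∧ h ∈ MvPolynomial.supported ℤ A ∧ Bd δ H h ∧ ∀ z ∈ S, ev z h = 0

/-- residue of a rational number modulo `ℓ` -/
def res (ℓ : ℕ) (q : ℚ) : ℕ := ((q.num : ZMod ℓ) * (q.den : ZMod ℓ)⁻¹).val

/-- class modulo `ℓ` of the `ξ`-part of a point -/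
def cl {ι : Type} (ℓ : ℕ) (z : Option ι → ℚ) : ι → ℕ := fun i => res ℓ (z (some i))

/-- the `ℓ`-adic gain for an `r × r` determinant, `y` small variables and `N`-degree `≤ D'` -/
def Gf (r y D' I : ℕ) : ℕ := ∑ i ∈ range I, (r - (D' + 1) * (i + y).choose y)

/-! ## Counting functions -/

/-- lower bound for the number of `w ∈ ℤ^y` with positive part `≤ R`, negative part `≤ R`, and
negative entries only among `y'` prescribed coordinates -/
def cnt (y y' R : ℕ) : ℕ :=
  ∑ t ∈ range (y' + 1), y'.choose t * R.choose t * (R + y - t).choose (y - t)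

/-- value of the fixed coordinate on the face at level `ρ` -/
def sg2 (R ρ : ℕ) : ℕ := min (ρ - 1) (R + 1 - 2 * ρ)

/-- lower bound of the two free coordinates on the face at level `ρ` -/
def bb2 (R ρ : ℕ) : ℕ := min (ρ - 1) (R - ρ - sg2 R ρ)

/-- number of face monomials for surfaces -/
def N2 (R : ℕ) : ℕ := 4 * ∑ ρ ∈ Icc 1 R, (ρ + sg2 R ρ + 2 * bb2 R ρ + 1)

/-- radius allowed at level `e` -/
def Rad (d k e : ℕ) : ℕ := k * e - d * (k - 1)

/-- number of independent torus monomials in the vertical case -/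
def Nv (d y R : ℕ) : ℕ := if y = 1 then d * R + 1 else if y = 2 then N2 R else cnt y y R

/-- lower bound for the Hilbert function at level `e` -/
def gfun (d k : ℕ) (vert : Bool) (y e : ℕ) : ℕ :=
  if vert then ∑ e' ∈ range (e + 1), Nv d y (Rad d k e')
  else if y = 1 then (k + 1) * e + 1 else cnt y (y - 1) (Rad d k e)

/-- the numerical inequality of the determinant method: `Jn` primes of size `P`, `X ≤ P ^ B` -/
def NumOK (d k : ℕ) (vert : Bool) (y Jn B D I : ℕ) : Prop :=
  (∀ e < D, gfun d k vert y e ≤ gfun d k vert y (e + 1)) ∧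
  B * (D * gfun d k vert y D) <
    B * (∑ e ∈ range D, gfun d k vert y e) +
      Jn * Gf (gfun d k vert y D) y (if vert then D else 0) I

/-! ## Hilbert function setting -/

/-- the relations `α_i ^ k β_i = N - ϑ_i` in a field `Ω ⊇ ℂ` -/
structure HS {Ω : Type*} [Field Ω] [Algebra ℂ Ω] {d : ℕ} (k : ℕ) (ϑ : Fin d → ℂ)
    (α β : Fin d → Ω) (N : Ω) : Prop where
  inj : Function.Injective ϑ
  rel : ∀ i, α i ^ k * β i = N - algebraMap ℂ Ω (ϑ i)
  a0 : ∀ i, α i ≠ 0
  b0 : ∀ i, β i ≠ 0

/-- forms of bidegree `(k e, e)` -/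
noncomputable def V {Ω : Type*} [Field Ω] [Algebra ℂ Ω] {d : ℕ} (k : ℕ) (α β : Fin d → Ω)
    (e : ℕ) : Submodule ℂ Ω :=
  (Submodule.span ℂ (Set.range α)) ^ (k * e) * (Submodule.span ℂ (Set.range β)) ^ e

/-- Laurent monomial -/
noncomputable def lmon {Ω κ : Type*} [Field Ω] [Fintype κ] (x : κ → Ω) (w : κ → ℤ) : Ω :=
  ∏ i, x i ^ w i

/-- `w` has degree zero and negative part at most `R` -/
def InP {κ : Type*} [Fintype κ] (R : ℕ) (w : κ → ℤ) : Prop :=
  ∑ i, w i = 0 ∧ ∑ i, (-w i).toNat ≤ R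

/-- a certificate that `α_i` is a unit once the other `α_j` are inverted -/
def CertAt {K : Type*} [CommRing K] [Algebra ℂ K] {d : ℕ} (i : Fin d) (ν : Fin d → ℕ)
    (Ψ : MvPolynomial (Fin d) ℂ) (α : Fin d → K) : Prop :=
  ∏ j, α j ^ ν j = α i * MvPolynomial.aeval α Ψ

/-- some certificate of degree `≤ δ` exists -/
def Cert {K : Type*} [CommRing K] [Algebra ℂ K] {d : ℕ} (δ : ℕ) (α : Fin d → K) : Prop :=
  ∃ (i : Fin d) (ν : Fin d → ℕ) (Ψ : MvPolynomial (Fin d) ℂ),
    ν i = 0 ∧ ∑ j, ν j ≤ δ ∧ Ψ.totalDegree ≤ δ ∧ CertAt i ν Ψ α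

/-! ## Arithmetic: companion matrix -/

/-- companion matrix of `F` (multiplication by the root in the power basis; size `d`) -/
noncomputable def cmp (F : Polynomial ℤ) (d : ℕ) : Matrix (Fin d) (Fin d) ℤ :=
  fun i j => if j.val + 1 = d then - F.coeff i else if i.val = j.val + 1 then 1 else 0

/-- matrix of multiplication by `∑ a_j ϑ^j` -/
noncomputable def mulM {K : Type*} [CommRing K] (F : Polynomial ℤ) {d : ℕ} (a : Fin d → K) :
    Matrix (Fin d) (Fin d) K :=
  ∑ j : Fin d, a j • ((cmp F d).map (Int.castRingHom K)) ^ (j : ℕ)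

/-- the norm form -/
noncomputable def nm {K : Type*} [CommRing K] (F : Polynomial ℤ) {d : ℕ} (a : Fin d → K) : K :=
  (mulM F a).det

/-- coordinates of `N - ϑ` -/
def wv {K : Type*} [CommRing K] (d : ℕ) (N : K) : Fin d → K :=
  fun j => if j.val = 0 then N else if j.val = 1 then -1 else 0

/-- coordinates of `(N - ϑ) (nm a / α) ^ k` -/
noncomputable def bvec {K : Type*} [CommRing K] (F : Polynomial ℤ) (k : ℕ) {d : ℕ}
    (a : Fin d → K) (N : K) : Fin d → K :=
  Matrix.mulVec ((mulM F a).adjugate ^ k) (wv d N)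

/-- the conjugate `∑ a_j t^j` -/
noncomputable def conj {K : Type*} [CommRing K] {d : ℕ} (a : Fin d → K) (t : K) : K :=
  ∑ j : Fin d, a j * t ^ (j : ℕ)

/-- homogeneous coordinates in the chart `a_{c} = 1` of a point `z` -/
def hom {K : Type*} [CommRing K] {n : ℕ} (c : Fin (n + 1)) (z : Option (Fin n) → K) :
    Fin (n + 1) → K :=
  Fin.insertNth (α := fun _ => K) c 1 (fun j => z (some j))

/-- the universal point -/
noncomputable def Xu (n : ℕ) : Option (Fin n) → MvPolynomial (Option (Fin n)) ℤ :=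
  fun i => MvPolynomial.X i

/-- the interpolation polynomial attached to the monomial `a^u b^v` of level `e ≤ D` -/
noncomputable def mon (F : Polynomial ℤ) (k : ℕ) {n : ℕ} (c : Fin (n + 1)) (D e : ℕ)
    (u v : Fin (n + 1) → ℕ) : MvPolynomial (Option (Fin n)) ℤ :=
  (∏ j, hom c (Xu n) j ^ u j) * (∏ j, bvec F k (hom c (Xu n)) (Xu n none) j ^ v j) *
    nm F (hom c (Xu n)) ^ (k * (D - e))

/-- the setting: `F` monic of degree `d`, irreducible over `ℚ`, with complex roots `ϑ` -/
structure FS (F : Polynomial ℤ) {d : ℕ} (ϑ : Fin d → ℂ) : Prop where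
  monic : F.Monic
  deg : F.natDegree = d
  irr : Irreducible (F.map (Int.castRingHom ℚ))
  inj : Function.Injective ϑ
  root : ∀ i, Polynomial.aeval (ϑ i) F = 0

/-- arithmetic data attached to an integer `N` with `p ^ k ∣ F(N)` -/
structure AD (F : Polynomial ℤ) (k : ℕ) {d : ℕ} (C X : ℕ) (N : ℤ) (p : ℕ) (m : ℤ)
    (a b : Fin d → ℤ) (A : ℕ) : Prop where
  prime : p.Prime
  big : 2 * X < p ^ 2
  hN : N.natAbs ≤ X
  dvdF : (p : ℤ) ^ k ∣ F.eval N
  dvda : (p : ℤ) ∣ conj a N
  hnm : nm F a = p * m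
  m0 : m ≠ 0
  hm : m.natAbs ≤ C
  hb : ∀ j, (p : ℤ) ^ k * b j = bvec F k a N j
  ha : ∀ j, (a j).natAbs ≤ A
  hbA : ∀ j, (b j).natAbs * A ^ k ≤ C * X
  hA : A ≤ C * X
  hAp : A < p

/-- the rational point attached to the data in the chart `c` -/
def pt {n : ℕ} (c : Fin (n + 1)) (a : Fin (n + 1) → ℤ) (N : ℤ) : Option (Fin n) → ℚ
  | none => N
  | some j => (a (c.succAbove j) : ℚ) / a c

/-- `z` is an arithmetic point (chart `c`, cofactor `m`) -/
def IsPt (F : Polynomial ℤ) (k : ℕ) {n : ℕ} (C X : ℕ) (c : Fin (n + 1)) (m : ℤ)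
    (z : Option (Fin n) → ℚ) : Prop :=
  ∃ (N : ℤ) (p : ℕ) (a b : Fin (n + 1) → ℤ) (A : ℕ),
    AD F k C X N p m a b A ∧ a c ≠ 0 ∧ z = pt c a N

/-- the conjugates `α_i` at a point with coordinates in a `ℂ`-algebra -/
noncomputable def alv {K : Type*} [CommRing K] [Algebra ℂ K] {n : ℕ} (ϑ : Fin (n + 1) → ℂ)
    (c : Fin (n + 1)) (z : Option (Fin n) → K) : Fin (n + 1) → K :=
  fun i => conj (hom c z) (algebraMap ℂ K (ϑ i))

/-- the conjugates `β_i` at a point with coordinates in a field over `ℂ` -/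
noncomputable def bev {K : Type*} [Field K] [Algebra ℂ K] {n : ℕ} (k : ℕ) (ϑ : Fin (n + 1) → ℂ)
    (c : Fin (n + 1)) (z : Option (Fin n) → K) : Fin (n + 1) → K :=
  fun i => (z none - algebraMap ℂ K (ϑ i)) / alv ϑ c z i ^ k

/-- a rational point viewed in `ℂ` -/
def toC {σ : Type*} (z : σ → ℚ) : σ → ℂ := fun i => (z i : ℂ)

end Crest.Agent.R022
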