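import Crest.Agent.R022.Primes

set_option autoImplicit false

namespace Crest.Agent.R022

open Finset

/-- a complex solution of a linear system over an order gives a solution in the order -/
theorem delta_descend (O : Subalgebra ℤ ℂ) [Module.Finite ℤ O] {I κ : Type} [Fintype κ]
    (lam : I → O) (μ : I → κ → O) (cf : κ → ℂ) (h : ∀ P, (lam P : ℂ) = ∑ u, cf u * μ P u) :
    ∃ (n : ℤ) (t : κ → O), n ≠ 0 ∧ ∀ P, (n : O) * lam P = ∑ u, t u * μ P u := by
  letI : Algebra (FractionRing O) ℂ := FractionRing.liftAlgebra O ℂ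
  haveI : IsScalarTower O (FractionRing O) ℂ := FractionRing.isScalarTower_liftAlgebra O ℂ
  obtain ⟨π, hπ⟩ := (Algebra.linearMap (FractionRing O) ℂ).exists_leftInverse_of_injective
    (LinearMap.ker_eq_bot.2 (algebraMap (FractionRing O) ℂ).injective)
  have hπ1 : ∀ x : FractionRing O, π (algebraMap (FractionRing O) ℂ x) = x := fun x =>
    LinearMap.congr_fun hπ x
  have hc : ∀ x : O, (x : ℂ) = algebraMap (FractionRing O) ℂ (algebraMap O (FractionRing O) x) :=
    fun x => IsScalarTower.algebraMap_apply O (FractionRing O) ℂ x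
  have h1 : ∀ P, algebraMap O (FractionRing O) (lam P) =
      ∑ u, π (cf u) * algebraMap O (FractionRing O) (μ P u) := by
    intro P
    rw [← hπ1 (algebraMap O (FractionRing O) (lam P)), ← hc, h P, map_sum]
    refine sum_congr rfl fun u _ => ?_
    rw [hc, mul_comm, ← Algebra.smul_def, map_smul, smul_eq_mul, mul_comm]
  obtain ⟨β, hβ⟩ := IsLocalization.exist_integer_multiples_of_finite (nonZeroDivisors O)
    (fun u => π (cf u))
  choose a ha using hβ
  obtain ⟨n, hn, β', hβ'⟩ :=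
    (Algebra.IsIntegral.isIntegral (R := ℤ) (β : O)).isAlgebraic.exists_nonzero_dvd β.2
  refine ⟨n, fun u => β' * a u, hn, fun P => ?_⟩
  have h2 : (β : O) * lam P = ∑ u, a u * μ P u := by
    apply IsFractionRing.injective O (FractionRing O)
    rw [map_mul, h1 P, map_sum, mul_sum]
    refine sum_congr rfl fun u _ => ?_
    rw [map_mul, ha u, Algebra.smul_def, mul_assoc]
  have h3 : (n : O) = β * β' := hβ'
  rw [h3, mul_comm (β : O), mul_assoc, h2, mul_sum]
  simp only [mul_assoc]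

theorem delta_nrm_sum {O B J : Type*} [AddCommGroup O] [Fintype B] (ω : Module.Basis B ℤ O)
    (s : Finset J) (k : J → ℤ) (x : J → O) :
    ∑ b, (ω.repr (∑ j ∈ s, k j • x j) b).natAbs ≤
      ∑ j ∈ s, (k j).natAbs * ∑ b, (ω.repr (x j) b).natAbs := by
  simp only [mul_sum]
  rw [sum_comm]
  refine sum_le_sum fun b _ => ?_
  rw [map_sum, Finsupp.finsetSum_apply]
  refine (Int.natAbs_sum_le _ _).trans (le_of_eq (sum_congr rfl fun j _ => ?_))
  rw [map_smul, Finsupp.smul_apply, smul_eq_mul, Int.natAbs_mul]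

/-- Cramer's rule over the order.
Hint: `Ord ϑ` is a finitely generated torsion free `ℤ`-module, so it has a finite basis `ω_b`; put
`nrm x = ∑_b |repr x b|`.  Let `L₀ ⊆ ℂ` be the `ℚ`-span of `Ord ϑ` (= the field `ℚ(ϑ)`), `π : ℂ → L₀`
an `L₀`-linear projection; replacing `cf u` by `π (cf u) = ∑_b q u b ω_b` gives a rational solution of
the integer linear system (rows `(P, b')`, unknowns `Option (κ × B)`) with entries
`repr (lam P) b'`, `- repr (ω_b μ P u) b'`, the unknown `none` being `1`; apply `siegel_coord`. -/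
theorem exists_delta {d : ℕ} (ϑ : Fin d → ℂ) (hint : ∀ i, IsIntegral ℤ (ϑ i)) (U : ℕ) :
    ∃ (nrm : Ord ϑ → ℕ) (c : ℕ), 1 ≤ c ∧ (∀ x y, nrm (x * y) ≤ c * nrm x * nrm y) ∧
      (∀ x y, nrm (x + y) ≤ nrm x + nrm y) ∧ (∀ t : ℤ, nrm (t : Ord ϑ) ≤ c * t.natAbs) ∧
      (∀ j, nrm (rt ϑ j) ≤ c) ∧
      ∀ (H : ℕ) (I κ : Type) [Fintype κ] (lam : I → Ord ϑ) (μ : I → κ → Ord ϑ) (cf : κ → ℂ),
        Fintype.card κ ≤ U → 1 ≤ H → (∀ P, nrm (lam P) ≤ H) → (∀ P u, nrm (μ P u) ≤ H) →
        (∀ P, (lam P : ℂ) = ∑ u, cf u * μ P u) →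
        ∃ (Δ : ℤ) (t : κ → Ord ϑ), Δ ≠ 0 ∧ Δ.natAbs ≤ (c * H) ^ c ∧
          ∀ P, (Δ : Ord ϑ) * lam P = ∑ u, t u * μ P u := by
  classical
  haveI : Module.Finite ℤ (Ord ϑ) := Algebra.finite_adjoin_of_finite_of_isIntegral
    (Set.finite_range ϑ) (by rintro _ ⟨i, rfl⟩; exact hint i)
  let B := Module.Free.ChooseBasisIndex ℤ (Ord ϑ)
  let ω : Module.Basis B ℤ (Ord ϑ) := Module.Free.chooseBasis ℤ (Ord ϑ)
  let nrm : Ord ϑ → ℕ := fun x => ∑ b, (ω.repr x b).natAbs
  let c0 : ℕ := ∑ p : B × B, nrm (ω p.1 * ω p.2)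
  let c1 : ℕ := ∑ b, nrm (ω b)
  let c2 : ℕ := c0 * c1 + 1
  let M : ℕ := U * Fintype.card B + 1
  have hmul : ∀ x y, nrm (x * y) ≤ c0 * nrm x * nrm y := by
    intro x y
    have e : x * y = ∑ p : B × B, (ω.repr x p.1 * ω.repr y p.2) • (ω p.1 * ω p.2) := by
      conv_lhs => rw [← ω.sum_repr x, ← ω.sum_repr y]
      rw [sum_mul_sum, Fintype.sum_prod_type]
      simp only [smul_mul_smul_comm]
    have h1 := delta_nrm_sum ω univ (fun p : B × B => ω.repr x p.1 * ω.repr y p.2)
      (fun p => ω p.1 * ω p.2)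
    rw [← e] at h1
    refine h1.trans ?_
    rw [mul_assoc, mul_comm c0, sum_mul_sum, ← Fintype.sum_prod_type', sum_mul]
    refine sum_le_sum fun p _ => ?_
    rw [Int.natAbs_mul]
    exact Nat.mul_le_mul_left _ (single_le_sum (f := fun p : B × B => nrm (ω p.1 * ω p.2))
      (fun _ _ => Nat.zero_le _) (mem_univ p))
  have hM : 1 ≤ M := Nat.le_add_left _ _
  have hc2 : 1 ≤ c2 := Nat.le_add_left _ _
  have hMc : M ≤ M * c2 := Nat.le_mul_of_pos_right _ hc2
  refine ⟨nrm, M * c2 + c0 + nrm 1 + ∑ j, nrm (rt ϑ j), by omega, fun x y => ?_, fun x y => ?_,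
    fun t => ?_, fun j => ?_, fun H I κ _ lam μ cf hκ hH hlam hμ h => ?_⟩
  · exact (hmul x y).trans (Nat.mul_le_mul_right _ (Nat.mul_le_mul_right _ (by omega)))
  · simp only [nrm, map_add, Finsupp.add_apply, ← sum_add_distrib]
    exact sum_le_sum fun b _ => Int.natAbs_add_le _ _
  · have h1 := delta_nrm_sum ω {()} (fun _ => t) (fun _ => (1 : Ord ϑ))
    simp only [sum_singleton, zsmul_one] at h1
    refine h1.trans ?_
    rw [mul_comm]
    exact Nat.mul_le_mul_right _ (show nrm 1 ≤ _ by omega)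
  · have := single_le_sum (f := fun j => nrm (rt ϑ j)) (fun _ _ => Nat.zero_le _) (mem_univ j)
    omega
  · let A : I × B → Option (κ × B) → ℤ := fun r w =>
      w.elim (ω.repr (lam r.1) r.2) (fun q => - ω.repr (ω q.2 * μ r.1 q.1) r.2)
    have hcoord : ∀ (x : Ord ϑ) (b : B), (ω.repr x b).natAbs ≤ nrm x := fun x b =>
      single_le_sum (f := fun b => (ω.repr x b).natAbs) (fun _ _ => Nat.zero_le _) (mem_univ b)
    have hA : ∀ r w, (A r w).natAbs ≤ c2 * H := by
      rintro ⟨P, b'⟩ (_ | ⟨u, b⟩)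
      · exact ((hcoord _ _).trans (hlam P)).trans (Nat.le_mul_of_pos_left _ hc2)
      · simp only [A, Option.elim, Int.natAbs_neg]
        refine ((hcoord _ _).trans (hmul _ _)).trans (Nat.mul_le_mul ?_ (hμ P u))
        exact (Nat.mul_le_mul_left _ (single_le_sum (f := fun b => nrm (ω b))
          (fun _ _ => Nat.zero_le _) (mem_univ b))).trans (Nat.le_succ _)
    have hsys : ∀ (t : Option (κ × B) → ℤ) (P : I) (b' : B), ∑ w, A (P, b') w * t w =
        ω.repr ((t none : Ord ϑ) * lam P - ∑ u, (∑ b, t (some (u, b)) • ω b) * μ P u) b' := by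
      intro t P b'
      rw [Fintype.sum_option, Fintype.sum_prod_type, ← zsmul_eq_mul]
      simp only [A, Option.elim, map_sub, map_smul, map_sum, sum_mul, smul_mul_assoc,
        Finsupp.sub_apply, Finsupp.smul_apply, Finsupp.finsetSum_apply, smul_eq_mul, neg_mul,
        sum_neg_distrib, mul_comm (t _)]
      ring
    obtain ⟨n, t0, hn, ht0⟩ := delta_descend (Ord ϑ) lam μ cf h
    let x : Option (κ × B) → ℤ := fun w => w.elim n (fun q => ω.repr (t0 q.1) q.2)
    obtain ⟨t, ht1, ht2, ht3⟩ := siegel_coord A (c2 * H) (Nat.mul_pos hc2 hH) hA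
      (fun w => (x w : ℚ)) none (by simpa [x] using hn) (by
        rintro ⟨P, b'⟩
        have h1 := hsys x P b'
        simp only [x, Option.elim, Module.Basis.sum_repr, ht0 P, sub_self, map_zero,
          Finsupp.zero_apply] at h1
        exact_mod_cast h1)
    refine ⟨t none, fun u => ∑ b, t (some (u, b)) • ω b, ht1, (ht2 none).trans ?_, fun P => ?_⟩
    · have hcard : Fintype.card (Option (κ × B)) ≤ M := by
        rw [Fintype.card_option, Fintype.card_prod]
        exact Nat.succ_le_succ (Nat.mul_le_mul_right _ hκ)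
      refine (Nat.pow_le_pow_left (m := (M * c2 + c0 + nrm 1 + ∑ j, nrm (rt ϑ j)) * H) ?_ _).trans
        (Nat.pow_le_pow_right (Nat.mul_pos (by omega) hH) (by omega))
      rw [← mul_assoc]
      exact Nat.mul_le_mul_right _ ((Nat.mul_le_mul_right _ hcard).trans (by omega))
    · rw [← sub_eq_zero]
      apply ω.repr.injective
      ext b'
      rw [← hsys t P b', ht3 (P, b'), map_zero, Finsupp.zero_apply]

end Crest.Agent.R022
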