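import Crest.Agent.R022.Defs

set_option autoImplicit false

namespace Crest.Agent.R022

open Finset

open Crest.NumberTheoryR Filter Topology

/-- a periodic set has a density -/
theorem dens_periodic (p : ℕ → Prop) [DecidablePred p] (Q : ℕ) (hQ : 0 < Q)
    (hp : Function.Periodic p Q) :
    Tendsto (fun X : ℕ => (((Icc 1 X).filter p).card : ℝ) / X) atTop
      (𝓝 ((((range Q).filter p).card : ℝ) / Q)) := by
  set c := ((range Q).filter p).card with hc
  have hcQ : c ≤ Q := (card_filter_le _ _).trans (card_range Q).le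
  have hQ' : (0 : ℝ) < Q := by exact_mod_cast hQ
  have hstep : ∀ X, ((Icc 1 (X + Q)).filter p).card = ((Icc 1 X).filter p).card + c := by
    intro X
    have e1 : Icc 1 (X + Q) = Icc 1 X ∪ Ico (X + 1) (X + 1 + Q) := by
      ext n; simp only [mem_union, mem_Icc, mem_Ico]; omega
    rw [e1, filter_union, card_union_of_disjoint, Nat.filter_Ico_card_eq_of_periodic _ _ _ hp,
      Nat.count_eq_card_filter_range]
    refine disjoint_filter_filter ?_
    rw [disjoint_left]
    intro n h1 h2
    simp only [mem_Icc, mem_Ico] at h1 h2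
    omega
  have hb : ∀ X : ℕ, |(((Icc 1 X).filter p).card : ℝ) - X * (c / Q)| ≤ Q := by
    intro X
    induction X using Nat.strong_induction_on with
    | _ X ih =>
      by_cases hX : X < Q
      · have h1 : (((Icc 1 X).filter p).card : ℝ) ≤ Q := by
          have := card_filter_le (Icc 1 X) p
          rw [Nat.card_Icc] at this
          exact_mod_cast (show _ ≤ Q by omega)
        have h2 : (0 : ℝ) ≤ ((Icc 1 X).filter p).card := Nat.cast_nonneg _
        have h3 : (0 : ℝ) ≤ X * (c / Q) := by positivity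
        have h4 : (X : ℝ) * (c / Q) ≤ Q := by
          have h5 : (c : ℝ) / Q ≤ 1 := (div_le_one hQ').2 (by exact_mod_cast hcQ)
          have h6 : (X : ℝ) ≤ Q := by exact_mod_cast hX.le
          nlinarith [(Nat.cast_nonneg X : (0 : ℝ) ≤ X)]
        rw [abs_le]; constructor <;> linarith
      · obtain ⟨Y, rfl⟩ : ∃ Y, X = Y + Q := ⟨X - Q, by omega⟩
        have := ih Y (by omega)
        rw [hstep]
        push_cast
        have e : ((Icc 1 Y).filter p).card + (c : ℝ) - (Y + Q) * (c / Q) =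
            ((Icc 1 Y).filter p).card - Y * (c / Q) := by field_simp; ring
        rwa [e]
  rw [← sub_zero ((c : ℝ) / Q), ← tendsto_sub_nhds_zero_iff, sub_zero]
  refine squeeze_zero_norm' ?_ (tendsto_const_div_atTop_nhds_zero_nat (Q : ℝ))
  filter_upwards [eventually_gt_atTop 0] with X hX
  have hX' : (0 : ℝ) < X := by exact_mod_cast hX
  have e : (((Icc 1 X).filter p).card : ℝ) / X - c / Q =
      ((((Icc 1 X).filter p).card : ℝ) - X * (c / Q)) / X := by field_simp
  rw [e, Real.norm_eq_abs, abs_div, abs_of_pos hX']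
  exact div_le_div_of_nonneg_right (hb X) hX'.le

/-- Chinese remainder count -/
theorem dens_crt (p q : ℕ → Prop) [DecidablePred p] [DecidablePred q] (a b : ℕ) (ha : 0 < a)
    (hb : 0 < b) (hab : a.Coprime b) (hp : Function.Periodic p a) (hq : Function.Periodic q b) :
    ((range (a * b)).filter fun n => p n ∧ q n).card =
      ((range a).filter p).card * ((range b).filter q).card := by
  rw [← card_product]
  refine card_bij (fun n _ => (n % a, n % b)) (fun n hn => ?_) (fun n hn m hm h => ?_)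
    (fun x hx => ?_)
  · simp only [mem_filter, mem_range, mem_product] at hn ⊢
    refine ⟨⟨Nat.mod_lt _ ha, ?_⟩, Nat.mod_lt _ hb, ?_⟩
    · rw [hp.map_mod_nat]; exact hn.2.1
    · rw [hq.map_mod_nat]; exact hn.2.2
  · simp only [mem_filter, mem_range, Prod.mk.injEq] at hn hm h
    exact ((Nat.modEq_and_modEq_iff_modEq_mul hab).1 h).eq_of_lt_of_lt hn.1 hm.1
  · simp only [mem_filter, mem_range, mem_product] at hx
    obtain ⟨⟨h1, h2⟩, h3, h4⟩ := hx
    have e1 : (Nat.chineseRemainder hab x.1 x.2 : ℕ) % a = x.1 := by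
      rw [(Nat.chineseRemainder hab x.1 x.2).2.1, Nat.mod_eq_of_lt h1]
    have e2 : (Nat.chineseRemainder hab x.1 x.2 : ℕ) % b = x.2 := by
      rw [(Nat.chineseRemainder hab x.1 x.2).2.2, Nat.mod_eq_of_lt h3]
    refine ⟨Nat.chineseRemainder hab x.1 x.2, ?_, Prod.ext e1 e2⟩
    simp only [mem_filter, mem_range]
    refine ⟨Nat.chineseRemainder_lt_mul hab _ _ ha.ne' hb.ne', ?_, ?_⟩
    · rw [← hp.map_mod_nat, e1]; exact h2
    · rw [← hq.map_mod_nat, e2]; exact h4

theorem dens_per (f : Polynomial ℤ) (m : ℤ) (Q : ℕ) (h : m ∣ Q) (n : ℕ) :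
    m ∣ f.eval ((n + Q : ℕ) : ℤ) ↔ m ∣ f.eval (n : ℤ) := by
  have := Polynomial.sub_dvd_eval_sub ((n + Q : ℕ) : ℤ) (n : ℤ) f
  rw [show ((n + Q : ℕ) : ℤ) - n = Q by push_cast; ring] at this
  exact dvd_iff_dvd_of_dvd_sub (h.trans this)

open Classical in
theorem dens_count (f : Polynomial ℤ) (k : ℕ) (P : Finset ℕ) (hP : ∀ p ∈ P, p.Prime) :
    ((((range (∏ p ∈ P, p ^ k)).filter
      fun n : ℕ => ∀ p ∈ P, ¬ (p : ℤ) ^ k ∣ f.eval (n : ℤ)).card : ℝ) / (∏ p ∈ P, p ^ k : ℕ)) =
      ∏ p ∈ P, (1 - (polyRootCountMod f (p ^ k) : ℝ) / (p : ℝ) ^ k) := by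
  induction P using Finset.induction_on with
  | empty => simp
  | insert p P hpP ih =>
    have hp := hP p (mem_insert_self _ _)
    have hP' : ∀ q ∈ P, q.Prime := fun q hq => hP q (mem_insert_of_mem hq)
    rw [prod_insert hpP, prod_insert hpP, ← ih hP']
    have hpos : 0 < ∏ q ∈ P, q ^ k := prod_pos fun q hq => pow_pos (hP' q hq).pos _
    have hco : (p ^ k).Coprime (∏ q ∈ P, q ^ k) := by
      refine Nat.Coprime.prod_right fun q hq => Nat.Coprime.pow _ _ ?_
      exact (Nat.coprime_primes hp (hP' q hq)).2 fun h => hpP (h ▸ hq)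
    have h := dens_crt (fun n : ℕ => ¬ (p : ℤ) ^ k ∣ f.eval (n : ℤ))
      (fun n : ℕ => ∀ p ∈ P, ¬ (p : ℤ) ^ k ∣ f.eval (n : ℤ)) (p ^ k) _ (pow_pos hp.pos _) hpos hco
      (fun n => propext (not_congr (dens_per f _ _ (by push_cast; rfl) n)))
      (fun n => propext (forall₂_congr fun q hq => by
        rw [dens_per f _ _ (by exact_mod_cast dvd_prod_of_mem (fun q => q ^ k) hq)]))
    have h2 := card_filter_add_card_filter_not (s := range (p ^ k))
      (fun n : ℕ => ((p ^ k : ℕ) : ℤ) ∣ f.eval (n : ℤ))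
    rw [card_range] at h2
    have h3 : (((range (p ^ k)).filter fun n : ℕ => ¬ (p : ℤ) ^ k ∣ f.eval (n : ℤ)).card : ℝ) =
        (p : ℝ) ^ k - polyRootCountMod f (p ^ k) := by
      rw [eq_sub_iff_add_eq', polyRootCountMod]
      push_cast at h2
      exact_mod_cast h2
    simp only [forall_mem_insert]
    have hp0 : (p : ℝ) ^ k ≠ 0 := pow_ne_zero _ (by exact_mod_cast hp.ne_zero)
    have h4 := congrArg (fun n : ℕ => (n : ℝ)) h
    simp only [Nat.cast_mul] at h4
    rw [h3] at h4
    rw [Nat.cast_mul, Nat.cast_pow]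
    convert congrArg (fun x : ℝ => x / ((p : ℝ) ^ k * (∏ q ∈ P, q ^ k : ℕ))) h4 using 1
    field_simp

open Classical in
/-- Density of the integers avoiding finitely many prime powers.
Hint: the condition is periodic modulo `Q = ∏ p ^ k`; by the Chinese remainder theorem (induction on
the finite set of primes, `Nat.chineseRemainder` / `ZMod.chineseRemainder`) the number of good residues
modulo `Q` is `∏ (p ^ k - ρ(p ^ k))`; a periodic set has density (`Nat.count` /
`Nat.filter_Ico_card_eq_of_periodic`). -/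
theorem density_finite (f : Polynomial ℤ) (k : ℕ) (P : Finset ℕ) (hP : ∀ p ∈ P, p.Prime) :
    Tendsto (fun X : ℕ =>
      (((Icc 1 X).filter fun n : ℕ => ∀ p ∈ P, ¬ (p : ℤ) ^ k ∣ f.eval (n : ℤ)).card : ℝ) / X)
      atTop (𝓝 (∏ p ∈ P, (1 - (polyRootCountMod f (p ^ k) : ℝ) / (p : ℝ) ^ k))) := by
  rw [← dens_count f k P hP]
  refine dens_periodic _ _ (prod_pos fun q hq => pow_pos (hP q hq).pos _) fun n => ?_
  exact propext (forall₂_congr fun q hq => by
    rw [dens_per f _ _ (by exact_mod_cast dvd_prod_of_mem (fun q => q ^ k) hq)])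

end Crest.Agent.R022
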