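import Crest.Agent.R022.Defs

set_option autoImplicit false

namespace Crest.Agent.R022

open Finset

section depaux

variable {σ Ω : Type} [Fintype σ] [Field Ω] [Algebra ℂ Ω]

/-- span of the monomials with exponents bounded by `B` -/
def depS (ω : σ → Ω) (B : σ → ℕ) : Submodule ℂ Ω :=
  Submodule.span ℂ {x | ∃ a : σ → ℕ, (∀ i, a i ≤ B i) ∧ x = ∏ i, ω i ^ a i}

theorem dep_mon_mem (ω : σ → Ω) {B a : σ → ℕ} (h : ∀ i, a i ≤ B i) :
    ∏ i, ω i ^ a i ∈ depS ω B :=
  Submodule.subset_span ⟨a, h, rfl⟩

theorem dep_mono (ω : σ → Ω) {B B' : σ → ℕ} (h : ∀ i, B i ≤ B' i) : depS ω B ≤ depS ω B' := by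
  refine Submodule.span_mono ?_
  rintro x ⟨a, ha, rfl⟩
  exact ⟨a, fun i => (ha i).trans (h i), rfl⟩

theorem dep_one_mem (ω : σ → Ω) (B : σ → ℕ) : (1 : Ω) ∈ depS ω B := by
  have := dep_mon_mem ω (B := B) (a := fun _ => 0) (fun i => Nat.zero_le _)
  simpa using this

theorem dep_mul_le (ω : σ → Ω) (B B' : σ → ℕ) :
    depS ω B * depS ω B' ≤ depS ω (fun i => B i + B' i) := by
  unfold depS
  rw [Submodule.span_mul_span]
  refine Submodule.span_mono ?_
  rintro x ⟨y, ⟨a, ha, rfl⟩, z, ⟨b, hb, rfl⟩, rfl⟩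
  refine ⟨fun i => a i + b i, fun i => add_le_add (ha i) (hb i), ?_⟩
  simp only [pow_add, Finset.prod_mul_distrib]

theorem dep_mul_mem (ω : σ → Ω) {B B' B'' : σ → ℕ} {x y : Ω} (hx : x ∈ depS ω B)
    (hy : y ∈ depS ω B') (h : ∀ i, B i + B' i ≤ B'' i) : x * y ∈ depS ω B'' :=
  dep_mono ω h (dep_mul_le ω B B' (Submodule.mul_mem_mul hx hy))

theorem dep_prod_mem (ω : σ → Ω) {κ : Type} (t : Finset κ) (B : κ → σ → ℕ) (y : κ → Ω)
    (h : ∀ k ∈ t, y k ∈ depS ω (B k)) :
    ∏ k ∈ t, y k ∈ depS ω (fun i => ∑ k ∈ t, B k i) := by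
  classical
  induction t using Finset.induction_on with
  | empty => simpa using dep_one_mem ω _
  | insert k t hk ih =>
    rw [Finset.prod_insert hk]
    refine dep_mul_mem ω (h k (Finset.mem_insert_self _ _))
      (ih fun j hj => h j (Finset.mem_insert_of_mem hj)) fun i => ?_
    rw [Finset.sum_insert hk]

theorem dep_pow_mem (ω : σ → Ω) {B : σ → ℕ} {x : Ω} (hx : x ∈ depS ω B) (k : ℕ) :
    x ^ k ∈ depS ω (fun i => k * B i) := by
  have := dep_prod_mem ω (range k) (fun _ => B) (fun _ => x) (fun _ _ => hx)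
  simpa using this

theorem dep_var_pow_mem [DecidableEq σ] (ω : σ → Ω) {B : σ → ℕ} (η : σ) {k : ℕ} (h : k ≤ B η) :
    ω η ^ k ∈ depS ω B := by
  have := dep_mon_mem ω (B := B) (a := fun i => if i = η then k else 0) (fun i => by
    by_cases hi : i = η
    · simp [hi, h]
    · simp [hi])
  have e : ∏ i, ω i ^ (if i = η then k else 0) = ω η ^ k := by
    rw [Finset.prod_eq_single η]
    · simp
    · intro b _ hb; simp [hb]
    · simp
  rwa [e] at this

theorem dep_eq_span [DecidableEq σ] (ω : σ → Ω) (B : σ → ℕ) :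
    depS ω B = Submodule.span ℂ
      (Set.range fun a : (∀ i, Fin (B i + 1)) => ∏ i, ω i ^ (a i : ℕ)) := by
  unfold depS
  congr 1
  ext x
  constructor
  · rintro ⟨a, ha, rfl⟩
    exact ⟨fun i => ⟨a i, Nat.lt_succ_of_le (ha i)⟩, rfl⟩
  · rintro ⟨a, rfl⟩
    exact ⟨fun i => a i, fun i => Nat.le_of_lt_succ (a i).2, rfl⟩

theorem dep_finite [DecidableEq σ] (ω : σ → Ω) (B : σ → ℕ) : Module.Finite ℂ (depS ω B) := by
  rw [dep_eq_span]
  exact Module.Finite.span_of_finite ℂ (Set.finite_range _)

theorem dep_finrank [DecidableEq σ] (ω : σ → Ω) (B : σ → ℕ) :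
    Module.finrank ℂ (depS ω B) ≤ ∏ i, (B i + 1) := by
  rw [dep_eq_span]
  refine (finrank_range_le_card _).trans ?_
  simp

/-- pseudo-division -/
theorem dep_pseudo [DecidableEq σ] (ω : σ → Ω) (η : σ) (E : σ → ℕ) (hE : E η = 0) (n : ℕ)
    (hn : 0 < n) (c : ℕ → Ω) (hc : ∀ j, c j ∈ depS ω E)
    (hrel : ∑ j ∈ range (n + 1), c j * ω η ^ j = 0) (k : ℕ) :
    c n ^ k * ω η ^ k ∈ depS ω (fun i => if i = η then n - 1 else k * E i) := by
  have key : c n * ω η ^ n ∈ depS ω (fun i => if i = η then n - 1 else E i) := by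
    rw [Finset.sum_range_succ] at hrel
    have : c n * ω η ^ n = - ∑ j ∈ range n, c j * ω η ^ j := by linear_combination hrel
    rw [this]
    refine Submodule.neg_mem _ (Submodule.sum_mem _ fun j hj => ?_)
    refine dep_mul_mem ω (hc j)
      (dep_var_pow_mem ω (B := fun i => if i = η then n - 1 else 0) η ?_) fun i => ?_
    · have := Finset.mem_range.1 hj
      simp only [if_true]; omega
    · by_cases hi : i = η
      · simp [hi, hE]
      · simp [hi]
  induction k with
  | zero => simpa using dep_one_mem ω _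
  | succ k ih =>
    have e : c n ^ (k + 1) * ω η ^ (k + 1) = (c n * ω η) * (c n ^ k * ω η ^ k) := by ring
    rw [e]
    generalize c n ^ k * ω η ^ k = x at ih
    induction ih using Submodule.span_induction with
    | zero => simp
    | add x y _ _ hx hy => rw [mul_add]; exact Submodule.add_mem _ hx hy
    | smul r x _ hx => rw [mul_smul_comm]; exact Submodule.smul_mem _ _ hx
    | mem x hx =>
      obtain ⟨a, ha, rfl⟩ := hx
      have hsplit : ∏ i, ω i ^ a i =
          ω η ^ a η * ∏ i, ω i ^ (if i = η then 0 else a i) := by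
        rw [← Finset.mul_prod_erase univ _ (Finset.mem_univ η),
          ← Finset.mul_prod_erase univ (fun i => ω i ^ (if i = η then 0 else a i))
            (Finset.mem_univ η)]
        simp only [if_true, pow_zero, one_mul]
        congr 1
        refine Finset.prod_congr rfl fun i hi => ?_
        rw [if_neg (Finset.ne_of_mem_erase hi)]
      have hrest : ∏ i, ω i ^ (if i = η then 0 else a i) ∈
          depS ω (fun i => if i = η then 0 else k * E i) := by
        refine dep_mon_mem ω fun i => ?_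
        by_cases hi : i = η
        · simp [hi]
        · have := ha i
          simpa [hi] using this
      have haη : a η ≤ n - 1 := by simpa using ha η
      have h1 : c n * ω η ^ (a η + 1) ∈ depS ω (fun i => if i = η then n - 1 else E i) := by
        rcases haη.lt_or_eq with h | h
        · refine dep_mul_mem ω (hc n)
            (dep_var_pow_mem ω (B := fun i => if i = η then n - 1 else 0) η ?_) fun i => ?_
          · simp only [if_true]; omega
          · by_cases hi : i = η
            · simp [hi, hE]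
            · simp [hi]
        · have : a η + 1 = n := by omega
          rw [this]; exact key
      have e2 : c n * ω η * ∏ i, ω i ^ a i =
          (c n * ω η ^ (a η + 1)) * ∏ i, ω i ^ (if i = η then 0 else a i) := by
        rw [hsplit]; ring
      rw [e2]
      refine dep_mul_mem ω h1 hrest fun i => ?_
      by_cases hi : i = η
      · simp [hi]
      · simp only [hi, if_false]; nlinarith

theorem dep_ev_mem (ω : σ → Ω) (A : Set σ) [DecidablePred (· ∈ A)] (δ : ℕ)
    (p : MvPolynomial σ ℤ) (hp : p ∈ MvPolynomial.supported ℤ A) (hd : p.totalDegree ≤ δ) :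
    ev ω p ∈ depS ω (fun i => if i ∈ A then δ else 0) := by
  classical
  have e : ev ω p = ∑ a ∈ p.support, ((p.coeff a : ℤ) : ℂ) • ∏ i, ω i ^ a i := by
    unfold ev
    rw [MvPolynomial.coe_eval₂Hom, MvPolynomial.eval₂_eq']
    refine Finset.sum_congr rfl fun a _ => ?_
    rw [Algebra.smul_def]
    simp
  rw [e]
  refine Submodule.sum_mem _ fun a ha => Submodule.smul_mem _ _ (dep_mon_mem ω fun i => ?_)
  by_cases hi : i ∈ A
  · simp only [hi, if_true]
    exact ((Finsupp.le_degree i a).trans (MvPolynomial.le_totalDegree ha)).trans hd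
  · simp only [hi, if_false]
    by_contra hne
    apply hi
    refine (MvPolynomial.mem_supported.1 hp) ?_
    simp only [Finset.mem_coe]
    rw [MvPolynomial.mem_vars_iff_mem_support]
    exact ⟨a, ha, Finsupp.mem_support_iff.2 (by omega)⟩

/-- linear algebra: too many products in a small space -/
theorem dep_relation {κ : Type} [Fintype κ] [DecidableEq κ] (U : Submodule ℂ Ω)
    [Module.Finite ℂ U] (t : ℕ) (hU : Module.finrank ℂ U < (t + 1) ^ Fintype.card κ)
    (c : Ω) (hc : c ≠ 0) (y : κ → Ω)
    (hy : ∀ a : κ → ℕ, (∀ i, a i ≤ t) → c * ∏ i, y i ^ a i ∈ U) :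
    ∃ Φ : MvPolynomial κ ℂ, Φ ≠ 0 ∧ Φ.totalDegree ≤ Fintype.card κ * t ∧
      MvPolynomial.aeval y Φ = 0 := by
  classical
  let v : (κ → Fin (t + 1)) → U := fun a =>
    ⟨c * ∏ i, y i ^ (a i : ℕ), hy _ fun i => Nat.le_of_lt_succ (a i).2⟩
  have hnl : ¬ LinearIndependent ℂ v := by
    intro h
    have := h.fintype_card_le_finrank
    simp at this
    omega
  obtain ⟨g, hg, a₀, ha₀⟩ := Fintype.not_linearIndependent_iff.1 hnl
  let e : (κ → Fin (t + 1)) → (κ →₀ ℕ) := fun a =>
    Finsupp.equivFunOnFinite.symm fun i => (a i : ℕ)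
  have he : Function.Injective e := by
    intro a b hab
    funext i
    have := congrArg (fun f : κ →₀ ℕ => f i) hab
    exact Fin.ext (by simpa [e] using this)
  refine ⟨∑ a, MvPolynomial.monomial (e a) (g a), ?_, ?_, ?_⟩
  · intro h0
    have := congrArg (MvPolynomial.coeff (e a₀)) h0
    rw [MvPolynomial.coeff_sum, Finset.sum_eq_single a₀] at this
    · simp at this; exact ha₀ this
    · intro b _ hb
      rw [MvPolynomial.coeff_monomial, if_neg (fun h => hb (he h))]
    · simp
  · refine MvPolynomial.totalDegree_finsetSum_le fun a _ => ?_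
    refine (MvPolynomial.totalDegree_monomial_le _ _).trans ?_
    rw [Finsupp.sum_fintype _ _ (fun _ => rfl)]
    calc ∑ i, id (e a i) ≤ ∑ _i : κ, t := Finset.sum_le_sum fun i _ => by
          simpa [e] using Nat.le_of_lt_succ (a i).2
      _ = _ := by simp
  · have h2 := congrArg (fun u : U => (u : Ω)) hg
    simp only [Submodule.coe_sum, Submodule.coe_smul, v, ZeroMemClass.coe_zero] at h2
    apply mul_left_cancel₀ hc
    rw [mul_zero, ← h2, map_sum, Finset.mul_sum]
    refine Finset.sum_congr rfl fun a _ => ?_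
    rw [MvPolynomial.aeval_monomial, Finsupp.prod_fintype _ _ (fun _ => pow_zero _),
      Algebra.smul_def]
    simp only [e, Finsupp.equivFunOnFinite_symm_apply_apply]
    ring

end depaux

theorem dep_count {ι : Type} [Fintype ι] [DecidableEq ι] (s : Sys ι) [DecidablePred s.Dep]
    (a b : ℕ) :
    ∏ i, ((if s.Dep i then a else b) + 1) ≤
      (a + 1) ^ Fintype.card (Option ι) * (b + 1) ^ s.m := by
  have h1 : ∏ i, ((if s.Dep i then a else b) + 1) ≤
      ∏ i : Option ι, ((a + 1) * (if s.Dep i then 1 else b + 1)) := by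
    refine Finset.prod_le_prod' fun i _ => ?_
    by_cases hi : s.Dep i
    · simp [hi]
    · simp only [hi, if_false]; nlinarith
  refine h1.trans (le_of_eq ?_)
  rw [Finset.prod_mul_distrib, Finset.prod_const, Finset.card_univ]
  congr 1
  rw [Fintype.prod_option, Sys.m, pow_add, mul_comm]
  congr 1
  · have : ∀ i : ι, (if s.Dep (some i) then 1 else b + 1) = if i ∈ s.J then b + 1 else 1 := by
      intro i
      by_cases hi : i ∈ s.J
      · rw [if_neg (by simpa [Sys.Dep] using hi), if_pos hi]
      · rw [if_pos (by simpa [Sys.Dep] using hi), if_neg hi]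
    simp only [this]
    rw [Finset.prod_ite_mem, Finset.univ_inter, Finset.prod_const]
  · cases hv : s.vert
    · rw [if_pos (by simpa [Sys.Dep] using hv)]; simp
    · rw [if_neg (by simp [Sys.Dep, hv])]; simp

/-- Any `m + 1` polynomials of bounded degree are algebraically dependent at a solution of a system
with `m` free variables, with a relation of bounded degree.
Hint: let `c = ∏_{η dep} ev ω (lc (g η)) ≠ 0`, `M = card (Option ι)`, and let `U n` be the `ℂ`-span of
the products (monomial of degree `≤ n` in the free variables) × ∏_{η dep} (ω η) ^ (b η), `b η < δ`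
(more precisely `< natDegree (g η)`, which is positive).  Then `c * ω i * U n ≤ U (n + δ M + 1)` for
every variable `i`, hence `c ^ n * aeval ω f ∈ U (n (δ M + 1))` for `totalDegree f ≤ n`
(use `U` monotone and `c * U n ≤ U (n + δ M)`), and `finrank (U n) ≤ (δ+1) ^ M (n + 1) ^ m`.  The
`(t + 1) ^ (m + 1)` products `∏ (f i) ^ (a i)`, `a i ≤ t`, have degree `≤ (m+1) t δ₂`, so for `t` large
(depending only on `δ, δ₂, M`, as `m ≤ M`) they are linearly dependent at `ω`. -/
theorem dep_bound {ι : Type} [Fintype ι] [DecidableEq ι] (δ δ₂ : ℕ) :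
    ∃ δ' : ℕ, ∀ (s : Sys ι) (H : ℕ) {Ω : Type} [Field Ω] [Algebra ℂ Ω] (ω : Option ι → Ω),
      s.Cx δ H → s.ND ω → ∀ f : Fin (s.m + 1) → MvPolynomial (Option ι) ℂ,
        (∀ i, (f i).totalDegree ≤ δ₂) →
        ∃ Φ : MvPolynomial (Fin (s.m + 1)) ℂ, Φ ≠ 0 ∧ Φ.totalDegree ≤ δ' ∧
          MvPolynomial.aeval (fun i => MvPolynomial.aeval ω (f i)) Φ = 0 := by
  classical
  set M := Fintype.card (Option ι) with hM
  set K := M * ((M + 1) * δ₂ * (δ + 1)) + 1 with hK
  set t := (δ + 1) ^ M * K ^ M with ht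
  refine ⟨(M + 1) * t, ?_⟩
  intro s H Ω _ _ ω hcx hnd f hf
  have hmM : s.m ≤ M := by
    have h1 : s.J.card ≤ Fintype.card ι := Finset.card_le_univ _
    have h2 : M = Fintype.card ι + 1 := by simp [hM]
    unfold Sys.m
    split_ifs <;> omega
  -- leading coefficients
  let l : Option ι → Ω := fun η => if s.Dep η then ev ω (s.g η).leadingCoeff else 1
  have hl : ∀ η, l η ≠ 0 := by
    intro η
    by_cases h : s.Dep η
    · simp only [l, h, if_true]; exact (hnd η h).2.2
    · simp [l, h]
  -- one variable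
  have hone : ∀ (η : Option ι) (n k : ℕ), k ≤ n → l η ^ n * ω η ^ k ∈
      depS ω (fun i => if s.Dep i then (if i = η then δ else 0) else n * (δ + 1)) := by
    intro η n k hk
    by_cases h : s.Dep η
    · let E : Option ι → ℕ := fun i => if i ∈ (some '' (s.J : Set ι)) then δ else 0
      have hEd : ∀ i, s.Dep i → E i = 0 := by
        intro i hi
        simp only [E]
        rw [if_neg]
        rintro ⟨j, hj, rfl⟩
        exact hi hj
      have hEδ : ∀ i, E i ≤ δ := by
        intro i; simp only [E]; split_ifs <;> omega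
      have hc : ∀ j, ev ω ((s.g η).coeff j) ∈ depS ω E := fun j =>
        dep_ev_mem ω _ δ _ ((hcx η h).2 j).1 ((hcx η h).2 j).2.1
      have hrel : ∑ j ∈ range ((s.g η).natDegree + 1), ev ω ((s.g η).coeff j) * ω η ^ j = 0 := by
        have := (hnd η h).1
        rw [Sys.gv, Polynomial.eval_map, Polynomial.eval₂_eq_sum_range] at this
        exact this
      have hn : 0 < (s.g η).natDegree := by
        by_contra h0
        have h0 : (s.g η).natDegree = 0 := by omega
        apply (hnd η h).2.2
        rw [h0] at hrel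
        rw [Polynomial.leadingCoeff, h0]
        simpa using hrel
      have h1 := dep_pseudo ω η E (hEd η h) _ hn _ hc hrel k
      have h2 := dep_pow_mem ω (hc (s.g η).natDegree) (n - k)
      have e : l η ^ n * ω η ^ k = ev ω ((s.g η).coeff (s.g η).natDegree) ^ (n - k) *
          (ev ω ((s.g η).coeff (s.g η).natDegree) ^ k * ω η ^ k) := by
        simp only [l, h, if_true, Polynomial.leadingCoeff]
        rw [← mul_assoc, ← pow_add, Nat.sub_add_cancel hk]
      rw [e]
      refine dep_mul_mem ω h2 h1 fun i => ?_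
      have hδ := (hcx η h).1
      by_cases hi : s.Dep i
      · simp only [hi, if_true, hEd i hi, mul_zero, zero_add]
        split_ifs <;> omega
      · have hiη : i ≠ η := fun e => hi (e ▸ h)
        simp only [hi, hiη, if_false]
        rw [← add_mul, Nat.sub_add_cancel hk]
        exact Nat.mul_le_mul_left _ ((hEδ i).trans (Nat.le_succ _))
    · simp only [l, h, if_false, one_pow, one_mul]
      refine dep_var_pow_mem ω η ?_
      simp only [h, if_false]
      nlinarith
  -- all polynomials
  have hall : ∀ (n : ℕ) (p : MvPolynomial (Option ι) ℂ), p.totalDegree ≤ n →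
      (∏ η, l η) ^ n * MvPolynomial.aeval ω p ∈
        depS ω (fun i => if s.Dep i then δ else M * (n * (δ + 1))) := by
    intro n p hp
    rw [MvPolynomial.aeval_def, MvPolynomial.eval₂_eq', Finset.mul_sum]
    refine Submodule.sum_mem _ fun a ha => ?_
    have e : (∏ η, l η) ^ n * (algebraMap ℂ Ω (p.coeff a) * ∏ i, ω i ^ a i) =
        p.coeff a • ∏ i, (l i ^ n * ω i ^ a i) := by
      rw [Algebra.smul_def, Finset.prod_mul_distrib, Finset.prod_pow]; ring
    rw [e]
    refine Submodule.smul_mem _ _ (dep_mono ω ?_ (dep_prod_mem ω univ _ _ fun η _ =>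
      hone η n (a η) (((Finsupp.le_degree η a).trans (MvPolynomial.le_totalDegree ha)).trans hp)))
    intro i
    by_cases hi : s.Dep i
    · simp [hi]
    · simp [hi, hM]
  set n := (M + 1) * t * δ₂ with hn
  haveI := dep_finite ω (fun i => if s.Dep i then δ else M * (n * (δ + 1)))
  refine (dep_relation (κ := Fin (s.m + 1))
    (depS ω (fun i => if s.Dep i then δ else M * (n * (δ + 1)))) t ?_ ((∏ η, l η) ^ n)
    (pow_ne_zero _ (Finset.prod_ne_zero_iff.2 fun η _ => hl η))
    (fun i => MvPolynomial.aeval ω (f i)) ?_).imp ?_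
  rotate_left 2
  · rintro Φ ⟨h0, hdeg, hΦ⟩
    refine ⟨h0, hdeg.trans ?_, hΦ⟩
    rw [Fintype.card_fin]
    exact Nat.mul_le_mul_right _ (by omega)
  · refine ((dep_finrank ω _).trans (dep_count s _ _)).trans_lt ?_
    rw [Fintype.card_fin, ← hM]
    have hK1 : 1 ≤ K := by omega
    have h1 : M * (n * (δ + 1)) + 1 ≤ K * (t + 1) := by
      have : M * (n * (δ + 1)) = (M * ((M + 1) * δ₂ * (δ + 1))) * t := by rw [hn]; ring
      rw [this, hK]
      nlinarith [Nat.zero_le (M * ((M + 1) * δ₂ * (δ + 1))), Nat.zero_le t]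
    calc (δ + 1) ^ M * (M * (n * (δ + 1)) + 1) ^ s.m
        ≤ (δ + 1) ^ M * (K * (t + 1)) ^ s.m :=
          Nat.mul_le_mul_left _ (Nat.pow_le_pow_left h1 _)
      _ = (δ + 1) ^ M * K ^ s.m * (t + 1) ^ s.m := by rw [mul_pow]; ring
      _ ≤ t * (t + 1) ^ s.m := by
          refine Nat.mul_le_mul_right _ ?_
          exact Nat.mul_le_mul_left _ (Nat.pow_le_pow_right hK1 hmM)
      _ < (t + 1) * (t + 1) ^ s.m :=
          Nat.mul_lt_mul_of_pos_right (Nat.lt_succ_self t) (by positivity)
      _ = (t + 1) ^ (s.m + 1) := by ring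
  · intro a ha
    have e : ∏ i, MvPolynomial.aeval ω (f i) ^ a i =
        MvPolynomial.aeval ω (∏ i, f i ^ a i) := by simp
    rw [e]
    refine hall n _ ?_
    refine (MvPolynomial.totalDegree_finset_prod _ _).trans ?_
    calc ∑ i, (f i ^ a i).totalDegree ≤ ∑ _i : Fin (s.m + 1), t * δ₂ :=
          Finset.sum_le_sum fun i _ => (MvPolynomial.totalDegree_pow _ _).trans
            (Nat.mul_le_mul (ha i) (hf i))
      _ = (s.m + 1) * (t * δ₂) := by simp
      _ ≤ (M + 1) * (t * δ₂) := Nat.mul_le_mul_right _ (by omega)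
      _ = n := by rw [hn]; ring

end Crest.Agent.R022
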