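import Crest.Agent.R022.Defs

set_option autoImplicit false

namespace Crest.Agent.R022

open Finset

/-- Divisibility of an interpolation determinant.
Hint: modulo `π ^ n` we may drop the error terms (pass to `R ⧸ (π ^ n)`, or use multilinearity).
Expand `det` multilinearly in the rows (`Matrix.detRowAlternating`, `MultilinearMap.map_sum_finset`):
each term is `∏ (c * π ^ wt (μ i)) * det (e (μ i))`, which vanishes unless `μ : Fin r → Λ` is
injective; for injective `μ`, `∑ wt (μ i) = ∑_{t} #{i | t < wt (μ i)} ≥ ∑_{t < I} (r - nb t)`. -/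
theorem det_dvd_of_span {R : Type*} [CommRing R] (π : R) {r : ℕ} {Λ : Type*} (wt : Λ → ℕ)
    (e : Λ → Fin r → R) (nb : ℕ → ℕ)
    (hnb : ∀ (t : ℕ) (T : Finset Λ), (∀ μ ∈ T, wt μ ≤ t) → T.card ≤ nb t) (I n : ℕ)
    (M : Matrix (Fin r) (Fin r) R)
    (hM : ∀ i, ∃ (c : Λ →₀ R) (t : Fin r → R),
      M i = (c.sum fun μ a => (a * π ^ wt μ) • e μ) + π ^ n • t)
    (hn : ∑ t ∈ range I, (r - nb t) ≤ n) :
    π ^ (∑ t ∈ range I, (r - nb t)) ∣ M.det := by
  classical
  choose c t hM using hM
  let w : Option Λ → ℕ := fun o => o.elim n wt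
  let a : Fin r → Option Λ → R := fun i o => o.elim 1 (c i)
  let v : Fin r → Option Λ → Fin r → R := fun i o => o.elim (t i) e
  let S : Fin r → Finset (Option Λ) := fun i => Finset.insertNone (c i).support
  have hrow : M = fun i => ∑ o ∈ S i, (a i o * π ^ w o) • v i o := by
    funext i
    rw [hM i, Finset.sum_insertNone, add_comm]
    simp [Finsupp.sum, a, w, v]
  have hdet : M.det = ∑ φ ∈ Fintype.piFinset S,
      (∏ i, (a i (φ i) * π ^ w (φ i))) • Matrix.det (fun i => v i (φ i)) := by
    have h1 := (Matrix.detRowAlternating (n := Fin r) (R := R)).toMultilinearMap.map_sum_finset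
      (fun i o => (a i o * π ^ w o) • v i o) S
    rw [hrow]
    refine h1.trans (Finset.sum_congr rfl fun φ _ => ?_)
    exact (Matrix.detRowAlternating (n := Fin r) (R := R)).toMultilinearMap.map_smul_univ
      (fun i => a i (φ i) * π ^ w (φ i)) (fun i => v i (φ i))
  rw [hdet]
  refine Finset.dvd_sum fun φ _ => ?_
  rw [smul_eq_mul, Finset.prod_mul_distrib, Finset.prod_pow_eq_pow_sum]
  by_cases hnone : ∃ i, φ i = none
  · obtain ⟨i, hi⟩ := hnone
    refine Dvd.dvd.mul_right (Dvd.dvd.mul_left (pow_dvd_pow π (hn.trans ?_)) _) _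
    have : w (φ i) = n := by rw [hi]; rfl
    rw [← this]
    exact Finset.single_le_sum (f := fun i => w (φ i)) (fun _ _ => Nat.zero_le _) (mem_univ i)
  · have hsome : ∀ i, ∃ μ, φ i = some μ := fun i => by
      cases h : φ i with
      | none => exact absurd ⟨i, h⟩ hnone
      | some μ => exact ⟨μ, rfl⟩
    choose μ hμ using hsome
    by_cases hinj : Function.Injective μ
    · refine Dvd.dvd.mul_right (Dvd.dvd.mul_left (pow_dvd_pow π ?_) _) _
      have h1 : ∀ i, ∑ s ∈ range I, (if s < wt (μ i) then 1 else 0) ≤ w (φ i) := by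
        intro i
        rw [hμ i, ← Finset.card_filter]
        refine le_trans (Finset.card_le_card (t := range (wt (μ i))) fun s hs => ?_) (by simp [w])
        exact mem_range.2 (mem_filter.1 hs).2
      refine le_trans ?_ (Finset.sum_le_sum fun i _ => h1 i)
      rw [Finset.sum_comm]
      refine Finset.sum_le_sum fun s _ => ?_
      rw [← Finset.card_filter]
      have h2 := hnb s ((univ.filter fun i => ¬ s < wt (μ i)).image μ) (fun x hx => by
        obtain ⟨i, hi, rfl⟩ := mem_image.1 hx
        exact not_lt.1 (mem_filter.1 hi).2)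
      rw [Finset.card_image_of_injective _ hinj] at h2
      have h3 := Finset.card_filter_add_card_filter_not (s := (univ : Finset (Fin r)))
        (fun i => s < wt (μ i))
      rw [card_univ, Fintype.card_fin] at h3
      omega
    · obtain ⟨i, j, hij, hne⟩ := Function.not_injective_iff.1 hinj
      have : Matrix.det (fun i => v i (φ i)) = 0 := by
        refine Matrix.det_zero_of_row_eq hne ?_
        change v i (φ i) = v j (φ j)
        rw [hμ i, hμ j, hij]
        rfl
      rw [this, mul_zero]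
      exact dvd_zero _

/-- Newton iteration: a simple root modulo `π` is, modulo `π ^ n`, an element of the subring
generated by the data.  Hint: `q_0 = c`, `q_{i+1} = q_i - u * g(q_i)`; by induction
`π ^ (i + 1) ∣ x - q_i`, using `g(q) = g(q) - g(x) = (q - x) * (g'(x) + (q - x) * k)`
(`Polynomial.binomExpansion` / `Polynomial.evalSubFactor`). -/
theorem newton_mem {Λ : Type*} [CommRing Λ] (𝒜 : Subring Λ) (π : Λ) (g : Polynomial Λ)
    (hg : ∀ j, g.coeff j ∈ 𝒜) (x : Λ) (hx : g.eval x = 0) (c u : Λ) (hc : c ∈ 𝒜) (hu : u ∈ 𝒜)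
    (hxc : π ∣ x - c) (hu1 : π ∣ u * g.derivative.eval x - 1) (n : ℕ) :
    ∃ q ∈ 𝒜, π ^ n ∣ x - q := by
  have key : ∀ i : ℕ, ∃ q ∈ 𝒜, π ^ (i + 1) ∣ x - q := by
    intro i
    induction i with
    | zero => exact ⟨c, hc, by simpa using hxc⟩
    | succ i ih =>
      obtain ⟨q, hq, hd⟩ := ih
      have hgq : g.eval q ∈ 𝒜 := by
        rw [Polynomial.eval_eq_sum_range]
        exact 𝒜.sum_mem fun j _ => 𝒜.mul_mem (hg j) (𝒜.pow_mem hq j)
      refine ⟨q - u * g.eval q, 𝒜.sub_mem hq (𝒜.mul_mem hu hgq), ?_⟩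
      obtain ⟨k, hk⟩ := g.binomExpansion x (q - x)
      rw [add_sub_cancel, hx, zero_add] at hk
      have e : x - (q - u * g.eval q) =
          -((x - q) * (u * g.derivative.eval x - 1)) + (x - q) * (x - q) * (u * k) := by
        rw [hk]; ring
      rw [e, pow_succ]
      refine dvd_add (dvd_neg.2 (mul_dvd_mul hd hu1)) (Dvd.dvd.mul_right (mul_dvd_mul hd ?_) _)
      exact (dvd_pow_self π (Nat.succ_ne_zero i)).trans hd
  obtain ⟨q, hq, hd⟩ := key n
  exact ⟨q, hq, (pow_dvd_pow π (Nat.le_succ n)).trans hd⟩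

/-- number of monomials of degree `≤ t` in `y` variables, times `D' + 1` -/
theorem card_mon_le {κ : Type*} [Fintype κ] (D' t : ℕ) (T : Finset ((κ →₀ ℕ) × Fin (D' + 1)))
    (hT : ∀ μ ∈ T, μ.1.sum (fun _ a => a) ≤ t) :
    T.card ≤ (D' + 1) * (t + Fintype.card κ).choose (Fintype.card κ) := by
  classical
  let f : (κ →₀ ℕ) × Fin (D' + 1) → Fin (D' + 1) × (Option κ →₀ ℕ) :=
    fun μ => (μ.2, μ.1.optionElim (t - μ.1.sum (fun _ a => a)))
  have hinj : Function.Injective f := by
    intro μ ν h
    simp only [f, Prod.mk.injEq] at h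
    have := congrArg Finsupp.some h.2
    simp only [Finsupp.some_optionElim] at this
    exact Prod.ext this h.1
  have hmaps : ∀ μ ∈ T, f μ ∈ (univ : Finset (Fin (D' + 1))) ×ˢ
      finsuppAntidiag (univ : Finset (Option κ)) t := by
    intro μ hμ
    refine mem_product.2 ⟨mem_univ _, mem_finsuppAntidiag.2 ⟨?_, subset_univ _⟩⟩
    have h1 := hT μ hμ
    have h2 : μ.1.sum (fun _ a => a) = ∑ i, μ.1 i := Finsupp.sum_fintype _ _ (fun _ => rfl)
    simp only [f, Fintype.sum_option, Finsupp.optionElim_apply_eq_elim, Option.elim_none,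
      Option.elim_some]
    omega
  refine (Finset.card_le_card_of_injOn f hmaps hinj.injOn).trans ?_
  rw [card_product, card_finsuppAntidiag_nat_eq_choose, card_univ, card_univ, Fintype.card_fin,
    Fintype.card_option]
  have e : Fintype.card κ + 1 + t - 1 = t + Fintype.card κ := by omega
  rw [e, Nat.choose_symm_add]

end Crest.Agent.R022
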