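import Crest.Agent.R022.Comp

set_option autoImplicit false

namespace Crest.Agent.R022

open Finset

theorem ev_hom {K : Type*} [CommRing K] {n : ℕ} (c : Fin (n + 1)) (z : Option (Fin n) → K)
    (j : Fin (n + 1)) : ev z (hom c (Xu n) j) = hom c z j := by
  rcases Fin.eq_self_or_eq_succAbove c j with rfl | ⟨j, rfl⟩ <;> simp [hom, Xu, ev]

theorem map_hom {K K' : Type*} [CommRing K] [CommRing K'] (φ : K →+* K') {n : ℕ}
    (c : Fin (n + 1)) (z : Option (Fin n) → K) (j : Fin (n + 1)) :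
    φ (hom c z j) = hom c (fun i => φ (z i)) j := by
  rcases Fin.eq_self_or_eq_succAbove c j with rfl | ⟨j, rfl⟩ <;> simp [hom]

theorem ev_mon {K : Type*} [CommRing K] (F : Polynomial ℤ) (k : ℕ) {n : ℕ} (c : Fin (n + 1))
    (D e : ℕ) (u v : Fin (n + 1) → ℕ) (z : Option (Fin n) → K) :
    ev z (mon F k c D e u v) = (∏ j, hom c z j ^ u j) *
      (∏ j, bvec F k (hom c z) (z none) j ^ v j) * nm F (hom c z) ^ (k * (D - e)) := by
  have h : ev z (Xu n none) = z none := by simp [Xu, ev]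
  simp only [mon, map_mul, map_prod, map_pow, map_bvec, map_nm, ev_hom, h]

theorem hom_pt {n : ℕ} (c : Fin (n + 1)) (a : Fin (n + 1) → ℤ) (hc : a c ≠ 0) (N : ℤ)
    (j : Fin (n + 1)) : hom c (pt c a N) j = (a c : ℚ)⁻¹ * a j := by
  have hc' : (a c : ℚ) ≠ 0 := by exact_mod_cast hc
  rcases Fin.eq_self_or_eq_succAbove c j with rfl | ⟨j, rfl⟩
  · simp [hom, hc']
  · simp [hom, pt, div_eq_inv_mul]

/-- degree bound (entries of `mulM` have degree `≤ 1`, of the adjugate `≤ n`, ...; any bound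
depending only on `F, k, n, D` is fine, e.g. take the maximum over the finitely many
`c, e, u, v`) -/
theorem mon_totalDegree (F : Polynomial ℤ) (k n D : ℕ) :
    ∃ δ₂ : ℕ, ∀ (c : Fin (n + 1)) (e : ℕ) (u v : Fin (n + 1) → ℕ), e ≤ D → ∑ j, u j = k * e →
      ∑ j, v j = e → (mon F k c D e u v).totalDegree ≤ δ₂ := by
  refine ⟨((univ : Finset (Fin (n + 1))) ×ˢ range (D + 1) ×ˢ
    (Fintype.piFinset fun _ : Fin (n + 1) => range (k * D + 1)) ×ˢ
    (Fintype.piFinset fun _ : Fin (n + 1) => range (D + 1))).sup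
    (fun q => (mon F k q.1 D q.2.1 q.2.2.1 q.2.2.2).totalDegree), ?_⟩
  intro c e u v he hu hv
  refine Finset.le_sup (f := fun q : Fin (n + 1) × ℕ × (Fin (n + 1) → ℕ) × (Fin (n + 1) → ℕ) =>
    (mon F k q.1 D q.2.1 q.2.2.1 q.2.2.2).totalDegree) (b := (c, e, u, v)) ?_
  simp only [mem_product, mem_univ, mem_range, Fintype.mem_piFinset, true_and]
  refine ⟨by omega, fun j => ?_, fun j => ?_⟩
  · have h1 : u j ≤ ∑ j, u j := single_le_sum (fun _ _ => Nat.zero_le _) (mem_univ j)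
    have h2 : k * e ≤ k * D := Nat.mul_le_mul_left k he
    omega
  · have h1 : v j ≤ ∑ j, v j := single_le_sum (fun _ _ => Nat.zero_le _) (mem_univ j)
    omega

theorem mon_degreeOf_rename {n : ℕ} (p : MvPolynomial (Fin n) ℤ) :
    (MvPolynomial.rename some p).degreeOf none = 0 := by
  classical
  by_contra h
  have h1 := MvPolynomial.mem_vars_iff_degreeOf_ne_zero.2 h
  have h2 := MvPolynomial.vars_rename some p h1
  simp at h2

theorem mon_bvec_affine {K : Type*} [CommRing K] (F : Polynomial ℤ) (k : ℕ) {d : ℕ}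
    (a : Fin d → K) (N : K) (j : Fin d) :
    bvec F k a N j = N * (bvec F k a 1 j - bvec F k a 0 j) + bvec F k a 0 j := by
  have h : wv d N = N • (wv d 1 - wv d 0) + wv d 0 := by
    funext i
    simp only [wv, Pi.add_apply, Pi.smul_apply, Pi.sub_apply, smul_eq_mul]
    split_ifs <;> ring
  simp only [bvec]
  rw [h, Matrix.mulVec_add, Matrix.mulVec_smul, Matrix.mulVec_sub]
  rfl

/-- the degree in `N` is at most `|v|` (`hom c (Xu n) j`, the adjugate and the norm do not involve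
`X none`, e.g. they lie in `MvPolynomial.supported ℤ {none}ᶜ`, and `bvec` is affine in `N`) -/
theorem mon_degreeOf (F : Polynomial ℤ) (k : ℕ) {n : ℕ} (c : Fin (n + 1)) (D e : ℕ)
    (u v : Fin (n + 1) → ℕ) : (mon F k c D e u v).degreeOf none ≤ ∑ j, v j := by
  let φ : MvPolynomial (Fin n) ℤ →+* MvPolynomial (Option (Fin n)) ℤ :=
    (MvPolynomial.rename some).toRingHom
  have hφ : ∀ p, (φ p).degreeOf none = 0 := mon_degreeOf_rename
  let h : Fin (n + 1) → MvPolynomial (Fin n) ℤ := hom c (fun o => o.elim 0 MvPolynomial.X)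
  have hh : hom c (Xu n) = fun j => φ (h j) := by
    funext j
    rcases Fin.eq_self_or_eq_succAbove c j with rfl | ⟨j, rfl⟩ <;> simp [h, hom, Xu, φ]
  have h1 : (∏ j, hom c (Xu n) j ^ u j).degreeOf none = 0 := by
    rw [hh]
    simp only [← map_pow, ← map_prod, hφ]
  have h3 : (nm F (hom c (Xu n)) ^ (k * (D - e))).degreeOf none = 0 := by
    rw [hh, ← map_nm, ← map_pow, hφ]
  have hb : ∀ j, (bvec F k (hom c (Xu n)) (Xu n none) j).degreeOf none ≤ 1 := by
    intro j
    rw [mon_bvec_affine, hh]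
    have e1 := map_bvec F k φ h 1 j
    have e0 := map_bvec F k φ h 0 j
    rw [map_one] at e1
    rw [map_zero] at e0
    rw [← e1, ← e0, ← map_sub]
    refine (MvPolynomial.degreeOf_add_le _ _ _).trans (max_le ?_ ?_)
    · refine (MvPolynomial.degreeOf_mul_le _ _ _).trans ?_
      rw [hφ, Xu, MvPolynomial.degreeOf_X_self]
    · rw [hφ]; exact Nat.zero_le _
  have h2 : (∏ j, bvec F k (hom c (Xu n)) (Xu n none) j ^ v j).degreeOf none ≤ ∑ j, v j := by
    refine (MvPolynomial.degreeOf_prod_le _ _ _).trans (sum_le_sum fun j _ => ?_)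
    refine (MvPolynomial.degreeOf_pow_le _ _ _).trans ?_
    simpa using Nat.mul_le_mul_left (v j) (hb j)
  unfold mon
  refine (MvPolynomial.degreeOf_mul_le _ _ _).trans ?_
  rw [h3, add_zero]
  refine (MvPolynomial.degreeOf_mul_le _ _ _).trans ?_
  rw [h1, zero_add]
  exact h2

/-- evaluation of integer polynomials through complex coefficients -/
theorem aeval_map_int {σ K : Type*} [CommRing K] [Algebra ℂ K] (z : σ → K)
    (p : MvPolynomial σ ℤ) :
    MvPolynomial.aeval z (MvPolynomial.map (Int.castRingHom ℂ) p) = ev z p := by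
  have : (MvPolynomial.aeval z : MvPolynomial σ ℂ →ₐ[ℂ] K).toRingHom.comp
      (MvPolynomial.map (Int.castRingHom ℂ)) = ev z :=
    MvPolynomial.ringHom_ext' (RingHom.ext_int _ _) (fun i => by simp [ev])
  exact RingHom.congr_fun this p

theorem map_ev {σ K K' : Type*} [CommRing K] [CommRing K'] (φ : K →+* K') (z : σ → K)
    (p : MvPolynomial σ ℤ) : φ (ev z p) = ev (fun i => φ (z i)) p := by
  have : φ.comp (ev z) = ev (fun i => φ (z i)) :=
    MvPolynomial.ringHom_ext' (RingHom.ext_int _ _) (fun i => by simp [ev])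
  exact RingHom.congr_fun this p

theorem ev_toC {σ : Type*} (z : σ → ℚ) (p : MvPolynomial σ ℤ) :
    ev (toC z) p = ((ev z p : ℚ) : ℂ) :=
  (map_ev (Rat.castHom ℂ) z p).symm

/-- the conjugates as polynomials of degree `≤ 1` -/
theorem aeval_alv {K : Type*} [CommRing K] [Algebra ℂ K] {n : ℕ} (ϑ : Fin (n + 1) → ℂ)
    (c : Fin (n + 1)) (z : Option (Fin n) → K) (i : Fin (n + 1)) :
    MvPolynomial.aeval z (alv ϑ c (fun j => (MvPolynomial.X j : MvPolynomial (Option (Fin n)) ℂ)) i)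
      = alv ϑ c z i := by
  have h := map_conj (MvPolynomial.aeval z : MvPolynomial (Option (Fin n)) ℂ →ₐ[ℂ] K).toRingHom
    (hom c (fun j => (MvPolynomial.X j : MvPolynomial (Option (Fin n)) ℂ)))
    (algebraMap ℂ _ (ϑ i))
  simp only [map_hom] at h
  simpa [alv] using h

theorem alv_totalDegree {n : ℕ} (ϑ : Fin (n + 1) → ℂ) (c : Fin (n + 1)) (i : Fin (n + 1)) :
    (alv ϑ c (fun j => (MvPolynomial.X j : MvPolynomial (Option (Fin n)) ℂ)) i).totalDegree ≤ 1 := by
  unfold alv conj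
  refine MvPolynomial.totalDegree_finsetSum_le fun j _ => ?_
  refine (MvPolynomial.totalDegree_mul _ _).trans ?_
  rw [← map_pow, MvPolynomial.algebraMap_eq, MvPolynomial.totalDegree_C, add_zero]
  rcases Fin.eq_self_or_eq_succAbove c j with rfl | ⟨j, rfl⟩ <;> simp [hom]

/-- the value of an interpolation polynomial at an arithmetic point -/
theorem ev_mon_pt {F : Polynomial ℤ} {k n C X : ℕ} {N : ℤ} {p : ℕ} {m : ℤ}
    {a b : Fin (n + 1) → ℤ} {A : ℕ} (h : AD F k C X N p m a b A) (c : Fin (n + 1))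
    (hc : a c ≠ 0) (D e : ℕ) (he : e ≤ D) (u v : Fin (n + 1) → ℕ) (hu : ∑ j, u j = k * e)
    (hv : ∑ j, v j = e) :
    (m : ℚ) ^ (k * e) * ev (pt c a N) (mon F k c D e u v) =
      (((p : ℚ) * m) / (a c : ℚ) ^ (n + 1)) ^ (k * D) *
        (((∏ j, a j ^ u j) * ∏ j, b j ^ v j : ℤ) : ℚ) := by
  have hh : hom c (pt c a N) = fun j => (a c : ℚ)⁻¹ * a j := funext (hom_pt c a hc N)
  have h1 : nm F (fun j => (a j : ℚ)) = p * m := by
    have := map_nm F (Int.castRingHom ℚ) a
    rw [h.hnm] at this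
    simpa using this.symm
  have h2 : ∀ j, bvec F k (fun j => (a j : ℚ)) (N : ℚ) j = (p : ℚ) ^ k * b j := by
    intro j
    have := map_bvec F k (Int.castRingHom ℚ) a N j
    rw [← h.hb] at this
    simpa using this.symm
  obtain ⟨r, rfl⟩ := Nat.exists_eq_add_of_le he
  rw [ev_mon, hh, nm_smul, h1, show pt c a N none = (N : ℚ) from rfl]
  simp only [bvec_smul, h2, mul_pow, prod_mul_distrib, prod_pow_eq_pow_sum, hu, hv,
    Nat.add_sub_cancel, Nat.add_sub_cancel_left, div_eq_mul_inv, ← inv_pow]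
  push_cast
  ring

theorem natAbs_mon_le {F : Polynomial ℤ} {k d C X : ℕ} {N : ℤ} {p : ℕ} {m : ℤ}
    {a b : Fin d → ℤ} {A : ℕ} (h : AD F k C X N p m a b A) (e : ℕ) (u v : Fin d → ℕ)
    (hu : ∑ j, u j = k * e) (hv : ∑ j, v j = e) :
    ((∏ j, a j ^ u j) * ∏ j, b j ^ v j : ℤ).natAbs ≤ (C * X) ^ e := by
  have e1 : ((∏ j, a j ^ u j) * ∏ j, b j ^ v j : ℤ).natAbs =
      (∏ j, (a j).natAbs ^ u j) * ∏ j, (b j).natAbs ^ v j := by
    have := map_mul Int.natAbsHom (∏ j, a j ^ u j) (∏ j, b j ^ v j)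
    simpa only [map_prod, map_pow, Int.natAbsHom_apply] using this
  have h1 : ∏ j, (a j).natAbs ^ u j ≤ ∏ j, (A ^ k) ^ v j := by
    rw [prod_pow_eq_pow_sum, hv, ← pow_mul, ← hu, ← prod_pow_eq_pow_sum]
    exact prod_le_prod' fun j _ => Nat.pow_le_pow_left (h.ha j) _
  rw [e1, ← hv, ← prod_pow_eq_pow_sum]
  refine (Nat.mul_le_mul_right _ h1).trans ?_
  rw [← prod_mul_distrib]
  refine prod_le_prod' fun j _ => ?_
  rw [← mul_pow, mul_comm]
  exact Nat.pow_le_pow_left (h.hbA j) _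

theorem IsPt.ptH {F : Polynomial ℤ} {k n C X : ℕ} {c : Fin (n + 1)} {m : ℤ}
    {z : Option (Fin n) → ℚ} (h : IsPt F k C X c m z) (hX : 1 ≤ X) : PtH (C * X ^ 2) z := by
  obtain ⟨N, p, a, b, A, hA, hc, rfl⟩ := h
  have h1 : ∀ j, (a j).natAbs ≤ C * X := fun j => (hA.ha j).trans hA.hA
  have h2 : C * X ≤ C * X ^ 2 := Nat.mul_le_mul_left C (by nlinarith)
  have hc' : (a c : ℚ) ≠ 0 := by exact_mod_cast hc
  refine ⟨a c, hc, (h1 c).trans h2, ?_⟩
  rintro (_ | j)
  · refine ⟨a c * N, ?_, by simp [pt]⟩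
    rw [Int.natAbs_mul, sq, ← mul_assoc]
    exact Nat.mul_le_mul (h1 c) hA.hN
  · exact ⟨a (c.succAbove j), (h1 _).trans h2, by simp only [pt]; field_simp⟩

end Crest.Agent.R022
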