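import Crest.Agent.R022.PadicDet
import Crest.Agent.R022.BadPrimes
import Crest.Agent.R022.Mon

set_option autoImplicit false

namespace Crest.Agent.R022

open Finset

theorem detzero_not_dvd_num (ℓ : ℕ) (x y : ℤ) (hy : y ≠ 0) (hx : ¬ (ℓ : ℤ) ∣ x) :
    ¬ (ℓ : ℤ) ∣ ((x : ℚ) / y).num := by
  intro h
  exact hx (h.trans (Rat.num_dvd x hy |> fun h' => by simpa [Rat.divInt_eq_div] using h'))

theorem detzero_ev_C {σ K : Type*} [CommRing K] (z : σ → K) (t : ℤ) :
    ev z (MvPolynomial.C t) = (t : K) := by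
  unfold ev
  rw [MvPolynomial.eval₂Hom_C]; simp

/-- The interpolation determinant vanishes. -/
theorem det_zero (F : Polynomial ℤ) (k n C r D I Jn B cost y : ℕ) (vert : Bool)
    (hnum : B * cost < Jn * Gf r y (if vert then D else 0) I) :
    ∃ P₀ : ℕ, ∀ P ≥ P₀, ∀ X : ℕ, X ≤ P ^ B → ∀ (c : Fin (n + 1)) (m : ℤ)
      (z : Fin r → Option (Fin n) → ℚ), (∀ j, IsPt F k C X c m (z j)) →
      ∀ (τ : Fin Jn → ℕ) (σ : Fin Jn → Sys (Fin n)) (δ H : ℕ), Function.Injective τ →
      (∀ l, (τ l).Prime ∧ P ≤ τ l ∧ C < τ l ∧ τ l ^ 2 ≤ 2 * X) →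
      (∀ l, (σ l).Cx δ H ∧ (σ l).vert = vert ∧ (σ l).J.card = y) →
      (∀ l j, (σ l).ND (z j) ∧ (σ l).Good (z j) (τ l)) →
      (∀ l j j', cl (τ l) (z j) = cl (τ l) (z j')) →
      (vert = false → ∀ l j j', res (τ l) (z j none) = res (τ l) (z j' none)) →
      ∀ (u v : Fin r → Fin (n + 1) → ℕ) (lev : Fin r → ℕ),
      (∀ i, lev i ≤ D ∧ ∑ j, u i j = k * lev i ∧ ∑ j, v i j = lev i) → ∑ i, lev i ≤ cost →
      (Matrix.of fun i j => ev (z j) (mon F k c D (lev i) (u i) (v i))).det = 0 := by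
  refine ⟨r.factorial * (C + 1) ^ cost + 1, fun P hP X hX c m z hz τ σ δ H hτ hp hσ hnd hcl hN u v
    lev hlev hcost => ?_⟩
  choose N p a b A hAD hc hzeq using hz
  set M : Matrix (Fin r) (Fin r) ℤ :=
    Matrix.of fun i j => (∏ t, a j t ^ u i t) * ∏ t, b j t ^ v i t with hM
  set w : Fin r → ℚ := fun j => (((p j : ℚ) * m) / (a j c : ℚ) ^ (n + 1)) ^ (k * D) with hw
  have hev : ∀ i j, ev (z j) (MvPolynomial.C (m ^ (k * lev i)) * mon F k c D (lev i) (u i) (v i))
      = w j * M i j := by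
    intro i j
    have := ev_mon_pt (hAD j) c (hc j) D (lev i) (hlev i).1 (u i) (v i) (hlev i).2.1 (hlev i).2.2
    rw [map_mul, hzeq j]
    simp only [hM, hw, Matrix.of_apply]
    rw [← this, detzero_ev_C]
    push_cast
    rfl
  have hMdet : M.det = 0 := by
    by_contra hne
    have hdvd : ∀ l, (τ l : ℤ) ^ Gf r y (if vert then D else 0) I ∣ M.det := by
      intro l
      have h1 := padic_det (σ l) δ H (hσ l).1 (τ l) (hp l).1 z (fun j => (hnd l j).1)
        (fun j => (hnd l j).2) (hcl l) (fun hv => hN ((hσ l).2.1 ▸ hv) l) D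
        (fun i => MvPolynomial.C (m ^ (k * lev i)) * mon F k c D (lev i) (u i) (v i))
        (fun _ i => by
          refine (MvPolynomial.degreeOf_mul_le _ _ _).trans ?_
          rw [MvPolynomial.degreeOf_C, zero_add]
          exact (mon_degreeOf F k c D (lev i) (u i) (v i)).trans
            ((hlev i).2.2.le.trans (hlev i).1)) M w
        (fun j => by
          have e1 : w j = (((((p j : ℤ) * m) ^ (k * D) : ℤ) : ℚ)) /
              (((a j c ^ (n + 1)) ^ (k * D) : ℤ) : ℚ) := by
            simp only [hw]; push_cast; rw [div_pow]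
          rw [e1]
          refine detzero_not_dvd_num _ _ _ (pow_ne_zero _ (pow_ne_zero _ (hc j))) ?_
          intro hd
          have hpr : Prime (τ l : ℤ) := Nat.prime_iff_prime_int.mp (hp l).1
          rcases hpr.dvd_or_dvd (hpr.dvd_of_dvd_pow hd) with h | h
          · have h' : τ l ∣ p j := by exact_mod_cast h
            have := (Nat.prime_dvd_prime_iff_eq (hp l).1 (hAD j).prime).mp h'
            have h2 := (hAD j).big
            have h3 := (hp l).2.2.2
            rw [this] at h3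
            omega
          · have h' : τ l ∣ m.natAbs := by
              have := Int.natAbs_dvd_natAbs.mpr h
              simpa using this
            have := Nat.le_of_dvd (Int.natAbs_pos.mpr (hAD j).m0) h'
            have h2 := (hAD j).hm
            have h3 := (hp l).2.2.1
            omega) hev I
      rwa [(hσ l).2.1, (hσ l).2.2] at h1
    have hlow := pow_le_of_primes_dvd M.det hne P _ τ hτ (fun l => ⟨(hp l).1, (hp l).2.1⟩) hdvd
    have hup := natAbs_det_le M (fun i => (C * X) ^ lev i) (fun i j => by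
      simp only [hM, Matrix.of_apply]
      exact natAbs_mon_le (hAD j) (lev i) (u i) (v i) (hlev i).2.1 (hlev i).2.2)
    rw [Finset.prod_pow_eq_pow_sum] at hup
    have hP1 : 1 ≤ P := le_trans (Nat.le_add_left 1 _) hP
    have h2 : (C * X) ^ (∑ i, lev i) ≤ (C + 1) ^ cost * P ^ (B * cost) := by
      calc (C * X) ^ (∑ i, lev i) ≤ ((C + 1) * P ^ B) ^ (∑ i, lev i) :=
            Nat.pow_le_pow_left (Nat.mul_le_mul (Nat.le_succ C) hX) _
        _ ≤ ((C + 1) * P ^ B) ^ cost :=
            Nat.pow_le_pow_right (Nat.mul_pos (Nat.succ_pos C) (Nat.pow_pos hP1)) hcost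
        _ = (C + 1) ^ cost * P ^ (B * cost) := by rw [mul_pow, ← pow_mul]
    have h3 : P ^ (B * cost + 1) ≤ P ^ (Jn * Gf r y (if vert then D else 0) I) :=
      Nat.pow_le_pow_right hP1 hnum
    have h4 : P * P ^ (B * cost) ≤ (r.factorial * (C + 1) ^ cost) * P ^ (B * cost) := by
      calc P * P ^ (B * cost) = P ^ (B * cost + 1) := by ring
        _ ≤ r.factorial * (C * X) ^ (∑ i, lev i) := h3.trans (hlow.trans hup)
        _ ≤ r.factorial * ((C + 1) ^ cost * P ^ (B * cost)) := Nat.mul_le_mul_left _ h2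
        _ = _ := by ring
    have h5 := Nat.le_of_mul_le_mul_right h4 (Nat.pow_pos hP1)
    omega
  rcases Nat.eq_zero_or_pos r with hr | hr
  · subst hr
    simp [Matrix.det_isEmpty] at hMdet
  have hm0 : (m : ℚ) ≠ 0 := by exact_mod_cast (hAD ⟨0, hr⟩).m0
  have hfac : (Matrix.of fun i j => ev (z j) (mon F k c D (lev i) (u i) (v i))) =
      Matrix.diagonal (fun i => ((m : ℚ) ^ (k * lev i))⁻¹) * (M.map (Int.castRingHom ℚ)) *
        Matrix.diagonal w := by
    ext i j
    have := hev i j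
    rw [map_mul] at this
    have e1 : ev (z j) (MvPolynomial.C (m ^ (k * lev i))) = (m : ℚ) ^ (k * lev i) := by
      rw [detzero_ev_C]; push_cast; rfl
    rw [e1] at this
    simp only [Matrix.of_apply, Matrix.mul_diagonal, Matrix.diagonal_mul, Matrix.map_apply,
      eq_intCast]
    have h0 : (m : ℚ) ^ (k * lev i) ≠ 0 := pow_ne_zero _ hm0
    field_simp
    rw [mul_comm _ ((m : ℚ) ^ (k * lev i)), this]
    ring
  rw [hfac, Matrix.det_mul, Matrix.det_mul]
  have : (M.map (Int.castRingHom ℚ)).det = 0 := by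
    have := (Int.castRingHom ℚ).map_det M
    rw [hMdet, map_zero] at this
    exact this.symm
  rw [this]; simp

end Crest.Agent.R022
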