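import Crest.Agent.R022.Rho

set_option autoImplicit false

namespace Crest.Agent.R022

open Finset

open Crest.NumberTheoryR Filter Topology

/-- The Euler product converges to a positive number, which is also the limit of the partial
products.  Hint: `ρ(p^k) / p^k ≤ d / p ^ 2` for large `p` (`rho_le`), so the series is summable;
all factors are positive by `hloc`; use `Real.multipliable_of_summable_log`,
`Real.rexp_tsum_eq_tprod`/`HasSum.rexp` with `log (1 - x)` summable. -/
theorem euler_prod (f : Polynomial ℤ) (hirr : Irreducible (f.map (Int.castRingHom ℚ))) (k : ℕ)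
    (hk : 2 ≤ k) (hloc : ∀ p : ℕ, p.Prime → polyRootCountMod f (p ^ k) < p ^ k) :
    ∃ c : ℝ, 0 < c ∧
      HasProd (fun p : Nat.Primes =>
        1 - (polyRootCountMod f ((p : ℕ) ^ k) : ℝ) / ((p : ℕ) : ℝ) ^ k) c ∧
      Tendsto (fun M : ℕ => ∏ p ∈ (range (M + 1)).filter Nat.Prime,
        (1 - (polyRootCountMod f (p ^ k) : ℝ) / (p : ℝ) ^ k)) atTop (𝓝 c) := by
  classical
  obtain ⟨p₀, hp₀⟩ := rho_le f hirr
  have hpos : ∀ p : Nat.Primes,
      0 < 1 - (polyRootCountMod f ((p : ℕ) ^ k) : ℝ) / ((p : ℕ) : ℝ) ^ k := fun p => by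
    have h1 : (0 : ℝ) < ((p : ℕ) : ℝ) ^ k := pow_pos (by exact_mod_cast p.2.pos) _
    rw [sub_pos, div_lt_one h1]
    exact_mod_cast hloc p p.2
  have hs0 : Summable fun n : ℕ => (f.natDegree : ℝ) * (1 / (n : ℝ) ^ 2) :=
    (Real.summable_one_div_nat_pow.2 one_lt_two).mul_left _
  have hs1 : Summable fun n : ℕ => if n.Prime then
      -((polyRootCountMod f (n ^ k) : ℝ) / (n : ℝ) ^ k) else 0 := by
    refine hs0.of_norm_bounded_eventually_nat ?_
    filter_upwards [eventually_ge_atTop p₀] with n hn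
    split_ifs with hp
    · have h1 : (1 : ℝ) ≤ n := by exact_mod_cast hp.one_le
      rw [norm_neg, Real.norm_of_nonneg (by positivity), mul_one_div]
      have h2 : (polyRootCountMod f (n ^ k) : ℝ) ≤ f.natDegree := by
        exact_mod_cast hp₀ n k hp hn (by omega)
      gcongr
    · rw [norm_zero]; positivity
  have hs2 : Summable fun p : Nat.Primes =>
      -((polyRootCountMod f ((p : ℕ) ^ k) : ℝ) / ((p : ℕ) : ℝ) ^ k) := by
    refine (hs1.subtype {n | n.Prime}).congr fun p => ?_
    exact if_pos p.2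
  have hs3 : Summable fun p : Nat.Primes =>
      Real.log (1 - (polyRootCountMod f ((p : ℕ) ^ k) : ℝ) / ((p : ℕ) : ℝ) ^ k) := by
    simpa only [← sub_eq_add_neg] using Real.summable_log_one_add_of_summable hs2
  have hP := Real.hasProd_of_hasSum_log hpos hs3.hasSum
  refine ⟨_, Real.exp_pos _, hP, ?_⟩
  have ht : Tendsto (fun M : ℕ => ((range (M + 1)).subtype Nat.Prime : Finset Nat.Primes))
      atTop atTop := by
    refine tendsto_atTop_finset_of_monotone (fun a b hab => ?_) fun p => ⟨p.1, ?_⟩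
    · exact subtype_mono (range_mono (Nat.succ_le_succ hab))
    · exact mem_subtype.2 (mem_range.2 (Nat.lt_succ_self _))
  refine (Tendsto.comp hP ht).congr fun M => ?_
  exact Finset.prod_subtype_eq_prod_filter
    (fun p : ℕ => 1 - (polyRootCountMod f (p ^ k) : ℝ) / (p : ℝ) ^ k)

end Crest.Agent.R022
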