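import Crest.Agent.R022.ExDefs

set_option autoImplicit false

namespace Crest.Agent.R022

open Finset

/-- If, for every tuple, the coordinate `p` has to lie in a set of size `≤ M` which does not depend
on the coordinate `p`, then the proportion of such tuples is `≤ M / card Y`. -/
theorem excount_fresh {Y : Type} [Fintype Y] [DecidableEq Y] {Q : ℕ} (p : Fin Q) (M : ℕ)
    (Bad : (Fin Q → Y) → Y → Prop)
    (hdep : ∀ τ τ', (∀ j, j ≠ p → τ j = τ' j) → Bad τ = Bad τ')
    (hM : ∀ τ (T : Finset Y), (∀ y ∈ T, Bad τ y) → T.card ≤ M)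
    (T : Finset (Fin Q → Y)) (hT : ∀ τ ∈ T, Bad τ (τ p)) :
    T.card * Fintype.card Y ≤ M * Fintype.card Y ^ Q := by
  classical
  have h := Finset.card_le_mul_card_image_of_maps_to (s := T ×ˢ (univ : Finset Y))
    (t := (univ : Finset (Fin Q → Y))) (f := fun q => Function.update q.1 p q.2)
    (fun _ _ => mem_univ _) M (fun σ _ => by
      refine le_trans (Finset.card_le_card_of_injOn (fun q => q.1 p)
        (t := univ.filter fun y => Bad σ y) ?_ ?_) (hM σ _ fun y hy => (mem_filter.1 hy).2)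
      · intro q hq
        rw [coe_filter, Set.mem_ofPred_eq, mem_product] at hq
        refine mem_coe.2 (mem_filter.2 ⟨mem_univ _, ?_⟩)
        rw [← hdep q.1 σ fun j hj => by rw [← hq.2, Function.update_of_ne hj]]
        exact hT _ hq.1.1
      · intro q hq q' hq' e
        rw [coe_filter, Set.mem_ofPred_eq] at hq hq'
        have e2 : Function.update q.1 p q.2 = Function.update q'.1 p q'.2 := hq.2.trans hq'.2.symm
        refine Prod.ext (funext fun j => ?_) ?_
        · by_cases hj : j = p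
          · rw [hj]; exact e
          · simpa [Function.update_of_ne hj] using congrFun e2 j
        · simpa using congrFun e2 p)
  simpa [card_product] using h

/-- collisions among the first `J` coordinates -/
theorem excount_coll {Y : Type} [Fintype Y] [DecidableEq Y] {Q : ℕ} (J : ℕ)
    (T : Finset (Fin Q → Y))
    (hT : ∀ τ ∈ T, ∃ j j' : Fin Q, j.val < J ∧ j'.val < J ∧ j ≠ j' ∧ τ j = τ j') :
    T.card * Fintype.card Y ≤ J ^ 2 * Fintype.card Y ^ Q := by
  classical
  let A : Finset (Fin Q) := univ.filter fun j => j.val < J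
  have hA : A.card ≤ J := by
    refine le_trans (Finset.card_le_card_of_injOn (fun j => j.val) (t := range J) ?_ ?_) (by simp)
    · intro j hj
      exact mem_coe.2 (mem_range.2 (mem_filter.1 (mem_coe.1 hj)).2)
    · exact fun _ _ _ _ e => Fin.ext e
  have hsub : T ⊆ (A ×ˢ A).biUnion fun q => T.filter fun τ => q.1 ≠ q.2 ∧ τ q.1 = τ q.2 := by
    intro τ hτ
    obtain ⟨j, j', h1, h2, h3, h4⟩ := hT τ hτ
    exact mem_biUnion.2 ⟨(j, j'), mem_product.2 ⟨by simp [A, h1], by simp [A, h2]⟩,
      mem_filter.2 ⟨hτ, h3, h4⟩⟩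
  calc T.card * Fintype.card Y
      ≤ (∑ q ∈ A ×ˢ A, (T.filter fun τ => q.1 ≠ q.2 ∧ τ q.1 = τ q.2).card) * Fintype.card Y :=
        Nat.mul_le_mul_right _ ((card_le_card hsub).trans card_biUnion_le)
    _ ≤ ∑ _q ∈ A ×ˢ A, Fintype.card Y ^ Q := by
        rw [sum_mul]
        refine sum_le_sum fun q _ => ?_
        by_cases hq : q.1 = q.2
        · simp [hq]
        · have := excount_fresh q.1 1 (fun τ y => y = τ q.2)
            (fun τ τ' h => by rw [h q.2 (Ne.symm hq)])
            (fun τ U hU => card_le_one.2 fun a ha b hb => (hU a ha).trans (hU b hb).symm)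
            (T.filter fun τ => q.1 ≠ q.2 ∧ τ q.1 = τ q.2) (fun τ hτ => (mem_filter.1 hτ).2.2)
          rwa [one_mul] at this
    _ ≤ J ^ 2 * Fintype.card Y ^ Q := by
        rw [sum_const, card_product, smul_eq_mul, sq]
        exact Nat.mul_le_mul_right _ (Nat.mul_le_mul hA hA)

/-- a finite set whose fibres under `f` are small and whose image is small is small -/
theorem card_le_mul_of_fibers {A B : Type*} (T : Finset A) (f : A → B) (a b : ℕ)
    (h1 : ∀ U : Finset B, (∀ c ∈ U, ∃ x ∈ T, f x = c) → U.card ≤ a)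
    (h2 : ∀ c, ∀ U ⊆ T, (∀ x ∈ U, f x = c) → U.card ≤ b) : T.card ≤ a * b := by
  classical
  refine (Finset.card_le_mul_card_image (f := f) T b fun c _ =>
    h2 c _ (filter_subset _ _) fun x hx => (mem_filter.1 hx).2).trans ?_
  rw [mul_comm]
  exact Nat.mul_le_mul_right _ (h1 _ fun c hc => mem_image.1 hc)

/-- the initial labelling (constant label on `S`) -/
theorem ex_init {X Sy Cl : Type} (E : ExData X Sy Cl) (n : ℕ) (J : ℕ → ℕ) (M L Q : ℕ)
    (h : ExHyp E n J M L) : ∃ lab, ExInv E Q 0 0 1 1 0 lab := by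
  classical
  obtain ⟨s, h1, h2, h3⟩ := h.init
  have key : ∀ x s', (if x ∈ E.S then some s else none) = some s' → x ∈ E.S ∧ s' = s := by
    intro x s' e
    split_ifs at e with hx
    exact ⟨hx, (Option.some.inj e).symm⟩
  refine ⟨fun _ x => if x ∈ E.S then some s else none, fun _ _ _ => rfl, fun τ x s' e => ?_,
    fun τ c T hT => ?_, fun x hx T hT => ?_, fun τ T hT => ?_⟩
  · obtain ⟨hx, rfl⟩ := key x s' e
    exact ⟨hx, h1, h2, h3 x hx⟩
  · refine card_le_one.2 fun a ha b hb => ?_
    obtain ⟨x, hx, -⟩ := hT a ha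
    obtain ⟨y, hy, -⟩ := hT b hb
    rw [(key _ _ hx).2, (key _ _ hy).2]
  · have : T = ∅ := eq_empty_of_forall_notMem fun τ hτ => by
      have := hT τ hτ
      simp [hx] at this
    simp [this]
  · refine card_le_one.2 fun a ha b hb => ?_
    obtain ⟨x, _, -, rfl⟩ := hT a ha
    obtain ⟨y, _, -, rfl⟩ := hT b hb
    funext j
    simp [ExData.cv]

/-- the conclusion at the last level: every point has a tuple with a label, sum over all tuples,
class vectors and labels -/
theorem ex_final {X Sy Cl : Type} (E : ExData X Sy Cl) (n : ℕ) (J : ℕ → ℕ) (M L Q Jn Ln Kn Fn : ℕ)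
    (h : ExHyp E n J M L) (lab : (Fin Q → E.Pool) → X → Option Sy)
    (hl : ExInv E Q Jn n Ln Kn Fn lab) (hT : Fn < E.Pool.card) :
    E.S.card ≤ E.Pool.card ^ Q * (Kn * (Ln * L)) := by
  classical
  have hex : ∀ x ∈ E.S, ∃ τ s, lab τ x = some s := by
    intro x hx
    by_contra hc
    push Not at hc
    have h1 := hl.fail x hx univ fun τ _ => Option.eq_none_iff_forall_ne_some.2 (hc τ)
    rw [card_univ, Fintype.card_fun, Fintype.card_coe, Fintype.card_fin, mul_comm] at h1
    have h2 : 0 < E.Pool.card ^ Q := pow_pos (by omega) _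
    exact absurd (Nat.le_of_mul_le_mul_right h1 h2) (not_le.2 hT)
  choose τ s hs using hex
  rw [← card_attach]
  refine card_le_mul_of_fibers _ (fun x => τ x.1 x.2) _ _ (fun U _ => ?_) fun c U _ hU => ?_
  · refine (card_le_univ U).trans (le_of_eq ?_)
    rw [Fintype.card_fun, Fintype.card_coe, Fintype.card_fin]
  have hU' : ∀ x ∈ U, lab c x.1 = some (s x.1 x.2) := fun x hx => by
    rw [← hU x hx]; exact hs x.1 x.2
  refine card_le_mul_of_fibers _ (fun x => E.cv Jn c x.1) _ _ (fun V hV => ?_) fun v V hV hV' => ?_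
  · refine hl.cls c V fun v hv => ?_
    obtain ⟨x, hx, e⟩ := hV v hv
    exact ⟨x.1, _, hU' x hx, e⟩
  refine card_le_mul_of_fibers _ (fun x => s x.1 x.2) _ _ (fun W hW => ?_) fun σ W hW hW' => ?_
  · refine hl.few c v W fun σ hσ => ?_
    obtain ⟨x, hx, e⟩ := hW σ hσ
    exact ⟨x.1, by rw [hU' x (hV hx), e], hV' x hx⟩
  rcases W.eq_empty_or_nonempty with rfl | ⟨x0, hx0⟩
  · simp
  have h0 := hl.ok c x0.1 _ (hU' x0 (hV (hW hx0)))
  rw [hW' x0 hx0] at h0
  rw [← card_map (Function.Embedding.subtype _)]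
  refine h.final σ h0.2.1 h0.2.2.1 _ (fun y hy => ?_) fun y hy => ?_
  · obtain ⟨x, _, rfl⟩ := mem_map.1 hy
    exact x.2
  · obtain ⟨x, hx, rfl⟩ := mem_map.1 hy
    have h1 := hl.ok c x.1 _ (hU' x (hV (hW hx)))
    rw [hW' x hx] at h1
    exact h1.2.2.2

end Crest.Agent.R022
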