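import Mathlib

/-!
# The prime exchange argument: abstract setting
-/

set_option autoImplicit false

namespace Crest.Agent.R022

open Finset

/-- points `S`, a pool of primes, systems with a rank, classes of points modulo primes -/
structure ExData (X Sy Cl : Type) where
  S : Finset X
  Pool : Finset ℕ
  rank : Sy → ℕ
  cl : ℕ → X → Cl
  ND : Sy → X → Prop
  Good : Sy → X → ℕ → Prop
  Cx : ℕ → Sy → Prop
  ρ₀ : ℕ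
  κ : ℕ → ℕ

/-- hypotheses of the exchange argument with `n` levels and prefix lengths `J i` -/
structure ExHyp {X Sy Cl : Type} (E : ExData X Sy Cl) (n : ℕ) (J : ℕ → ℕ) (M L : ℕ) : Prop where
  init : ∃ s, E.Cx 0 s ∧ E.rank s ≤ E.ρ₀ ∧ ∀ x ∈ E.S, E.ND s x
  mono : ∀ i s, E.Cx i s → E.Cx (i + 1) s
  bad : ∀ i < n, ∀ s, ∀ x ∈ E.S, E.Cx i s → E.ND s x →
    ∀ T : Finset ℕ, (∀ ℓ ∈ T, ℓ ∈ E.Pool ∧ ¬ E.Good s x ℓ) → T.card ≤ M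
  cls : ∀ i < n, ∀ s, ∀ ℓ ∈ E.Pool, E.Cx i s → E.rank s + i ≤ E.ρ₀ →
    ∀ T : Finset Cl, (∀ c ∈ T, ∃ x ∈ E.S, E.ND s x ∧ E.Good s x ℓ ∧ E.cl ℓ x = c) →
      T.card ≤ E.κ i
  step : ∀ i < n, ∀ S' ⊆ E.S, ∀ (τ : Fin (J (i + 1)) → ℕ) (σ : Fin (J (i + 1)) → Sy),
    Function.Injective τ → (∀ l, τ l ∈ E.Pool) →
    (∀ l, E.Cx i (σ l) ∧ E.rank (σ l) + i = E.ρ₀) →
    (∀ l, ∀ x ∈ S', E.ND (σ l) x ∧ E.Good (σ l) x (τ l)) →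
    (∀ l, ∀ x ∈ S', ∀ x' ∈ S', E.cl (τ l) x = E.cl (τ l) x') →
    ∃ 𝓛 : Finset Sy, 𝓛.card ≤ L ∧ (∀ s ∈ 𝓛, E.Cx (i + 1) s ∧ E.rank s + (i + 1) ≤ E.ρ₀) ∧
      ∀ x ∈ S', ∃ s ∈ 𝓛, E.ND s x
  final : ∀ s, E.Cx n s → E.rank s + n ≤ E.ρ₀ →
    ∀ T ⊆ E.S, (∀ x ∈ T, E.ND s x) → T.card ≤ L

/-- class vector of `x` modulo the first `Ji` primes of the tuple `τ` -/
def ExData.cv {X Sy Cl : Type} (E : ExData X Sy Cl) {Q : ℕ} (Ji : ℕ) (τ : Fin Q → E.Pool)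
    (x : X) : Fin Q → Option Cl :=
  fun j => if j.val < Ji then some (E.cl (τ j) x) else none

/-- invariant at level `i`: a labelling of pairs (tuple of primes, point) by systems -/
structure ExInv {X Sy Cl : Type} (E : ExData X Sy Cl) (Q Ji i Li Ki Fi : ℕ)
    (lab : (Fin Q → E.Pool) → X → Option Sy) : Prop where
  dep : ∀ τ τ', (∀ j : Fin Q, j.val < Ji → τ j = τ' j) → lab τ = lab τ'
  ok : ∀ τ x s, lab τ x = some s → x ∈ E.S ∧ E.Cx i s ∧ E.rank s + i ≤ E.ρ₀ ∧ E.ND s x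
  few : ∀ τ (c : Fin Q → Option Cl) (T : Finset Sy),
    (∀ s ∈ T, ∃ x, lab τ x = some s ∧ E.cv Ji τ x = c) → T.card ≤ Li
  fail : ∀ x ∈ E.S, ∀ T : Finset (Fin Q → E.Pool), (∀ τ ∈ T, lab τ x = none) →
    T.card * E.Pool.card ≤ Fi * E.Pool.card ^ Q
  cls : ∀ τ (T : Finset (Fin Q → Option Cl)),
    (∀ c ∈ T, ∃ x s, lab τ x = some s ∧ E.cv Ji τ x = c) → T.card ≤ Ki

end Crest.Agent.R022
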