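import Crest.Agent.R022.ExCount

set_option autoImplicit false

namespace Crest.Agent.R022

open Finset

/-- the label index responsible for the position `j` -/
def exstepR (Ji : ℕ) {Jn : ℕ} (j : Fin Jn) : Fin (Ji + 1) :=
  ⟨min j.val Ji, Nat.lt_succ_of_le (min_le_right _ _)⟩

section

variable {X Sy Cl : Type} (E : ExData X Sy Cl) {Q Ji Jn : ℕ} (hJ : Ji < Jn) (hQ : Jn ≤ Q)

/-- the position `l ≤ Ji` -/
def exstepE (l : Fin (Ji + 1)) : Fin Q := ⟨l.val, by have := l.2; omega⟩

/-- exchange of the position `l` with the fresh position -/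
def exstepSw (l : Fin (Ji + 1)) : Equiv.Perm (Fin Q) :=
  Equiv.swap (exstepE hJ hQ l) (exstepE hJ hQ (Fin.last Ji))

theorem exstepSw_lt (l : Fin (Ji + 1)) (j : Fin Q) (hj : j.val < Ji) :
    (exstepSw hJ hQ l j).val < Jn := by
  unfold exstepSw
  rw [Equiv.swap_apply_def]
  split_ifs
  · simp [exstepE, hJ]
  · have := l.2; simp only [exstepE]; omega
  · omega

theorem exstepSw_ne (j : Fin Jn) (j' : Fin Q) (hj : j'.val < Ji) :
    exstepSw hJ hQ (exstepR Ji j) j' ≠ Fin.castLE hQ j := by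
  unfold exstepSw
  rw [Equiv.swap_apply_def]
  split_ifs with h1 h2
  · intro h
    have h3 := congrArg Fin.val h1
    have h4 := congrArg Fin.val h
    simp only [exstepE, exstepR, Fin.val_last, Fin.val_castLE] at h3 h4
    omega
  · have h3 := congrArg Fin.val h2
    simp only [exstepE, Fin.val_last] at h3
    omega
  · intro h
    apply h1
    have h4 := congrArg Fin.val h
    apply Fin.ext
    simp only [exstepE, exstepR, Fin.val_castLE] at h4 ⊢
    omega

theorem exstepSw_last : exstepSw hJ hQ (Fin.last Ji) = Equiv.refl _ := Equiv.swap_self _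

/-- successful pairs with their labels -/
def ExstepSucc (lab : (Fin Q → E.Pool) → X → Option Sy) (τ : Fin Q → E.Pool) (x : X)
    (σ : Fin (Ji + 1) → Sy) : Prop :=
  x ∈ E.S ∧ (Function.Injective fun j : Fin Jn => τ (Fin.castLE hQ j)) ∧
    (∀ l, lab (τ ∘ exstepSw hJ hQ l) x = some (σ l)) ∧
    ∀ j : Fin Jn, E.Good (σ (exstepR Ji j)) x (τ (Fin.castLE hQ j))

theorem ExstepSucc.unique {lab : (Fin Q → E.Pool) → X → Option Sy} {τ : Fin Q → E.Pool} {x : X}
    {σ σ' : Fin (Ji + 1) → Sy} (h : ExstepSucc E hJ hQ lab τ x σ)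
    (h' : ExstepSucc E hJ hQ lab τ x σ') : σ = σ' :=
  funext fun l => Option.some_injective _ ((h.2.2.1 l).symm.trans (h'.2.2.1 l))

open Classical in
/-- the points with a given key -/
noncomputable def exstepG (lab : (Fin Q → E.Pool) → X → Option Sy) (τ : Fin Q → E.Pool)
    (σ : Fin (Ji + 1) → Sy) (c : Fin Q → Option Cl) : Finset X :=
  E.S.filter fun x => ExstepSucc E hJ hQ lab τ x σ ∧ E.cv Jn τ x = c

/-- a small family of systems covering `S'` -/
def ExstepP (i L : ℕ) (S' : Finset X) (𝓛 : Finset Sy) : Prop :=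
  𝓛.card ≤ L + 1 ∧ (∀ s ∈ 𝓛, E.Cx (i + 1) s ∧ E.rank s + (i + 1) ≤ E.ρ₀) ∧
    ∀ x ∈ S', ∃ s ∈ 𝓛, E.ND s x

open Classical in
noncomputable def exstepPick (i L : ℕ) (S' : Finset X) : Finset Sy :=
  if h : ∃ 𝓛, ExstepP E i L S' 𝓛 then h.choose else ∅

theorem exstepPick_spec {i L : ℕ} {S' : Finset X} (h : ∃ 𝓛, ExstepP E i L S' 𝓛) :
    ExstepP E i L S' (exstepPick E i L S') := by
  rw [exstepPick, dif_pos h]; exact h.choose_spec

open Classical in
/-- the new labelling -/
noncomputable def exstepLab (i L : ℕ) (lab : (Fin Q → E.Pool) → X → Option Sy)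
    (τ : Fin Q → E.Pool) (x : X) : Option Sy :=
  if h : ∃ s, ∃ σ, ExstepSucc E hJ hQ lab τ x σ ∧
      s ∈ exstepPick E i L (exstepG E hJ hQ lab τ σ (E.cv Jn τ x)) ∧ E.ND s x then
    some h.choose else none

theorem exstepLab_some {i L : ℕ} {lab : (Fin Q → E.Pool) → X → Option Sy}
    {τ : Fin Q → E.Pool} {x : X} {s : Sy} (h : exstepLab E hJ hQ i L lab τ x = some s) :
    ∃ σ, ExstepSucc E hJ hQ lab τ x σ ∧
      s ∈ exstepPick E i L (exstepG E hJ hQ lab τ σ (E.cv Jn τ x)) ∧ E.ND s x := by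
  unfold exstepLab at h
  split_ifs at h with h1
  obtain rfl := Option.some_injective _ h
  exact h1.choose_spec

theorem exstep_cv_congr {τ τ' : Fin Q → E.Pool} {K : ℕ} (h : ∀ j : Fin Q, j.val < K → τ j = τ' j) :
    E.cv K τ = E.cv K τ' := by
  funext x j
  unfold ExData.cv
  split_ifs with hj
  · rw [h j hj]
  · rfl

theorem exstep_succ_congr {lab : (Fin Q → E.Pool) → X → Option Sy}
    (hdep : ∀ τ τ', (∀ j : Fin Q, j.val < Ji → τ j = τ' j) → lab τ = lab τ')
    {τ τ' : Fin Q → E.Pool} (h : ∀ j : Fin Q, j.val < Jn → τ j = τ' j) :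
    ExstepSucc E hJ hQ lab τ = ExstepSucc E hJ hQ lab τ' := by
  have h1 : ∀ j : Fin Jn, τ (Fin.castLE hQ j) = τ' (Fin.castLE hQ j) := fun j => h _ j.2
  have h2 : ∀ l, lab (τ ∘ exstepSw hJ hQ l) = lab (τ' ∘ exstepSw hJ hQ l) := fun l =>
    hdep _ _ fun j hj => h _ (exstepSw_lt hJ hQ l j hj)
  funext x σ
  simp only [ExstepSucc, h1, h2]

theorem exstep_cv_sw (τ : Fin Q → E.Pool) (x : X) (l : Fin (Ji + 1)) :
    E.cv Ji (τ ∘ exstepSw hJ hQ l) x =
      fun j => if j.val < Ji then E.cv Jn τ x (exstepSw hJ hQ l j) else none := by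
  funext j
  unfold ExData.cv
  split_ifs with h1 h2
  · rfl
  · exact absurd (exstepSw_lt hJ hQ l j h1) h2
  · rfl

include hQ in
theorem exstep_card_Ico :
    (univ.filter fun j : Fin Q => Ji ≤ j.val ∧ j.val < Jn).card = Jn - Ji := by
  rw [← Nat.card_Ico, ← Finset.card_map Fin.valEmbedding]
  congr 1
  ext a
  simp only [mem_map, mem_filter, mem_univ, true_and, Fin.valEmbedding_apply, mem_Ico]
  constructor
  · rintro ⟨j, hj, rfl⟩; exact hj
  · intro ha; exact ⟨⟨a, by omega⟩, ha, rfl⟩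

end

/-- The exchange step.  Write `Ji = J i < Jn = J (i+1) ≤ Q`, `p₀ : Fin Q := ⟨Ji, _⟩` (the fresh
position) and `τ^l := τ ∘ Equiv.swap l p₀` for `l < Ji`.  Call `(τ, x)` *successful* if `x ∈ S`, `τ` is
injective on the first `Jn` positions, `lab τ x = some s` with `Good s x (τ j)` for all
`Ji ≤ j < Jn`, and for each `l < Ji`, `lab τ^l x = some s_l` with `Good s_l x (τ l)`.  The *key* of a
successful pair is `(cv Jn τ x, σ)` with `σ : Fin Jn → Sy`, `σ l = s_l` (`l < Ji`), `σ j = s` otherwise.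
For each prefix of `τ` and key, let `S'` be the set of successful `x` with that key.  If some `σ l` has
`rank + i < ρ₀`, label all of `S'` by this `σ l` (`mono`); otherwise `step` gives `𝓛` and each
`x ∈ S'` is labelled by some member of `𝓛` (use choice, as a function of the data
`(fun j : Fin Jn => τ j, key)` only, so that `dep` holds).  Unsuccessful pairs get `none`.
`few`: given `cv Jn τ x` the class vectors `cv Ji τ x` and `cv Ji τ^l x` are determined, so there are
`≤ Li ^ (Ji + 1)` keys.  `fail`: union bound with `excount_fresh` (the label does not depend on the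
positions `≥ Ji`), `excount_coll`, and the bijections `τ ↦ τ^l` (note `τ l = τ^l p₀`).
`cls`: `cv Jn τ x` is determined by `cv Ji τ x`, and given `s` each new coordinate has `≤ κ i`
values. -/
theorem ex_step {X Sy Cl : Type} (E : ExData X Sy Cl) (n : ℕ) (J : ℕ → ℕ) (M L Q : ℕ)
    (h : ExHyp E n J M L) (i : ℕ) (hi : i < n) (hJ : J i < J (i + 1)) (hQ : J (i + 1) ≤ Q)
    (Li Ki Fi : ℕ) (lab : (Fin Q → E.Pool) → X → Option Sy)
    (hl : ExInv E Q (J i) i Li Ki Fi lab) :
    ∃ lab', ExInv E Q (J (i + 1)) (i + 1) (Li ^ (J i + 1) * (L + 1))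
      (Ki * Li * E.κ i ^ (J (i + 1) - J i))
      ((J i + 1) * Fi + J (i + 1) * M + J (i + 1) ^ 2) lab' := by
  classical
  -- every group is covered by a small family
  have hP : ∀ τ x σ, ExstepSucc E hJ hQ lab τ x σ → ∀ c,
      ∃ 𝓛, ExstepP E i L (exstepG E hJ hQ lab τ σ c) 𝓛 := by
    intro τ x σ hx c
    have hok := fun l => hl.ok _ _ _ (hx.2.2.1 l)
    have hmem : ∀ x' ∈ exstepG E hJ hQ lab τ σ c,
        ExstepSucc E hJ hQ lab τ x' σ ∧ E.cv (J (i + 1)) τ x' = c :=
      fun x' hx' => (Finset.mem_filter.1 hx').2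
    by_cases hr : ∃ l, E.rank (σ l) + i < E.ρ₀
    · obtain ⟨l, hr⟩ := hr
      refine ⟨{σ l}, by simp, fun s hs => ?_, fun x' hx' => ⟨σ l, mem_singleton_self _, ?_⟩⟩
      · rw [mem_singleton] at hs
        subst hs
        exact ⟨h.mono _ _ (hok l).2.1, hr⟩
      · exact (hl.ok _ _ _ ((hmem x' hx').1.2.2.1 l)).2.2.2
    · obtain ⟨𝓛, h1, h2, h3⟩ := h.step i hi (exstepG E hJ hQ lab τ σ c) (filter_subset _ _)
        (fun j => (τ (Fin.castLE hQ j) : ℕ)) (fun j => σ (exstepR (J i) j))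
        (Subtype.val_injective.comp hx.2.1) (fun j => (τ _).2)
        (fun j => ⟨(hok _).2.1, le_antisymm (hok _).2.2.1 (not_lt.1 fun h' => hr ⟨_, h'⟩)⟩)
        (fun j x' hx' => ⟨(hl.ok _ _ _ ((hmem x' hx').1.2.2.1 _)).2.2.2, (hmem x' hx').1.2.2.2 j⟩)
        (fun j x' hx' x'' hx'' => by
          have := congrFun ((hmem x' hx').2.trans (hmem x'' hx'').2.symm) (Fin.castLE hQ j)
          simpa [ExData.cv] using this)
      exact ⟨𝓛, h1.trans (Nat.le_succ _), h2, h3⟩
  refine ⟨exstepLab E hJ hQ i L lab, fun τ τ' hτ => ?_, fun τ x s hs => ?_, fun τ c T hT => ?_,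
    fun x hx T hT => ?_, fun τ T hT => ?_⟩
  · -- dep
    have h1 := exstep_succ_congr E hJ hQ hl.dep hτ
    have h2 := exstep_cv_congr E hτ
    have h3 : exstepG E hJ hQ lab τ = exstepG E hJ hQ lab τ' := by
      funext σ c
      simp only [exstepG, h1, h2]
    funext x
    simp only [exstepLab, h1, h2, h3]
  · -- ok
    obtain ⟨σ, h1, h2, h3⟩ := exstepLab_some E hJ hQ hs
    have := (exstepPick_spec E (hP τ x σ h1 _)).2.1 s h2
    exact ⟨h1.1, this.1, this.2, h3⟩
  · -- few
    rcases T.eq_empty_or_nonempty with rfl | ⟨s₀, hs₀⟩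
    · simp
    have hT' : ∀ s ∈ T, ∃ σ : Fin (J i + 1) → Sy, (∃ x, ExstepSucc E hJ hQ lab τ x σ ∧
        E.cv (J (i + 1)) τ x = c) ∧ s ∈ exstepPick E i L (exstepG E hJ hQ lab τ σ c) := by
      intro s hs
      obtain ⟨x, h1, h2⟩ := hT s hs
      obtain ⟨σ, h3, h4, -⟩ := exstepLab_some E hJ hQ h1
      exact ⟨σ, ⟨x, h3, h2⟩, h2 ▸ h4⟩
    have : Nonempty Sy := ⟨s₀⟩
    choose! f hf1 hf2 using hT'
    refine card_le_mul_of_fibers T f _ _ (fun U hU => ?_) (fun σ U hUT hU => ?_)
    · have h1 : U ⊆ Fintype.piFinset fun l => U.image fun σ => σ l := fun σ hσ =>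
        Fintype.mem_piFinset.2 fun l => mem_image_of_mem _ hσ
      refine (card_le_card h1).trans ?_
      rw [Fintype.card_piFinset]
      refine (Finset.prod_le_pow_card _ _ Li fun l _ => ?_).trans (by simp)
      refine hl.few (τ ∘ exstepSw hJ hQ l)
        (fun j => if j.val < J i then c (exstepSw hJ hQ l j) else none) _ fun s hs => ?_
      obtain ⟨σ, hσ, rfl⟩ := mem_image.1 hs
      obtain ⟨s', hs', rfl⟩ := hU σ hσ
      obtain ⟨x, h2, h3⟩ := hf1 s' hs'
      exact ⟨x, h2.2.2.1 l, by rw [exstep_cv_sw, h3]⟩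
    · rcases U.eq_empty_or_nonempty with rfl | ⟨s₁, hs₁⟩
      · simp
      obtain ⟨x, h2, -⟩ := hf1 s₁ (hUT hs₁)
      rw [hU s₁ hs₁] at h2
      refine le_trans (card_le_card fun s hs => ?_) (exstepPick_spec E (hP τ x σ h2 c)).1
      have := hf2 s (hUT hs)
      rwa [hU s hs] at this
  · -- fail
    set T₀ := T.filter fun τ => ∃ j j' : Fin Q, j.val < J (i + 1) ∧ j'.val < J (i + 1) ∧ j ≠ j' ∧
      τ j = τ j' with hT₀
    set T₁ := fun l : Fin (J i + 1) => T.filter fun τ => lab (τ ∘ exstepSw hJ hQ l) x = none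
      with hT₁
    set T₂ := fun j : Fin (J (i + 1)) => T.filter fun τ =>
      ∃ s, lab (τ ∘ exstepSw hJ hQ (exstepR (J i) j)) x = some s ∧
        ¬ E.Good s x (τ (Fin.castLE hQ j)) with hT₂
    have hsub : T ⊆ (univ.biUnion T₁ ∪ univ.biUnion T₂) ∪ T₀ := by
      intro τ hτ
      by_contra hcon
      simp only [mem_union, mem_biUnion, mem_univ, true_and, not_or, not_exists, hT₀, hT₁, hT₂,
        mem_filter, hτ, not_and, not_not] at hcon
      obtain ⟨⟨h1, h2⟩, h3⟩ := hcon
      choose σ hσ using fun l => Option.ne_none_iff_exists'.1 (h1 l)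
      have hs : ExstepSucc E hJ hQ lab τ x σ := by
        refine ⟨hx, fun j j' hjj => ?_, hσ, fun j => h2 j _ (hσ _)⟩
        by_contra hne
        exact h3 (Fin.castLE hQ j) (Fin.castLE hQ j') j.2 j'.2
          (fun h' => hne (Fin.castLE_injective hQ h')) hjj
      obtain ⟨s, hs1, hs2⟩ := (exstepPick_spec E (hP τ x σ hs (E.cv (J (i + 1)) τ x))).2.2 x
        (mem_filter.2 ⟨hx, hs, rfl⟩)
      have := hT τ hτ
      rw [exstepLab, dif_pos ⟨s, σ, hs, hs1, hs2⟩] at this
      exact Option.some_ne_none _ this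
    have c0 : T₀.card * E.Pool.card ≤ J (i + 1) ^ 2 * E.Pool.card ^ Q := by
      have := excount_coll (J (i + 1)) T₀ fun τ hτ => (mem_filter.1 hτ).2
      rwa [Fintype.card_coe] at this
    have c1 : ∀ l, (T₁ l).card * E.Pool.card ≤ Fi * E.Pool.card ^ Q := by
      intro l
      have := hl.fail x hx ((T₁ l).image fun τ => τ ∘ exstepSw hJ hQ l) fun τ hτ => by
        obtain ⟨τ', h1, rfl⟩ := mem_image.1 hτ
        exact (mem_filter.1 h1).2
      rwa [card_image_of_injective _ (exstepSw hJ hQ l).surjective.injective_comp_right] at this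
    have c2 : ∀ j, (T₂ j).card * E.Pool.card ≤ M * E.Pool.card ^ Q := by
      intro j
      have := excount_fresh (Fin.castLE hQ j) M
        (fun (τ : Fin Q → E.Pool) (y : E.Pool) =>
          ∃ s, lab (τ ∘ exstepSw hJ hQ (exstepR (J i) j)) x = some s ∧ ¬ E.Good s x y)
        (fun τ τ' hτ => by
          rw [hl.dep (τ ∘ exstepSw hJ hQ (exstepR (J i) j)) (τ' ∘ exstepSw hJ hQ (exstepR (J i) j))
            fun j' hj' => hτ _ (exstepSw_ne hJ hQ j j' hj')])
        (fun τ U hU => by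
          rcases U.eq_empty_or_nonempty with rfl | ⟨y₀, hy₀⟩
          · simp
          obtain ⟨s, hs, -⟩ := hU y₀ hy₀
          have hok := hl.ok _ _ _ hs
          rw [← card_map (Function.Embedding.subtype _)]
          refine h.bad i hi s x hx hok.2.1 hok.2.2.2 _ fun ℓ hℓ => ?_
          obtain ⟨y, hy, rfl⟩ := mem_map.1 hℓ
          obtain ⟨s', hs', hg⟩ := hU y hy
          obtain rfl := Option.some_injective _ (hs.symm.trans hs')
          exact ⟨y.2, hg⟩)
        (T₂ j) fun τ hτ => (mem_filter.1 hτ).2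
      rwa [Fintype.card_coe] at this
    calc T.card * E.Pool.card
        ≤ (∑ l, (T₁ l).card + ∑ j, (T₂ j).card + T₀.card) * E.Pool.card := by
          refine Nat.mul_le_mul_right _ ((card_le_card hsub).trans ((card_union_le _ _).trans ?_))
          exact Nat.add_le_add_right ((card_union_le _ _).trans
            (Nat.add_le_add card_biUnion_le card_biUnion_le)) _
      _ = ∑ l, (T₁ l).card * E.Pool.card + ∑ j, (T₂ j).card * E.Pool.card +
          T₀.card * E.Pool.card := by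
          rw [add_mul, add_mul, sum_mul, sum_mul]
      _ ≤ ∑ _l : Fin (J i + 1), Fi * E.Pool.card ^ Q +
          ∑ _j : Fin (J (i + 1)), M * E.Pool.card ^ Q + J (i + 1) ^ 2 * E.Pool.card ^ Q :=
          Nat.add_le_add (Nat.add_le_add (sum_le_sum fun l _ => c1 l) (sum_le_sum fun j _ => c2 j))
            c0
      _ = _ := by
          simp only [sum_const, card_univ, Fintype.card_fin, smul_eq_mul]
          ring
  · -- cls
    rcases T.eq_empty_or_nonempty with rfl | ⟨c₀, hc₀⟩
    · simp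
    have hT' : ∀ c ∈ T, ∃ s, ∃ x, lab τ x = some s ∧ E.cv (J (i + 1)) τ x = c ∧
        ∀ j : Fin Q, J i ≤ j.val → j.val < J (i + 1) → E.Good s x (τ j) := by
      intro c hc
      obtain ⟨x, s, h1, h2⟩ := hT c hc
      obtain ⟨σ, h3, -, -⟩ := exstepLab_some E hJ hQ h1
      refine ⟨σ (Fin.last _), x, ?_, h2, fun j hj1 hj2 => ?_⟩
      · have := h3.2.2.1 (Fin.last _)
        rwa [exstepSw_last] at this
      · have := h3.2.2.2 ⟨j, hj2⟩
        rwa [show exstepR (J i) (⟨j, hj2⟩ : Fin (J (i + 1))) = Fin.last _ from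
          Fin.ext (min_eq_right hj1)] at this
    have : Nonempty Sy := ⟨(hT' c₀ hc₀).choose⟩
    choose! f hf using hT'
    have hcv : ∀ x, E.cv (J i) τ x =
        fun j => if j.val < J i then E.cv (J (i + 1)) τ x j else none := by
      intro x
      have := exstep_cv_sw E hJ hQ τ x (Fin.last _)
      rwa [exstepSw_last] at this
    rw [mul_assoc]
    refine card_le_mul_of_fibers T (fun c j => if j.val < J i then c j else none) _ _
      (fun U hU => hl.cls τ U fun c hc => ?_) (fun c₁ U hUT hU => ?_)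
    · obtain ⟨c', hc', rfl⟩ := hU c hc
      obtain ⟨x, h1, h2, -⟩ := hf c' hc'
      exact ⟨x, _, h1, by rw [hcv, h2]⟩
    refine card_le_mul_of_fibers U f _ _ (fun W hW => hl.few τ c₁ W fun s hs => ?_)
      (fun s W hWU hW => ?_)
    · obtain ⟨c', hc', rfl⟩ := hW s hs
      obtain ⟨x, h1, h2, -⟩ := hf c' (hUT hc')
      exact ⟨x, h1, by rw [hcv, h2]; exact hU c' hc'⟩
    have h1 : W ⊆ Fintype.piFinset fun j => W.image fun c => c j := fun c hc =>
      Fintype.mem_piFinset.2 fun j => mem_image_of_mem _ hc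
    refine (card_le_card h1).trans ?_
    rw [Fintype.card_piFinset, ← exstep_card_Ico hQ, ← prod_const, prod_filter]
    refine Finset.prod_le_prod' fun j _ => ?_
    have hW' : ∀ c ∈ W, ∃ x, lab τ x = some s ∧ E.cv (J (i + 1)) τ x = c ∧
        ∀ j : Fin Q, J i ≤ j.val → j.val < J (i + 1) → E.Good s x (τ j) := by
      intro c hc
      have := hf c (hUT (hWU hc))
      rwa [hW c hc] at this
    split_ifs with hj
    · rcases W.eq_empty_or_nonempty with rfl | ⟨c₂, hc₂⟩
      · simp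
      obtain ⟨x₂, hx₂, -⟩ := hW' c₂ hc₂
      have hok := hl.ok _ _ _ hx₂
      have h2 : (W.image fun c => c j) ⊆
          (Finset.eraseNone (W.image fun c => c j)).map Function.Embedding.some := by
        intro o ho
        obtain ⟨c, hc, rfl⟩ := mem_image.1 ho
        obtain ⟨x, -, h4, -⟩ := hW' c hc
        have h5 : c j = some (E.cl (τ j) x) := by rw [← h4]; simp [ExData.cv, hj.2]
        exact mem_map.2 ⟨E.cl (τ j) x, Finset.mem_eraseNone.2 (h5 ▸ ho), h5.symm⟩
      refine (card_le_card h2).trans ?_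
      rw [card_map]
      refine h.cls i hi s (τ j) (τ j).2 hok.2.1 hok.2.2.1 _ fun a ha => ?_
      obtain ⟨c, hc, hca⟩ := mem_image.1 (Finset.mem_eraseNone.1 ha)
      obtain ⟨x, h3, h4, h5⟩ := hW' c hc
      have hok' := hl.ok _ _ _ h3
      refine ⟨x, hok'.1, hok'.2.2.2, h5 j hj.1 hj.2, ?_⟩
      rw [← h4] at hca
      simpa [ExData.cv, hj.2] using hca
    · refine card_le_one.2 fun a ha b hb => ?_
      obtain ⟨c, hc, rfl⟩ := mem_image.1 ha
      obtain ⟨c', hc', rfl⟩ := mem_image.1 hb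
      by_cases hj1 : j.val < J i
      · have := congrFun ((hU c (hWU hc)).trans (hU c' (hWU hc')).symm) j
        simpa [hj1] using this
      · obtain ⟨x, -, h4, -⟩ := hW' c hc
        obtain ⟨x', -, h4', -⟩ := hW' c' hc'
        have hj2 : ¬ j.val < J (i + 1) := fun h' => hj ⟨not_lt.1 hj1, h'⟩
        rw [← h4, ← h4']
        simp [ExData.cv, hj2]

end Crest.Agent.R022
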