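import Crest.Agent.R022.Defs

set_option autoImplicit false

namespace Crest.Agent.R022

open Finset

open Filter

/-- large prime powers dividing `f(n)`, `1 ≤ n ≤ X`, are rare -/
def Tail (f : Polynomial ℤ) (k c : ℕ) : Prop :=
  ∀ ε : ℝ, 0 < ε → ∀ᶠ X : ℕ in atTop, ∀ T : Finset ℕ,
    (∀ n ∈ T, 1 ≤ n ∧ n ≤ X ∧ ∃ p : ℕ, p.Prime ∧ c * X < p ^ 2 ∧ (p : ℤ) ^ k ∣ f.eval (n : ℤ)) →
    (T.card : ℝ) ≤ ε * X

/-- the same for integers `|N| ≤ X` -/
def TailZ (F : Polynomial ℤ) (k : ℕ) : Prop :=
  ∀ ε : ℝ, 0 < ε → ∀ᶠ X : ℕ in atTop, ∀ T : Finset ℤ,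
    (∀ N ∈ T, N.natAbs ≤ X ∧ ∃ p : ℕ, p.Prime ∧ 2 * X < p ^ 2 ∧ (p : ℤ) ^ k ∣ F.eval N) →
    (T.card : ℝ) ≤ ε * X

/-- Reduction to monic polynomials: `F = f.integralNormalization` is monic of the same degree,
irreducible over `ℚ`, and `F (c n) = c ^ (d - 1) f (n)` with `c` the leading coefficient
(`Polynomial.integralNormalization_eval₂_leadingCoeff_mul`, or `scaleRoots`); apply `TailZ` with
`X' = |c| X` to the image of `T` under `n ↦ c n`. -/
theorem tail_of_monic (f : Polynomial ℤ) (hirr : Irreducible (f.map (Int.castRingHom ℚ))) (k : ℕ)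
    (h : ∀ F : Polynomial ℤ, F.Monic → Irreducible (F.map (Int.castRingHom ℚ)) →
      F.natDegree = f.natDegree → TailZ F k) :
    Tail f k (2 * f.leadingCoeff.natAbs) := by
  classical
  have hf0 : f ≠ 0 := by
    rintro rfl
    simp at hirr
  have hc0 : f.leadingCoeff ≠ 0 := Polynomial.leadingCoeff_ne_zero.2 hf0
  have hd : 1 ≤ f.natDegree := by
    have := Polynomial.natDegree_pos_iff_degree_pos.2 (Polynomial.degree_pos_of_irreducible hirr)
    exact le_trans this Polynomial.natDegree_map_le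
  set c := f.leadingCoeff with hc
  have hcQ : (c : ℚ) ≠ 0 := by exact_mod_cast hc0
  have hF : Irreducible (f.integralNormalization.map (Int.castRingHom ℚ)) := by
    letI : Invertible (c : ℚ) := invertibleOfNonzero hcQ
    rw [← MulEquiv.irreducible_iff (Polynomial.algEquivCMulXAddC (c : ℚ) 0)]
    have e : Polynomial.algEquivCMulXAddC (c : ℚ) 0
        (f.integralNormalization.map (Int.castRingHom ℚ)) =
        Polynomial.C ((c : ℚ) ^ (f.natDegree - 1)) * f.map (Int.castRingHom ℚ) := by
      refine Polynomial.funext fun x => ?_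
      have := Polynomial.integralNormalization_eval₂_leadingCoeff_mul hd (Int.castRingHom ℚ) x
      rw [Polynomial.algEquivCMulXAddC_apply, ← Polynomial.comp_eq_aeval, Polynomial.eval_comp,
        Polynomial.eval_mul, Polynomial.eval_C, Polynomial.eval_map, Polynomial.eval_map]
      simpa using this
    rw [e]
    exact (irreducible_isUnit_mul (Polynomial.isUnit_C.2 (pow_ne_zero _ hcQ).isUnit)).2 hirr
  have hT := h _ (Polynomial.monic_integralNormalization hf0) hF
    Polynomial.natDegree_integralNormalization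
  intro ε hε
  have ha : 0 < c.natAbs := Int.natAbs_pos.2 hc0
  have ha' : (0 : ℝ) < c.natAbs := by exact_mod_cast ha
  have ht : Tendsto (fun X : ℕ => c.natAbs * X) atTop atTop :=
    tendsto_atTop_mono (fun X => Nat.le_mul_of_pos_left X ha) tendsto_id
  filter_upwards [ht.eventually (hT (ε / c.natAbs) (div_pos hε ha'))] with X hX T hT'
  have hinj : Function.Injective fun n : ℕ => c * (n : ℤ) := fun n m hnm =>
    Int.ofNat_injective (mul_left_cancel₀ hc0 hnm)
  have := hX (T.map ⟨_, hinj⟩) (fun N hN => by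
    obtain ⟨n, hn, rfl⟩ := mem_map.1 hN
    obtain ⟨-, h2, p, hp, h3, h4⟩ := hT' n hn
    refine ⟨?_, p, hp, by rwa [← mul_assoc], ?_⟩
    · simp only [Function.Embedding.coeFn_mk, Int.natAbs_mul, Int.natAbs_natCast]
      exact Nat.mul_le_mul_left _ h2
    · have := Polynomial.integralNormalization_eval₂_leadingCoeff_mul hd (RingHom.id ℤ) (n : ℤ)
      simp only [Polynomial.eval₂_id, RingHom.id_apply] at this
      simp only [Function.Embedding.coeFn_mk]
      rw [this]
      exact h4.mul_left _)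
  rw [card_map] at this
  refine this.trans (le_of_eq ?_)
  rw [Nat.cast_mul]
  field_simp

end Crest.Agent.R022
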