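import Crest.Agent.R022.Rho
import Crest.Agent.R022.Reduce
import Crest.Agent.R022.Euler
import Crest.Agent.R022.Dens

set_option autoImplicit false

namespace Crest.Agent.R022

open Finset

open Crest.NumberTheoryR Filter Topology

/-- Medium primes: union bound with `card_dvd_le`, `rho_le`, `∑_{p > M} 1 / p ^ 2 ≤ 1 / M`, and at
most `sqrt (c X)` primes. -/
theorem middle_bound (f : Polynomial ℤ) (hirr : Irreducible (f.map (Int.castRingHom ℚ))) (k : ℕ)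
    (hk : 2 ≤ k) (c : ℕ) (ε : ℝ) (hε : 0 < ε) :
    ∀ᶠ M : ℕ in atTop, ∀ᶠ X : ℕ in atTop, ∀ T : Finset ℕ,
      (∀ n ∈ T, 1 ≤ n ∧ n ≤ X ∧
        ∃ p : ℕ, p.Prime ∧ M < p ∧ p ^ 2 ≤ c * X ∧ (p : ℤ) ^ k ∣ f.eval (n : ℤ)) →
      (T.card : ℝ) ≤ ε * X := by
  classical
  obtain ⟨p₀, hp₀⟩ := rho_le f hirr
  set d : ℝ := (f.natDegree : ℝ) with hd
  have hd0 : 0 ≤ d := Nat.cast_nonneg _
  have h1 : ∀ᶠ M : ℕ in atTop, 4 * d / ε ≤ M :=
    tendsto_natCast_atTop_atTop.eventually_ge_atTop _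
  have h2 : ∀ᶠ X : ℕ in atTop, 4 * d ^ 2 * c / ε ^ 2 ≤ X :=
    tendsto_natCast_atTop_atTop.eventually_ge_atTop _
  filter_upwards [h1, eventually_ge_atTop p₀] with M hM hMp
  filter_upwards [h2] with X hX T hT
  set s := Nat.sqrt (c * X) with hs
  set P := (Ioo M (s + 1)).filter Nat.Prime with hP
  have hX0 : (0 : ℝ) ≤ X := Nat.cast_nonneg _
  have hsub : T ⊆ P.biUnion fun p => T.filter fun n : ℕ => (p : ℤ) ^ k ∣ f.eval (n : ℤ) := by
    intro n hn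
    obtain ⟨-, -, p, hp, hMp, hpX, hdvd⟩ := hT n hn
    refine mem_biUnion.2 ⟨p, mem_filter.2 ⟨mem_Ioo.2 ⟨hMp, ?_⟩, hp⟩, mem_filter.2 ⟨hn, hdvd⟩⟩
    exact Nat.lt_succ_of_le (Nat.le_sqrt'.2 hpX)
  have hone : ∀ p ∈ P, ((T.filter fun n : ℕ => (p : ℤ) ^ k ∣ f.eval (n : ℤ)).card : ℝ) ≤
      d * X * ((p : ℝ) ^ 2)⁻¹ + d := by
    intro p hp
    obtain ⟨hp1, hp2⟩ := mem_filter.1 hp
    have hp3 : (1 : ℝ) ≤ p := by exact_mod_cast hp2.one_lt.le
    have h3 := card_dvd_le f (p ^ k) X (pow_pos hp2.pos k)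
      (T.filter fun n : ℕ => (p : ℤ) ^ k ∣ f.eval (n : ℤ)) fun n hn => by
        obtain ⟨hn1, hn2⟩ := mem_filter.1 hn
        exact ⟨(hT n hn1).1, (hT n hn1).2.1, by exact_mod_cast hn2⟩
    have h4 : (polyRootCountMod f (p ^ k) : ℝ) ≤ d := by
      rw [hd]
      exact_mod_cast hp₀ p k hp2 (hMp.trans (mem_Ioo.1 hp1).1.le) (by omega)
    have h5 : (X : ℝ) / ((p ^ k : ℕ) : ℝ) ≤ X * ((p : ℝ) ^ 2)⁻¹ := by
      rw [← div_eq_mul_inv, Nat.cast_pow]
      exact div_le_div_of_nonneg_left hX0 (by positivity) (pow_le_pow_right₀ hp3 hk)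
    calc _ ≤ _ := h3
      _ ≤ d * (X * ((p : ℝ) ^ 2)⁻¹ + 1) :=
        mul_le_mul h4 (by linarith) (by positivity) hd0
      _ = _ := by ring
  have hsum : ∑ p ∈ P, ((p : ℝ) ^ 2)⁻¹ ≤ 2 / (M + 1) :=
    (sum_le_sum_of_subset_of_nonneg (filter_subset _ _) fun _ _ _ => by positivity).trans
      (sum_Ioo_inv_sq_le M (s + 1))
  have hcard : (P.card : ℝ) ≤ s := by
    have : P.card ≤ s := (card_filter_le _ _).trans (by rw [Nat.card_Ioo]; omega)
    exact_mod_cast this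
  have hA : d * (2 / (M + 1)) ≤ ε / 2 := by
    rw [div_le_iff₀ hε] at hM
    rw [← mul_div_assoc, div_le_iff₀ (by positivity)]
    nlinarith
  have hB : d * s ≤ ε / 2 * X := by
    have h6 : (s : ℝ) ^ 2 ≤ c * X := by exact_mod_cast Nat.sqrt_le' (c * X)
    rw [div_le_iff₀ (by positivity)] at hX
    refine (pow_le_pow_iff_left₀ (by positivity) (by positivity) two_ne_zero).1 ?_
    calc (d * s) ^ 2 = d ^ 2 * s ^ 2 := by ring
      _ ≤ d ^ 2 * (c * X) := mul_le_mul_of_nonneg_left h6 (by positivity)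
      _ = 4 * d ^ 2 * c * (X / 4) := by ring
      _ ≤ X * ε ^ 2 * (X / 4) := mul_le_mul_of_nonneg_right hX (by positivity)
      _ = (ε / 2 * X) ^ 2 := by ring
  calc (T.card : ℝ)
      ≤ ∑ p ∈ P, ((T.filter fun n : ℕ => (p : ℤ) ^ k ∣ f.eval (n : ℤ)).card : ℝ) := by
        exact_mod_cast (card_le_card hsub).trans card_biUnion_le
    _ ≤ ∑ p ∈ P, (d * X * ((p : ℝ) ^ 2)⁻¹ + d) := sum_le_sum hone
    _ = d * X * ∑ p ∈ P, ((p : ℝ) ^ 2)⁻¹ + d * P.card := by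
        rw [sum_add_distrib, ← mul_sum, sum_const, nsmul_eq_mul, mul_comm (P.card : ℝ)]
    _ ≤ d * X * (2 / (M + 1)) + d * s := by gcongr
    _ = d * (2 / (M + 1)) * X + d * s := by ring
    _ ≤ ε / 2 * X + ε / 2 * X := by gcongr
    _ = ε * X := by ring

/-- The sieve: the count is squeezed between the count for the primes `≤ M` and this count minus
the medium and large prime contributions. -/
theorem result_of_tail (f : Polynomial ℤ) (k : ℕ) (hk : 2 ≤ k)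
    (hirr : Irreducible (f.map (Int.castRingHom ℚ)))
    (hloc : ∀ p : ℕ, p.Prime → polyRootCountMod f (p ^ k) < p ^ k) (c₀ : ℕ) (ht : Tail f k c₀) :
    ∃ c : ℝ, 0 < c ∧
      HasProd (fun p : Nat.Primes =>
        1 - (polyRootCountMod f ((p : ℕ) ^ k) : ℝ) / ((p : ℕ) : ℝ) ^ k) c ∧
      Tendsto (fun N : ℕ => (powerFreeValueCount f k N : ℝ) / (N : ℝ)) atTop (𝓝 c) := by
  classical
  obtain ⟨c, hc, hprod, hlim⟩ := euler_prod f hirr k hk hloc
  refine ⟨c, hc, hprod, Metric.tendsto_nhds.2 fun ε hε => ?_⟩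
  have hε4 : 0 < ε / 4 := by positivity
  obtain ⟨M, hM1, hM2⟩ := ((Metric.tendsto_nhds.1 hlim _ hε4).and
    (middle_bound f hirr k hk c₀ _ hε4)).exists
  have hD := Metric.tendsto_nhds.1 (density_finite f k ((range (M + 1)).filter Nat.Prime)
    fun p hp => (mem_filter.1 hp).2) _ hε4
  filter_upwards [hD, hM2, ht _ hε4, eventually_ge_atTop 1] with X h1 h2 h3 hX
  have hX0 : (0 : ℝ) < X := by exact_mod_cast hX
  set A := (Icc 1 X).filter fun n : ℕ => ∀ p ∈ (range (M + 1)).filter Nat.Prime,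
    ¬ (p : ℤ) ^ k ∣ f.eval (n : ℤ) with hA
  set B := (Icc 1 X).filter fun n : ℕ => IsPowerFree k (f.eval (n : ℤ)) with hB
  set T₁ := (Icc 1 X).filter fun n : ℕ =>
    ∃ p : ℕ, p.Prime ∧ M < p ∧ p ^ 2 ≤ c₀ * X ∧ (p : ℤ) ^ k ∣ f.eval (n : ℤ) with hT₁
  set T₂ := (Icc 1 X).filter fun n : ℕ =>
    ∃ p : ℕ, p.Prime ∧ c₀ * X < p ^ 2 ∧ (p : ℤ) ^ k ∣ f.eval (n : ℤ) with hT₂
  have e1 := h2 T₁ fun n hn => by
    obtain ⟨h, h'⟩ := mem_filter.1 hn
    exact ⟨(mem_Icc.1 h).1, (mem_Icc.1 h).2, h'⟩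
  have e2 := h3 T₂ fun n hn => by
    obtain ⟨h, h'⟩ := mem_filter.1 hn
    exact ⟨(mem_Icc.1 h).1, (mem_Icc.1 h).2, h'⟩
  have e3 : (B.card : ℝ) ≤ A.card := by
    have : B ⊆ A := fun n hn => mem_filter.2 ⟨(mem_filter.1 hn).1, fun p hp =>
      (mem_filter.1 hn).2 p (mem_filter.1 hp).2⟩
    exact_mod_cast card_le_card this
  have e4 : (A.card : ℝ) ≤ B.card + T₁.card + T₂.card := by
    have : A ⊆ B ∪ T₁ ∪ T₂ := by
      intro n hn
      obtain ⟨h, h'⟩ := mem_filter.1 hn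
      by_cases hf : IsPowerFree k (f.eval (n : ℤ))
      · exact mem_union_left _ (mem_union_left _ (mem_filter.2 ⟨h, hf⟩))
      · unfold IsPowerFree at hf
        push Not at hf
        obtain ⟨p, hp, hd⟩ := hf
        have hMp : M < p := by
          by_contra hle
          exact h' p (mem_filter.2 ⟨mem_range.2 (by omega), hp⟩) hd
        by_cases hpX : p ^ 2 ≤ c₀ * X
        · exact mem_union_left _ (mem_union_right _ (mem_filter.2 ⟨h, p, hp, hMp, hpX, hd⟩))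
        · exact mem_union_right _ (mem_filter.2 ⟨h, p, hp, not_le.1 hpX, hd⟩)
    exact_mod_cast (card_le_card this).trans ((card_union_le _ _).trans
      (Nat.add_le_add_right (card_union_le _ _) _))
  have e5 : (B.card : ℝ) / X ≤ A.card / X := div_le_div_of_nonneg_right e3 hX0.le
  have e6 : (A.card : ℝ) / X ≤ B.card / X + ε / 2 := by
    rw [div_add' _ _ _ hX0.ne']
    exact div_le_div_of_nonneg_right (by linarith) hX0.le
  have e7 : (powerFreeValueCount f k X : ℝ) = B.card := by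
    rw [powerFreeValueCount]
  rw [Real.dist_eq, abs_lt] at h1 hM1 ⊢
  rw [e7]
  constructor <;> linarith [h1.1, h1.2, hM1.1, hM1.2]

end Crest.Agent.R022
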