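import Crest.Agent.R022.Count
import Crest.Agent.R022.SieveFin

set_option autoImplicit false

namespace Crest.Agent.R022

open Finset Filter

theorem final_exists_P (X Q B : ℕ) (hB : 1 ≤ B) (hQ : 1 ≤ Q) (hX : Q ^ B < X) :
    ∃ P : ℕ, Q < P ∧ X ≤ P ^ B ∧ P ^ B ≤ 2 ^ B * X := by
  have hex : ∃ P : ℕ, X ≤ P ^ B := ⟨X, Nat.le_self_pow (by omega) X⟩
  classical
  have h1 := Nat.find_spec hex
  have h2 : Q < Nat.find hex := by
    by_contra h
    push Not at h
    have := Nat.pow_le_pow_left h B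
    omega
  refine ⟨Nat.find hex, h2, h1, ?_⟩
  have h3 := Nat.find_min hex (m := Nat.find hex - 1) (by omega)
  push Not at h3
  calc Nat.find hex ^ B ≤ (2 * (Nat.find hex - 1)) ^ B := Nat.pow_le_pow_left (by omega) _
    _ = 2 ^ B * (Nat.find hex - 1) ^ B := mul_pow _ _ _
    _ ≤ 2 ^ B * X := Nat.mul_le_mul_left _ h3.le

theorem final_aux (B K A P₀ : ℕ) (hB : 2 ≤ B) (ε : ℝ) (hε : 0 < ε) :
    ∀ᶠ X : ℕ in atTop, ∃ P : ℕ, P₀ ≤ P ∧ A * P ^ 2 ≤ X ∧ X ≤ P ^ (B + 1) ∧ 1 ≤ X ∧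
      ((K * P ^ B : ℕ) : ℝ) ≤ ε * X := by
  obtain ⟨Q₁, hQ₁⟩ := exists_nat_ge ((K * 2 ^ (B + 1) : ℕ) / ε)
  set Q := max (max Q₁ P₀) (A * 2 ^ (B + 1) + 1) with hQ
  filter_upwards [eventually_gt_atTop (Q ^ (B + 1))] with X hX
  have hQ1 : 1 ≤ Q := le_trans (Nat.le_add_left 1 _) (le_max_right _ _)
  obtain ⟨P, h1, h2, h3⟩ := final_exists_P X Q (B + 1) (by omega) hQ1 hX
  have hP1 : Q₁ ≤ P := le_trans ((le_max_left _ _).trans (le_max_left _ _)) h1.le
  have hP2 : P₀ ≤ P := le_trans ((le_max_right _ _).trans (le_max_left _ _)) h1.le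
  have hP3 : A * 2 ^ (B + 1) ≤ P := le_trans ((Nat.le_succ _).trans (le_max_right _ _)) h1.le
  have hP0 : 1 ≤ P := by omega
  refine ⟨P, hP2, ?_, h2, by omega, ?_⟩
  · have h4 : 2 ^ (B + 1) * (A * P ^ 2) ≤ 2 ^ (B + 1) * X := by
      calc 2 ^ (B + 1) * (A * P ^ 2) = (A * 2 ^ (B + 1)) * P ^ 2 := by ring
        _ ≤ P * P ^ 2 := Nat.mul_le_mul_right _ hP3
        _ = P ^ 3 := by ring
        _ ≤ P ^ (B + 1) := Nat.pow_le_pow_right hP0 (by omega)
        _ ≤ _ := h3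
    exact Nat.le_of_mul_le_mul_left h4 (Nat.pow_pos (by norm_num))
  · have h4 : ((K * 2 ^ (B + 1) : ℕ) : ℝ) ≤ ε * P := by
      rw [div_le_iff₀ hε] at hQ₁
      have : (Q₁ : ℝ) ≤ P := by exact_mod_cast hP1
      nlinarith
    have h5 : ((P ^ (B + 1) : ℕ) : ℝ) ≤ ((2 ^ (B + 1) * X : ℕ) : ℝ) := by exact_mod_cast h3
    have hPpos : (0 : ℝ) < P := by exact_mod_cast hP0
    refine le_of_mul_le_mul_left ?_ hPpos
    push_cast at h4 h5 ⊢
    calc (P : ℝ) * (K * P ^ B) = K * P ^ (B + 1) := by ring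
      _ ≤ K * (2 ^ (B + 1) * X) := by gcongr
      _ = (K * 2 ^ (B + 1)) * X := by ring
      _ ≤ (ε * P) * X := by gcongr
      _ = P * (ε * X) := by ring

theorem final_tailZ (F : Polynomial ℤ) (hF : F.Monic)
    (hirr : Irreducible (F.map (Int.castRingHom ℚ))) (n : ℕ) (h3 : 3 ≤ n) (h7 : n ≤ 7)
    (hd : F.natDegree = n + 1) : TailZ F (n - 1) := by
  classical
  obtain ⟨ϑ, hϑ⟩ := exists_FS F hF hirr hd
  obtain ⟨C, hC, hAD⟩ := exists_AD hϑ (by omega) (n - 1) (by omega)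
  obtain ⟨K, A, P₀, hK⟩ := count_main hϑ h3 h7 C hC
  intro ε hε
  filter_upwards [final_aux 999 ((n + 1) * (2 * C + 1) * K) A P₀ (by norm_num) ε hε] with X hX T hT
  obtain ⟨P, hP, hA, hXP, hX1, hfin⟩ := hX
  refine le_trans ?_ hfin
  have hex : ∀ N ∈ T, ∃ (p : ℕ) (m : ℤ) (a b : Fin (n + 1) → ℤ) (A : ℕ) (c : Fin (n + 1)),
      AD F (n - 1) C X N p m a b A ∧ a c ≠ 0 := by
    intro N hN
    obtain ⟨h1, p, hp, h2, h4⟩ := hT N hN
    obtain ⟨m, a, b, A, h⟩ := hAD X N p hX1 hp h2 h1 h4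
    have : ∃ c, a c ≠ 0 := by
      by_contra h0
      push Not at h0
      have h5 := h.hnm
      have h6 := nm_smul F (0 : ℤ) a
      simp only [zero_mul, ne_eq, Nat.add_eq_zero_iff, one_ne_zero, and_false, not_false_eq_true,
        zero_pow] at h6
      have h7 : a = fun _ => 0 := funext h0
      rw [h7, h6] at h5
      exact mul_ne_zero (by exact_mod_cast hp.ne_zero) h.m0 h5.symm
    obtain ⟨c, hc⟩ := this
    exact ⟨p, m, a, b, A, c, h, hc⟩
  choose! p m a b A' c hAD' hc using hex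
  have := card_le_mul_of_fibers T (fun N => (c N, m N)) ((n + 1) * (2 * C + 1)) (K * P ^ 999)
    (fun U hU => ?_) (fun x U hU hx => ?_)
  · rw [mul_assoc ((n + 1) * (2 * C + 1))]
    exact_mod_cast this
  · have hsub : U ⊆ (univ : Finset (Fin (n + 1))) ×ˢ Icc (-(C : ℤ)) C := by
      intro x hx
      obtain ⟨N, hN, rfl⟩ := hU x hx
      have := (hAD' N hN).hm
      simp only [Finset.mem_product, Finset.mem_univ, Finset.mem_Icc, true_and]
      omega
    refine (Finset.card_le_card hsub).trans ?_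
    rw [Finset.card_product, Int.card_Icc]
    simp only [Finset.card_univ, Fintype.card_fin]
    refine Nat.mul_le_mul_left _ ?_
    omega
  · have hinj : Set.InjOn (fun N => pt x.1 (a N) N) (U : Set ℤ) := by
      intro N _ N' _ h
      have := congrFun h none
      simp only [pt] at this
      exact_mod_cast this
    rw [← Finset.card_image_of_injOn hinj]
    refine hK P hP X hA hXP x.1 x.2 _ (fun z hz => ?_) ?_
    · obtain ⟨N, hN, rfl⟩ := Finset.mem_image.mp hz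
      have h1 := hx N hN
      rw [← h1]
      exact ⟨N, p N, a N, b N, A' N, hAD' N (hU hN), hc N (hU hN), rfl⟩
    · intro z hz z' hz' h
      obtain ⟨N, hN, rfl⟩ := Finset.mem_image.mp (Finset.mem_coe.mp hz)
      obtain ⟨N', hN', rfl⟩ := Finset.mem_image.mp (Finset.mem_coe.mp hz')
      simp only [pt] at h
      have : N = N' := by exact_mod_cast h
      rw [this]

end Crest.Agent.R022
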