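import Crest.Agent.R022.Defs

set_option autoImplicit false

namespace Crest.Agent.R022

open Finset

theorem generic_ev_eq {σ K : Type*} [CommRing K] [Algebra ℂ K] (w : σ → K)
    (p : MvPolynomial σ ℤ) :
    ev w p = MvPolynomial.aeval w (MvPolynomial.map (Int.castRingHom ℂ) p) := by
  rw [MvPolynomial.aeval_def, MvPolynomial.eval₂_map, ev, MvPolynomial.coe_eval₂Hom]
  congr 1
  exact RingHom.ext_int _ _

theorem generic_ev_toC {σ : Type*} (z : σ → ℚ) (p : MvPolynomial σ ℤ) :
    ev (fun i => (z i : ℂ)) p = ((ev z p : ℚ) : ℂ) := by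
  have : (Rat.castHom ℂ).comp (ev z) = ev (fun i => (z i : ℂ)) := by
    refine MvPolynomial.ringHom_ext (fun r => ?_) (fun i => ?_) <;> simp [ev]
  rw [← this]
  rfl

theorem generic_spec_int {σ Ω : Type*} [Field Ω] [Algebra ℂ Ω] {ω : σ → Ω} {z : σ → ℚ}
    (h : Spec ω z) {p : MvPolynomial σ ℤ} (hp : ev ω p = 0) : ev z p = 0 := by
  rw [generic_ev_eq] at hp
  have := h _ hp
  rw [← generic_ev_eq, generic_ev_toC] at this
  exact_mod_cast this

theorem generic_eval_map {σ K : Type*} [CommRing K] (w : σ → K)
    (g : Polynomial (MvPolynomial σ ℤ)) (η : σ) :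
    (g.map (ev w)).eval (w η) = ev w (g.eval (MvPolynomial.X η)) := by
  have : w η = ev w (MvPolynomial.X η) := by simp [ev]
  rw [this, Polynomial.eval_map, Polynomial.eval₂_at_apply]

theorem generic_ev_congr {σ K : Type*} [CommRing K] {w w' : σ → K} {A : Set σ}
    (h : ∀ i ∈ A, w i = w' i) {p : MvPolynomial σ ℤ} (hp : p ∈ MvPolynomial.supported ℤ A) :
    ev w p = ev w' p := by
  rw [MvPolynomial.mem_supported] at hp
  exact MvPolynomial.eval₂Hom_congr' rfl (fun i hi _ => h i (hp hi)) rfl

section Val

variable {K Γ : Type*} [Field K] [Algebra ℂ K] [LinearOrderedCommGroupWithZero Γ]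

theorem generic_val_const {v : Valuation K Γ} (hv : ∀ c : ℂ, v (algebraMap ℂ K c) ≤ 1) {c : ℂ}
    (hc : c ≠ 0) : v (algebraMap ℂ K c) = 1 := by
  refine le_antisymm (hv c) ?_
  have h1 : v (algebraMap ℂ K c) * v (algebraMap ℂ K c⁻¹) = 1 := by
    rw [← map_mul, ← map_mul, mul_inv_cancel₀ hc, map_one, map_one]
  rw [← h1]
  exact mul_le_of_le_one_right' (hv _)

theorem generic_red_aeval {σ : Type*} {v : Valuation K Γ}
    (hv : ∀ c : ℂ, v (algebraMap ℂ K c) ≤ 1) {ω : σ → K} {z : σ → ℂ}
    (h : ∀ i, v (ω i - algebraMap ℂ K (z i)) < 1) (p : MvPolynomial σ ℂ) :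
    v (MvPolynomial.aeval ω p - algebraMap ℂ K (MvPolynomial.aeval z p)) < 1 := by
  induction p using MvPolynomial.induction_on with
  | C a => simp
  | add p q hp hq =>
    rw [map_add, map_add, map_add, add_sub_add_comm]
    exact v.map_add_lt hp hq
  | mul_X p i hp =>
    rw [map_mul, map_mul, map_mul, MvPolynomial.aeval_X, MvPolynomial.aeval_X]
    have e : MvPolynomial.aeval ω p * ω i -
        algebraMap ℂ K (MvPolynomial.aeval z p) * algebraMap ℂ K (z i) =
        (MvPolynomial.aeval ω p - algebraMap ℂ K (MvPolynomial.aeval z p)) * ω i +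
          algebraMap ℂ K (MvPolynomial.aeval z p) * (ω i - algebraMap ℂ K (z i)) := by ring
    have h1 : v (ω i) ≤ 1 := by
      rw [← sub_add_cancel (ω i) (algebraMap ℂ K (z i))]
      exact v.map_add_le (h i).le (hv _)
    rw [e]
    refine v.map_add_lt ?_ ?_
    · rw [map_mul]
      exact lt_of_le_of_lt (mul_le_of_le_one_right' h1) hp
    · rw [map_mul]
      exact lt_of_le_of_lt (mul_le_of_le_one_left' (hv _)) (h i)

omit [Algebra ℂ K] in
theorem generic_root [IsAlgClosed K] {v : Valuation K Γ} {p : Polynomial K}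
    (hp : v p.leadingCoeff = 1) {t : K} (ht : v (p.eval t) < 1) :
    ∃ r ∈ p.roots, v (r - t) < 1 := by
  by_contra hcon
  push Not at hcon
  rw [(IsAlgClosed.splits p).eval_eq_prod_roots, map_mul, hp, one_mul, map_multiset_prod] at ht
  refine absurd ht (not_lt.2 (Multiset.one_le_prod_of_one_le fun x hx => ?_))
  simp only [Multiset.map_map, Multiset.mem_map, Function.comp_apply] at hx
  obtain ⟨r, hr, rfl⟩ := hx
  rw [v.map_sub_swap]
  exact hcon r hr

end Val

theorem generic_valuation {σ K : Type*} [Field K] (φ : MvPolynomial σ ℂ →+* K)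
    (hφ : Function.Injective φ) (z : σ → ℂ) :
    ∃ O : ValuationSubring K, (∀ h, O.valuation (φ h) ≤ 1) ∧
      ∀ h, MvPolynomial.aeval z h = 0 → O.valuation (φ h) < 1 := by
  let e : MvPolynomial σ ℂ ≃+* φ.range := RingEquiv.ofBijective φ.rangeRestrict
    ⟨fun a b h => hφ (congrArg Subtype.val h), φ.rangeRestrict_surjective⟩
  obtain ⟨O, h1, h2⟩ := Ideal.image_subset_nonunits_valuationSubring
    ((RingHom.ker (MvPolynomial.aeval z : MvPolynomial σ ℂ →ₐ[ℂ] ℂ)).comap e.symm)
    (Ideal.comap_ne_top _ (RingHom.ker_ne_top _))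
  refine ⟨O, fun h => (O.valuation_le_one_iff _).2 (h1 ⟨h, rfl⟩), fun h hh => ?_⟩
  refine O.mem_nonunits_iff.1 (h2 ⟨e h, ?_, rfl⟩)
  rw [SetLike.mem_coe, Ideal.mem_comap, RingEquiv.symm_apply_apply]
  exact hh

/-- Boundedly many generic points cover all nondegenerate rational points.
Hint: let `x i : Om ι` be the image of `X i` (algebraically independent over `ℂ`).  `𝒢` = tuples `ω`
with `ω i = x i` for free `i` and `ω η` a root of `s.gv x η` for dependent `η` (note that
`s.gv ω η = s.gv x η` since the coefficients only involve `some '' J`; if some `s.gv x η = 0` there is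
no nondegenerate `z`).  Given `z`, let `A` be the image of `MvPolynomial (Option ι) ℂ` in `Om ι` and
`𝔪` the image of the maximal ideal of `z`; `Ideal.image_subset_nonunits_valuationSubring` gives a
valuation subring `𝒪 ⊇ A` with `𝔪 ⊆ nonunits`.  The leading coefficient of `s.gv x η` is a unit of
`𝒪`, so all roots are integral over `𝒪`, hence in `𝒪`; reducing `lc * ∏ (T - r)` modulo the maximal
ideal shows that some root `r` reduces to `z η`.  Then the residue map sends `aeval ω h` to
`aeval (toC z) h`, which gives `Spec` and the nondegeneracy of `ω`. -/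
theorem generic_exists {ι : Type} [Fintype ι] [DecidableEq ι] (s : Sys ι) (δ H : ℕ)
    (hs : s.Cx δ H) :
    ∃ 𝒢 : Finset (Option ι → Om ι), 𝒢.card ≤ (δ + 1) ^ (Fintype.card ι + 1) ∧
      ∀ z : Option ι → ℚ, s.ND z → ∃ ω ∈ 𝒢, s.Gen ω ∧ Spec ω z := by
  classical
  let φ : MvPolynomial (Option ι) ℂ →ₐ[ℂ] Om ι := IsScalarTower.toAlgHom ℂ _ _
  have hφ : Function.Injective φ := by
    change Function.Injective (algebraMap (MvPolynomial (Option ι) ℂ) (Om ι))
    rw [IsScalarTower.algebraMap_eq _ (FractionRing (MvPolynomial (Option ι) ℂ)) (Om ι),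
      RingHom.coe_comp]
    exact (algebraMap (FractionRing (MvPolynomial (Option ι) ℂ)) (Om ι)).injective.comp
      (IsFractionRing.injective _ _)
  let x : Option ι → Om ι := fun i => φ (MvPolynomial.X i)
  have hx : AlgebraicIndependent ℂ x :=
    (MvPolynomial.algebraicIndependent_X (Option ι) ℂ).map' hφ
  refine ⟨Fintype.piFinset fun η => if s.Dep η then (s.gv x η).roots.toFinset else {x η},
    ?_, fun z hz => ?_⟩
  · rw [Fintype.card_piFinset, ← Fintype.card_option, ← Finset.card_univ]
    refine Finset.prod_le_pow_card _ _ _ fun η _ => ?_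
    split_ifs with h
    · refine (Multiset.toFinset_card_le _).trans ((Polynomial.card_roots' _).trans ?_)
      exact (Polynomial.natDegree_map_le.trans (hs η h).1).trans (Nat.le_succ δ)
    · simp
  · obtain ⟨O, hO1, hO2⟩ := generic_valuation (φ : MvPolynomial (Option ι) ℂ →+* Om ι) hφ
      (fun i => (z i : ℂ))
    have hv : ∀ c : ℂ, O.valuation (algebraMap ℂ (Om ι) c) ≤ 1 := fun c => by
      rw [← φ.commutes]
      exact hO1 _
    have hxz : ∀ i, O.valuation (x i - algebraMap ℂ (Om ι) (z i : ℂ)) < 1 := fun i => by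
      have := hO2 (MvPolynomial.X i - MvPolynomial.C (z i : ℂ)) (by simp)
      rw [map_sub] at this
      rw [← φ.commutes]
      exact this
    have hroot : ∀ η, ∃ r, r ∈ (if s.Dep η then (s.gv x η).roots.toFinset else {x η}) ∧
        O.valuation (r - algebraMap ℂ (Om ι) (z η : ℂ)) < 1 := by
      intro η
      split_ifs with h
      · obtain ⟨h1, -, h3⟩ := hz η h
        have hlc : O.valuation (ev x (s.g η).leadingCoeff) = 1 := by
          have h4 := generic_red_aeval hv hxz
            (MvPolynomial.map (Int.castRingHom ℂ) (s.g η).leadingCoeff)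
          rw [← generic_ev_eq, ← generic_ev_eq, generic_ev_toC] at h4
          have h5 := generic_val_const hv
            (c := ((ev z (s.g η).leadingCoeff : ℚ) : ℂ)) (by exact_mod_cast h3)
          rw [← h5] at h4 ⊢
          exact O.valuation.map_eq_of_sub_lt h4
        have hlc0 : ev x (s.g η).leadingCoeff ≠ 0 := fun h0 => by
          rw [h0, map_zero] at hlc
          exact zero_ne_one hlc
        have hη : η ∉ some '' (s.J : Set ι) := by
          rintro ⟨j, hj, rfl⟩
          exact h hj
        let x' := Function.update x η (algebraMap ℂ (Om ι) (z η : ℂ))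
        have hx' : ∀ i, O.valuation (x' i - algebraMap ℂ (Om ι) (z i : ℂ)) < 1 := fun i => by
          by_cases hi : i = η
          · subst hi
            simp [x']
          · simp only [x', Function.update_of_ne hi]
            exact hxz i
        have hgv : s.gv x η = s.gv x' η := by
          ext j
          simp only [Sys.gv, Polynomial.coeff_map]
          refine generic_ev_congr (fun i hi => ?_) ((hs η h).2 j).1
          exact (Function.update_of_ne (ne_of_mem_of_not_mem hi hη) _ _).symm
        obtain ⟨r, hr, hr'⟩ := generic_root (v := O.valuation) (p := s.gv x η)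
          (by rw [Sys.gv, Polynomial.leadingCoeff_map_of_leadingCoeff_ne_zero _ hlc0, hlc])
          (t := algebraMap ℂ (Om ι) (z η : ℂ)) (by
            have h4 := generic_red_aeval hv hx'
              (MvPolynomial.map (Int.castRingHom ℂ) ((s.g η).eval (MvPolynomial.X η)))
            rw [← generic_ev_eq, ← generic_ev_eq, generic_ev_toC, ← generic_eval_map,
              ← generic_eval_map] at h4
            rw [Sys.gv] at h1
            rw [h1, Rat.cast_zero, map_zero, sub_zero] at h4
            have h5 : x' η = algebraMap ℂ (Om ι) (z η : ℂ) := Function.update_self _ _ _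
            rw [hgv, ← h5]
            exact h4)
        exact ⟨r, Multiset.mem_toFinset.2 hr, hr'⟩
      · exact ⟨x η, Finset.mem_singleton_self _, hxz η⟩
    choose ω hω hω' using hroot
    have hfree : ∀ i, ¬ s.Dep i → ω i = x i := fun i hi => by
      have := hω i
      rwa [if_neg hi, Finset.mem_singleton] at this
    have hspec : Spec ω z := fun h hh => by
      have h1 := generic_red_aeval hv hω' h
      rw [hh, zero_sub, Valuation.map_neg] at h1
      by_contra h2
      exact absurd (generic_val_const hv h2) h1.ne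
    refine ⟨ω, Fintype.mem_piFinset.2 hω, ⟨fun η h => ⟨?_, ?_, ?_⟩, ?_⟩, hspec⟩
    · have hgv : s.gv ω η = s.gv x η := by
        ext j
        simp only [Sys.gv, Polynomial.coeff_map]
        refine generic_ev_congr (fun i hi => hfree i ?_) ((hs η h).2 j).1
        obtain ⟨j, hj, rfl⟩ := hi
        exact fun h' => h' hj
      have := hω η
      rw [if_pos h, Multiset.mem_toFinset] at this
      rw [hgv]
      exact (Polynomial.mem_roots'.1 this).2
    · intro h0
      apply (hz η h).2.1
      rw [Sys.gv, Polynomial.derivative_map, generic_eval_map] at h0 ⊢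
      exact generic_spec_int hspec h0
    · exact fun h0 => (hz η h).2.2 (generic_spec_int hspec h0)
    · have : (fun i : {i : Option ι // ¬ s.Dep i} => ω i) = x ∘ Subtype.val :=
        funext fun i => hfree i i.2
      rw [this]
      exact hx.comp _ Subtype.val_injective

end Crest.Agent.R022
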