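import Crest.Agent.R022.Defs

set_option autoImplicit false

namespace Crest.Agent.R022

open Finset

/-- nonnegative vectors supported in `s` with sum at most `R` -/
noncomputable def hcountS {κ : Type*} [DecidableEq κ] (s : Finset κ) (R : ℕ) : Finset (κ →₀ ℕ) :=
  (range (R + 1)).biUnion (fun n => s.finsuppAntidiag n)

theorem hcount_mem {κ : Type*} [DecidableEq κ] {s : Finset κ} {R : ℕ} {f : κ →₀ ℕ} :
    f ∈ hcountS s R ↔ ∑ i ∈ s, f i ≤ R ∧ f.support ⊆ s := by
  simp only [hcountS, mem_biUnion, mem_range, mem_finsuppAntidiag]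
  constructor
  · rintro ⟨n, hn, h1, h2⟩
    exact ⟨h1.le.trans (Nat.lt_succ_iff.1 hn), h2⟩
  · rintro ⟨h1, h2⟩
    exact ⟨_, Nat.lt_succ_iff.2 h1, rfl, h2⟩

theorem hcount_card {κ : Type*} [DecidableEq κ] (s : Finset κ) (R : ℕ) :
    (hcountS s R).card = (R + s.card).choose s.card := by
  rw [hcountS, card_biUnion]
  · simp only [card_finsuppAntidiag_nat_eq_multichoose]
    exact Nat.sum_range_multichoose R s.card
  · intro n _ m _ hnm
    rw [Function.onFun, disjoint_left]
    intro f h1 h2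
    exact hnm ((mem_finsuppAntidiag.1 h1).1.symm.trans (mem_finsuppAntidiag.1 h2).1)

/-- insert the coordinate `-∑ w` -/
def hcountExt {y : ℕ} (l : Fin (y + 1)) (w : Fin y → ℤ) : Fin (y + 1) → ℤ :=
  Fin.insertNth (α := fun _ => ℤ) l (-∑ i, w i) w

theorem hcountExt_inj {y : ℕ} (l : Fin (y + 1)) : Function.Injective (hcountExt l) := by
  intro v w e
  funext j
  have := congrFun e (l.succAbove j)
  simpa only [hcountExt, Fin.insertNth_apply_succAbove] using this

theorem hcountExt_inP {y R : ℕ} (l : Fin (y + 1)) {w : Fin y → ℤ}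
    (h1 : ∑ i, (w i).toNat ≤ R) (h2 : ∑ i, (-w i).toNat ≤ R) : InP R (hcountExt l w) := by
  have h3 : ∑ i, w i = (∑ i, (w i).toNat : ℕ) - (∑ i, (-w i).toNat : ℕ) := by
    push_cast
    rw [← sum_sub_distrib]
    exact sum_congr rfl fun i _ => by omega
  constructor
  · rw [Fin.sum_univ_succAbove _ l]
    simp only [hcountExt, Fin.insertNth_apply_same, Fin.insertNth_apply_succAbove]
    ring
  · rw [Fin.sum_univ_succAbove _ l]
    simp only [hcountExt, Fin.insertNth_apply_same, Fin.insertNth_apply_succAbove]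
    rw [h3]
    omega

/-- Counting lattice points: for each `T ⊆ Neg` of size `t`, vectors that are `< 0` exactly on `T`
with negative part `≤ R` (`R.choose t` choices: positive `t`-tuples with sum `≤ R`) and `≥ 0` off `T`
with sum `≤ R` (`(R + y - t).choose (y - t)` choices).  An induction on `y` with two radii `A`, `B`
(Pascal / hockey stick) or `Finset.piAntidiag` / `Finset.finsuppAntidiag` / `Sym.card_sym_eq_choose`
can be used. -/
theorem count_box {κ : Type*} [Fintype κ] [DecidableEq κ] (Neg : Finset κ) (R : ℕ) :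
    ∃ W : Finset (κ → ℤ), cnt (Fintype.card κ) Neg.card R ≤ W.card ∧
      ∀ w ∈ W, ∑ i, (w i).toNat ≤ R ∧ ∑ i, (-w i).toNat ≤ R ∧ ∀ i, i ∉ Neg → 0 ≤ w i := by
  classical
  let A : Finset (Σ _ : Finset κ, (κ →₀ ℕ) × (κ →₀ ℕ)) :=
    (Neg.powerset.filter (fun T => T.card ≤ R)).sigma
      (fun T => hcountS T (R - T.card) ×ˢ hcountS Tᶜ R)
  let φ : (Σ _ : Finset κ, (κ →₀ ℕ) × (κ →₀ ℕ)) → κ → ℤ :=
    fun p i => if i ∈ p.1 then -((p.2.1 i : ℤ) + 1) else (p.2.2 i : ℤ)
  have hA : ∀ p ∈ A, p.1 ⊆ Neg ∧ p.1.card ≤ R ∧ (∑ i ∈ p.1, p.2.1 i ≤ R - p.1.card ∧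
      p.2.1.support ⊆ p.1) ∧ (∑ i ∈ p.1ᶜ, p.2.2 i ≤ R ∧ p.2.2.support ⊆ p.1ᶜ) := by
    intro p hp
    simp only [A, mem_sigma, mem_filter, mem_powerset, mem_product, hcount_mem] at hp
    exact ⟨hp.1.1, hp.1.2, hp.2.1, hp.2.2⟩
  refine ⟨A.image φ, ?_, ?_⟩
  · rw [card_image_of_injOn]
    · simp only [A, card_sigma, card_product, hcount_card, card_compl]
      rw [sum_filter, sum_powerset_apply_card (fun t => if t ≤ R then
        (R - t + t).choose t * (R + (Fintype.card κ - t)).choose (Fintype.card κ - t) else 0)]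
      unfold cnt
      refine sum_le_sum fun t ht => ?_
      have h1 : t ≤ Fintype.card κ := by
        have := card_le_univ Neg
        have := mem_range.1 ht
        omega
      split_ifs with h
      · rw [Nat.sub_add_cancel h, smul_eq_mul, mul_assoc, Nat.add_sub_assoc h1]
      · rw [Nat.choose_eq_zero_of_lt (not_le.1 h)]; simp
    · rintro ⟨T, f, g⟩ hp ⟨T', f', g'⟩ hp' e
      obtain ⟨-, -, ⟨-, hf⟩, -, hg⟩ := hA _ hp
      obtain ⟨-, -, ⟨-, hf'⟩, -, hg'⟩ := hA _ hp'
      simp only at hf hg hf' hg'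
      have hT : T = T' := by
        ext i
        have := congrFun e i
        simp only [φ] at this
        split_ifs at this with h1 h2 h2
        · simp [h1, h2]
        · omega
        · omega
        · simp [h1, h2]
      subst hT
      have e1 : f = f' := by
        ext i
        by_cases hi : i ∈ T
        · have := congrFun e i
          simp only [φ, if_pos hi] at this
          omega
        · rw [Finsupp.notMem_support_iff.1 (fun h => hi (hf h)),
            Finsupp.notMem_support_iff.1 (fun h => hi (hf' h))]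
      have e2 : g = g' := by
        ext i
        by_cases hi : i ∈ T
        · rw [Finsupp.notMem_support_iff.1 (fun h => mem_compl.1 (hg h) hi),
            Finsupp.notMem_support_iff.1 (fun h => mem_compl.1 (hg' h) hi)]
        · have := congrFun e i
          simp only [φ, if_neg hi] at this
          omega
      rw [e1, e2]
  · intro w hw
    obtain ⟨⟨T, f, g⟩, hp, rfl⟩ := mem_image.1 hw
    obtain ⟨hT, hTR, ⟨hf, -⟩, hg, -⟩ := hA _ hp
    simp only at hT hTR hf hg
    refine ⟨?_, ?_, fun i hi => ?_⟩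
    · rw [← sum_add_sum_compl T, sum_eq_zero (fun i hi => by simp only [φ, if_pos hi]; omega),
        zero_add, sum_congr rfl (g := fun i => g i)
          (fun i hi => by simp only [φ, if_neg (mem_compl.1 hi)]; omega)]
      exact hg
    · rw [← sum_add_sum_compl T,
        sum_eq_zero (s := Tᶜ) (fun i hi => by simp only [φ, if_neg (mem_compl.1 hi)]; omega),
        add_zero, sum_congr rfl (g := fun i => f i + 1)
          (fun i hi => by simp only [φ, if_pos hi]; omega), sum_add_distrib]
      simp only [sum_const, smul_eq_mul, mul_one]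
      omega
    · simp only [φ, if_neg (fun h => hi (hT h))]
      omega

/-- add the coordinate `-∑ w` -/
theorem count_full (y R : ℕ) :
    ∃ W : Finset (Fin (y + 1) → ℤ), cnt y y R ≤ W.card ∧ ∀ w ∈ W, InP R w := by
  obtain ⟨W, h1, h2⟩ := count_box (κ := Fin y) univ R
  rw [card_univ, Fintype.card_fin] at h1
  refine ⟨W.image (hcountExt 0), ?_, fun w hw => ?_⟩
  · rwa [card_image_of_injective _ (hcountExt_inj 0)]
  · obtain ⟨v, hv, rfl⟩ := mem_image.1 hw
    exact hcountExt_inP 0 (h2 v hv).1 (h2 v hv).2.1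

/-- same with a prescribed nonnegative coordinate: eliminate a coordinate `l ≠ i0` -/
theorem count_half (y R : ℕ) (hy : 1 ≤ y) (i0 : Fin (y + 1)) :
    ∃ W : Finset (Fin (y + 1) → ℤ), cnt y (y - 1) R ≤ W.card ∧
      ∀ w ∈ W, InP R w ∧ 0 ≤ w i0 := by
  have : Nontrivial (Fin (y + 1)) := Fin.nontrivial_iff_two_le.2 (by omega)
  obtain ⟨l, hl⟩ := exists_ne i0
  obtain ⟨j0, hj0⟩ := Fin.exists_succAbove_eq hl.symm
  obtain ⟨W, h1, h2⟩ := count_box (κ := Fin y) (univ.erase j0) R
  rw [card_erase_of_mem (mem_univ _), card_univ, Fintype.card_fin] at h1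
  refine ⟨W.image (hcountExt l), ?_, fun w hw => ?_⟩
  · rwa [card_image_of_injective _ (hcountExt_inj l)]
  · obtain ⟨v, hv, rfl⟩ := mem_image.1 hw
    refine ⟨hcountExt_inP l (h2 v hv).1 (h2 v hv).2.1, ?_⟩
    rw [← hj0, hcountExt, Fin.insertNth_apply_succAbove]
    exact (h2 v hv).2.2 j0 (notMem_erase _ _)

end Crest.Agent.R022
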