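import Crest.Agent.R022.Defs

set_option autoImplicit false

namespace Crest.Agent.R022

open Finset

variable {Ω : Type*} [Field Ω] [Algebra ℂ Ω] {d : ℕ}

omit [Algebra ℂ Ω] in
open Pointwise in
theorem hmem_mem_pow (α : Fin d → Ω) (n : ℕ) (x : Ω) :
    x ∈ (Set.range α) ^ n ↔ ∃ u : Fin d → ℕ, ∑ i, u i = n ∧ x = ∏ i, α i ^ u i := by
  classical
  induction n generalizing x with
  | zero =>
    rw [pow_zero, Set.mem_one]
    constructor
    · rintro rfl
      exact ⟨0, by simp, by simp⟩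
    · rintro ⟨u, hu, rfl⟩
      rw [sum_eq_zero_iff] at hu
      exact prod_eq_one fun i hi => by rw [hu i hi, pow_zero]
  | succ n ih =>
    have key : ∀ (u : Fin d → ℕ) (j : Fin d),
        ∏ i, α i ^ (u + Pi.single j 1 : Fin d → ℕ) i = (∏ i, α i ^ u i) * α j := by
      intro u j
      simp only [Pi.add_apply, pow_add, prod_mul_distrib]
      congr 1
      rw [prod_eq_single j]
      · simp
      · intro i _ hi
        simp [Pi.single_eq_of_ne hi]
      · simp
    have key2 : ∀ (u : Fin d → ℕ) (j : Fin d),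
        ∑ i, (u + Pi.single j 1 : Fin d → ℕ) i = (∑ i, u i) + 1 := by
      intro u j
      simp [sum_add_distrib]
    rw [pow_succ, Set.mem_mul]
    constructor
    · rintro ⟨y, hy, _, ⟨j, rfl⟩, rfl⟩
      obtain ⟨u, hu, rfl⟩ := (ih y).1 hy
      exact ⟨u + Pi.single j 1, by rw [key2, hu], (key u j).symm⟩
    · rintro ⟨u, hu, rfl⟩
      obtain ⟨j, hj⟩ : ∃ j, u j ≠ 0 := by
        by_contra h
        push Not at h
        simp [h] at hu
      obtain ⟨u', rfl⟩ : ∃ u' : Fin d → ℕ, u = u' + Pi.single j 1 := by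
        refine ⟨fun i => u i - Pi.single (M := fun _ => ℕ) j 1 i, funext fun i => ?_⟩
        by_cases h : i = j
        · subst h
          simp only [Pi.add_apply, Pi.single_eq_same]
          omega
        · simp [Pi.single_eq_of_ne h]
      rw [key2] at hu
      exact ⟨_, (ih _).2 ⟨u', by omega, rfl⟩, _, ⟨j, rfl⟩, (key u' j).symm⟩

/-- `1 ∈ A ^ k * B` since `α_0 ^ k β_0 - α_1 ^ k β_1 = ϑ_1 - ϑ_0 ≠ 0`. -/
theorem V_mono {k : ℕ} {ϑ : Fin d → ℂ} {α β : Fin d → Ω} {N : Ω} (hs : HS k ϑ α β N)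
    (hd : 2 ≤ d) (e : ℕ) : V k α β e ≤ V k α β (e + 1) := by
  have h1 : (1 : Ω) ∈ (Submodule.span ℂ (Set.range α)) ^ k * Submodule.span ℂ (Set.range β) := by
    have hm : ∀ i, α i ^ k * β i ∈
        (Submodule.span ℂ (Set.range α)) ^ k * Submodule.span ℂ (Set.range β) := fun i =>
      Submodule.mul_mem_mul
        (Submodule.pow_mem_pow _ (Submodule.subset_span (Set.mem_range_self i)) k)
        (Submodule.subset_span (Set.mem_range_self i))
    set i0 : Fin d := ⟨0, by omega⟩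
    set i1 : Fin d := ⟨1, by omega⟩
    have hne : ϑ i1 - ϑ i0 ≠ 0 := by
      intro h
      have := hs.inj (sub_eq_zero.1 h)
      simp [i0, i1] at this
    have h2 := Submodule.smul_mem _ (ϑ i1 - ϑ i0)⁻¹ (Submodule.sub_mem _ (hm i0) (hm i1))
    rw [hs.rel, hs.rel, sub_sub_sub_cancel_left, ← map_sub, Algebra.smul_def, ← map_mul,
      inv_mul_cancel₀ hne, map_one] at h2
    exact h2
  intro x hx
  have h3 := Submodule.mul_mem_mul hx h1
  rw [mul_one] at h3
  have h4 : V k α β (e + 1) = V k α β e *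
      ((Submodule.span ℂ (Set.range α)) ^ k * Submodule.span ℂ (Set.range β)) := by
    unfold V
    rw [mul_add, mul_one, pow_add, pow_succ, mul_mul_mul_comm]
  rw [h4]
  exact h3

theorem V_mono' {k : ℕ} {ϑ : Fin d → ℂ} {α β : Fin d → Ω} {N : Ω} (hs : HS k ϑ α β N)
    (hd : 2 ≤ d) {e e' : ℕ} (h : e ≤ e') : V k α β e ≤ V k α β e' := by
  induction h with
  | refl => exact le_rfl
  | step _ ih => exact ih.trans (V_mono hs hd _)

/-- products of `k e` elements of `span α` and `e` elements of `span β` -/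
theorem monomial_mem_V (k : ℕ) (α β : Fin d → Ω) (e : ℕ) (u v : Fin d → ℕ)
    (hu : ∑ i, u i = k * e) (hv : ∑ i, v i = e) :
    (∏ i, α i ^ u i) * ∏ i, β i ^ v i ∈ V k α β e := by
  refine Submodule.mul_mem_mul ?_ ?_
  · rw [Submodule.span_pow]
    exact Submodule.subset_span ((hmem_mem_pow α _ _).2 ⟨u, hu, rfl⟩)
  · rw [Submodule.span_pow]
    exact Submodule.subset_span ((hmem_mem_pow β _ _).2 ⟨v, hv, rfl⟩)

/-- `V` is spanned by the monomials -/
theorem V_eq_span (k : ℕ) (α β : Fin d → Ω) (e : ℕ) :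
    V k α β e = Submodule.span ℂ {x | ∃ u v : Fin d → ℕ, ∑ i, u i = k * e ∧ ∑ i, v i = e ∧
      x = (∏ i, α i ^ u i) * ∏ i, β i ^ v i} := by
  unfold V
  rw [Submodule.span_pow, Submodule.span_pow, Submodule.span_mul_span]
  congr 1
  ext x
  simp only [Set.mem_mul, hmem_mem_pow, Set.mem_ofPred_eq]
  constructor
  · rintro ⟨_, ⟨u, hu, rfl⟩, _, ⟨v, hv, rfl⟩, rfl⟩
    exact ⟨u, v, hu, hv, rfl⟩
  · rintro ⟨u, v, hu, hv, rfl⟩
    exact ⟨_, ⟨u, hu, rfl⟩, _, ⟨v, hv, rfl⟩, rfl⟩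

/-- Torus monomials times products of `N - ϑ_i`.
Hint: `m i = ⌈(-w i)⁺ / k⌉` has `∑ m i ≤ e` (if `Rad d k e = 0` by truncation then `w = 0`) and
`m i0 = 0`; put the excess `e - ∑ m` on an index `i1 ≠ i0` to get `v`; `u i = (w i + k v i).toNat`;
then `α^u β^v = α^w ∏ (α_i ^ k β_i) ^ v_i`. -/
theorem lmon_mem {k : ℕ} {ϑ : Fin d → ℂ} {α β : Fin d → Ω} {N : Ω} (hs : HS k ϑ α β N)
    (hd : 2 ≤ d) (hk : 1 ≤ k) (e : ℕ) (w : Fin d → ℤ) (hw : InP (Rad d k e) w) (i0 : Fin d)
    (hi0 : 0 ≤ w i0) :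
    ∃ v : Fin d → ℕ, ∑ i, v i = e ∧ v i0 = 0 ∧
      lmon α w * ∏ i, (N - algebraMap ℂ Ω (ϑ i)) ^ v i ∈ V k α β e := by
  classical
  obtain ⟨hw0, hwR⟩ := hw
  obtain ⟨i1, hi1⟩ : ∃ i1 : Fin d, i1 ≠ i0 := by
    have : Nontrivial (Fin d) := Fin.nontrivial_iff_two_le.2 hd
    exact exists_ne i0
  set m : Fin d → ℕ := fun i => ((-w i).toNat + (k - 1)) / k with hm
  have hm1 : ∀ i, k * m i ≤ (-w i).toNat + (k - 1) := fun i => Nat.mul_div_le _ _
  have hm2 : ∀ i, (-w i).toNat ≤ k * m i := by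
    intro i
    have h1 := Nat.div_add_mod ((-w i).toNat + (k - 1)) k
    have h2 := Nat.mod_lt ((-w i).toNat + (k - 1)) (show 0 < k by omega)
    simp only [hm]
    omega
  have hm3 : ∀ i, (-w i).toNat = 0 → m i = 0 := by
    intro i hi
    simp only [hm, hi, zero_add]
    exact Nat.div_eq_of_lt (by omega)
  have hms : ∑ i, m i ≤ e := by
    by_cases hc : d * (k - 1) ≤ k * e
    · have h1 : k * ∑ i, m i ≤ ∑ i, ((-w i).toNat + (k - 1)) := by
        rw [mul_sum]
        exact sum_le_sum fun i _ => hm1 i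
      rw [sum_add_distrib, sum_const, card_univ, Fintype.card_fin, smul_eq_mul] at h1
      unfold Rad at hwR
      exact Nat.le_of_mul_le_mul_left (by omega : k * ∑ i, m i ≤ k * e) (by omega)
    · have h1 : ∑ i, (-w i).toNat = 0 := by
        unfold Rad at hwR
        omega
      rw [sum_eq_zero_iff] at h1
      rw [sum_eq_zero fun i hi => hm3 i (h1 i hi)]
      exact Nat.zero_le _
  set v : Fin d → ℕ := fun i => m i + if i = i1 then e - ∑ i, m i else 0 with hv
  have hvs : ∑ i, v i = e := by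
    simp only [hv, sum_add_distrib, sum_ite_eq', mem_univ, if_true]
    omega
  have hnn : ∀ i, 0 ≤ w i + k * v i := by
    intro i
    have h1 := hm2 i
    have h2 : k * m i ≤ k * v i := Nat.mul_le_mul_left _ (Nat.le_add_right _ _)
    have h3 : ((k * v i : ℕ) : ℤ) = k * v i := by push_cast; rfl
    omega
  set u : Fin d → ℕ := fun i => (w i + k * v i).toNat with hu
  have hu1 : ∀ i, (u i : ℤ) = w i + k * v i := fun i => Int.toNat_of_nonneg (hnn i)
  have hus : ∑ i, u i = k * e := by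
    have h1 : ((∑ i, u i : ℕ) : ℤ) = ((k * e : ℕ) : ℤ) := by
      rw [← hvs]
      push_cast
      simp only [hu1, sum_add_distrib, hw0, zero_add, mul_sum]
    exact_mod_cast h1
  refine ⟨v, hvs, ?_, ?_⟩
  · simp only [hv, if_neg hi1.symm, add_zero]
    exact hm3 i0 (by omega)
  · convert monomial_mem_V k α β e u v hus hvs using 1
    rw [lmon, ← prod_mul_distrib, ← prod_mul_distrib]
    refine prod_congr rfl fun i _ => ?_
    rw [← hs.rel, ← zpow_natCast (α i) (u i), hu1, zpow_add₀ (hs.a0 i), mul_pow, ← pow_mul,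
      mul_assoc, ← zpow_natCast (α i) (k * v i)]
    push_cast
    rfl

end Crest.Agent.R022
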