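import Crest.Agent.R022.HPlace
import Crest.Agent.R022.HMem

set_option autoImplicit false

namespace Crest.Agent.R022

open Finset

variable {Ω : Type*} [Field Ω] [Algebra ℂ Ω] {d : ℕ}

theorem hcurve_pair {x y : Ω} (hy : y ≠ 0) (h : Transcendental ℂ (x / y)) :
    LinearIndependent ℂ ![y, x] := by
  rw [LinearIndependent.pair_iff' hy]
  intro c hc
  apply h
  rw [← hc, Algebra.smul_def, mul_div_cancel_right₀ _ hy]
  exact isAlgebraic_algebraMap c

theorem hcurve_chain (𝒪 : ValuationSubring Ω) (hc : ∀ c : ℂ, algebraMap ℂ Ω c ∈ 𝒪)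
    (W : Submodule ℂ Ω) (f : ℕ → Ω) (n : ℕ) (h1 : ∀ s, s ≤ n → f s ∈ W ∧ f s ≠ 0)
    (h2 : ∀ s, s < n → ∃ x y : Ω, 𝒪.valuation y < 𝒪.valuation x ∧ f (s + 1) * x = f s * y) :
    ((n + 1 : ℕ) : Cardinal) ≤ Module.rank ℂ W := by
  have hstep : ∀ s, s < n → 𝒪.valuation (f (s + 1)) < 𝒪.valuation (f s) := by
    intro s hs
    obtain ⟨x, y, hxy, e⟩ := h2 s hs
    have e' := congrArg 𝒪.valuation e
    rw [map_mul, map_mul] at e'
    have h0 : 0 < 𝒪.valuation (f s) := by
      rw [zero_lt_iff, Valuation.ne_zero_iff]; exact (h1 s hs.le).2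
    have h3 : 𝒪.valuation (f (s + 1)) * 𝒪.valuation x < 𝒪.valuation (f s) * 𝒪.valuation x := by
      rw [e']; exact mul_lt_mul_of_pos_left hxy h0
    exact lt_of_mul_lt_mul_right' h3
  have hanti : StrictAnti fun s : Fin (n + 1) => 𝒪.valuation (f s) := by
    rw [Fin.strictAnti_iff_succ_lt]
    intro s
    simpa using hstep s s.2
  have hind := indep_of_val 𝒪 hc (fun s : Fin (n + 1) => f s)
    (fun s => (h1 s (Nat.lt_succ_iff.1 s.2)).2) hanti.injective
  have hind' : LinearIndependent ℂ (fun s : Fin (n + 1) =>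
      (⟨f s, (h1 s (Nat.lt_succ_iff.1 s.2)).1⟩ : W)) :=
    LinearIndependent.of_comp W.subtype hind
  simpa using hind'.cardinal_lift_le_rank

/-- If the `β_i` are proportional over `ℂ` then three of the `α_i` are linearly independent.
Hint: `α_i ^ k c_i β_0 = N - ϑ_i`; for three distinct indices `a = i`, `b = j`, `c` the right sides
satisfy a linear relation with nonzero coefficients.  If `α_c = λ α_a + μ α_b`, with `x = α_a / α_b`
transcendental we get the polynomial identity `c₁ x^k + c₂ + c₃ (λ x + μ)^k = 0`; the coefficient of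
`x` (`k ≥ 2`) gives `λ μ = 0`, and then `c₁ = 0` or `c₂ = 0`. -/
theorem three_indep {k : ℕ} {ϑ : Fin d → ℂ} {α β : Fin d → Ω} {N : Ω} (hs : HS k ϑ α β N)
    (hk : 2 ≤ k) (hd : 3 ≤ d) (i j : Fin d) (htr : Transcendental ℂ (α i / α j))
    (hβ : ∀ a b : Fin d, ∃ c : ℂ, β a = algebraMap ℂ Ω c * β b) :
    ∃ u : Fin 3 → Ω, (∀ l, u l ∈ Set.range α) ∧ LinearIndependent ℂ u := by
  have hij : i ≠ j := by
    rintro rfl
    rw [div_self (hs.a0 i)] at htr
    exact htr isAlgebraic_one
  obtain ⟨l, hli, hlj⟩ : ∃ l : Fin d, l ≠ i ∧ l ≠ j := by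
    by_contra hc
    push Not at hc
    have : (Finset.univ : Finset (Fin d)) ⊆ {i, j} := fun l _ => by
      by_cases hl : l = i
      · simp [hl]
      · simp [hc l hl]
    have h2 := (Finset.card_le_card this).trans Finset.card_le_two
    rw [Finset.card_univ, Fintype.card_fin] at h2
    omega
  obtain ⟨ci, hci⟩ := hβ i j
  obtain ⟨cl, hcl⟩ := hβ l j
  have hci0 : ci ≠ 0 := by rintro rfl; exact hs.b0 i (by simpa using hci)
  have hcl0 : cl ≠ 0 := by rintro rfl; exact hs.b0 l (by simpa using hcl)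
  have h1 : (ϑ j - ϑ l) * ci ≠ 0 := mul_ne_zero (sub_ne_zero.2 (hs.inj.ne hlj.symm)) hci0
  have h2 : ϑ l - ϑ i ≠ 0 := sub_ne_zero.2 (hs.inj.ne hli)
  have h3 : (ϑ i - ϑ j) * cl ≠ 0 := mul_ne_zero (sub_ne_zero.2 (hs.inj.ne hij)) hcl0
  have hrel : algebraMap ℂ Ω ((ϑ j - ϑ l) * ci) * α i ^ k + algebraMap ℂ Ω (ϑ l - ϑ i) * α j ^ k +
      algebraMap ℂ Ω ((ϑ i - ϑ j) * cl) * α l ^ k = 0 := by
    have e1 := hs.rel i
    have e2 := hs.rel j
    have e3 := hs.rel l
    rw [hci] at e1
    rw [hcl] at e3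
    refine mul_right_cancel₀ (hs.b0 j) ?_
    simp only [map_mul, map_sub]
    linear_combination (algebraMap ℂ Ω (ϑ j) - algebraMap ℂ Ω (ϑ l)) * e1 +
      (algebraMap ℂ Ω (ϑ l) - algebraMap ℂ Ω (ϑ i)) * e2 +
      (algebraMap ℂ Ω (ϑ i) - algebraMap ℂ Ω (ϑ j)) * e3
  generalize (ϑ j - ϑ l) * ci = c1 at h1 hrel
  generalize ϑ l - ϑ i = c2 at h2 hrel
  generalize (ϑ i - ϑ j) * cl = c3 at h3 hrel
  refine ⟨![α l, α j, α i], fun m => by fin_cases m <;> simp, ?_⟩
  refine (linearIndependent_finCons (x := α l) (v := ![α j, α i])).2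
    ⟨hcurve_pair (hs.a0 j) htr, fun hmem => ?_⟩
  rw [show Set.range ![α j, α i] = {α j, α i} by
    simp [Set.pair_comm], Submodule.mem_span_pair] at hmem
  obtain ⟨μ, lam, hl⟩ := hmem
  have ha0 := hs.a0 j
  let P : Polynomial ℂ := Polynomial.C c1 * Polynomial.X ^ k + Polynomial.C c2 +
    Polynomial.C c3 * (Polynomial.C lam * Polynomial.X + Polynomial.C μ) ^ k
  have hP : P = 0 := by
    refine transcendental_iff.1 htr P ?_
    have e : algebraMap ℂ Ω lam * (α i / α j) + algebraMap ℂ Ω μ = α l / α j := by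
      rw [← hl, Algebra.smul_def, Algebra.smul_def]
      field_simp
      ring
    simp only [P, map_add, map_mul, map_pow, Polynomial.aeval_C, Polynomial.aeval_X, e, div_pow]
    field_simp
    linear_combination hrel
  obtain ⟨n, rfl⟩ : ∃ n, k = n + 2 := ⟨k - 2, by omega⟩
  have f0 := congrArg (Polynomial.eval 0) hP
  have f1 := congrArg (Polynomial.eval 1) hP
  have f2 := congrArg (fun Q => Polynomial.eval 0 (Polynomial.derivative Q)) hP
  simp only [P, Polynomial.eval_add, Polynomial.eval_mul, Polynomial.eval_C, Polynomial.eval_pow,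
    Polynomial.eval_X, Polynomial.eval_zero] at f0 f1
  simp [P, Polynomial.derivative_pow, h3] at f2
  have hμ : μ ≠ 0 := by
    rintro rfl
    simp [h2] at f0
  have hn : ((n : ℂ) + 2) ≠ 0 := by exact_mod_cast (by omega : n + 2 ≠ 0)
  have hlam : lam = 0 := by tauto
  subst hlam
  simp at f0 f1
  exact h1 (by linear_combination f1 - f0)

/-- Curves.  Hint: `t` is transcendental (else `α i / α j` is algebraic).  Take the place of
`exists_place`; all elements of `A = span α`, `B = span β` and their quotients are algebraic over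
`ℂ[t]`.  If two `β`'s are independent: `a_0, a_1 ∈ A`, `b_0, b_1 ∈ B` with decreasing valuations, and
the `(k+1) e + 1` products `a_0^{ke-s} a_1^s b_0^e` (`s ≤ k e`), `a_1^{ke} b_0^{e-s} b_1^s` have strictly
decreasing valuations.  Otherwise `three_indep` gives `a_0, a_1, a_2` and `2 k e + 1` products
`a_0^{ke-s} a_1^s b^e`, `a_1^{ke-s} a_2^s b^e`.  Conclude with `indep_of_val`. -/
theorem rank_curve {k : ℕ} {ϑ : Fin d → ℂ} {α β : Fin d → Ω} {N : Ω} (hs : HS k ϑ α β N)
    (hk : 2 ≤ k) (hd : 3 ≤ d) (t : Ω) (halg : ∀ i, IsAlgebraic (Algebra.adjoin ℂ {t}) (α i))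
    (hN : IsAlgebraic (Algebra.adjoin ℂ {t}) N) (i j : Fin d)
    (htr : Transcendental ℂ (α i / α j)) (e : ℕ) :
    (((k + 1) * e + 1 : ℕ) : Cardinal) ≤ Module.rank ℂ (V k α β e) := by
  have ht : Transcendental ℂ t := by
    intro ht
    have : Algebra.IsIntegral ℂ (Algebra.adjoin ℂ {t}) :=
      Algebra.IsIntegral.adjoin (by simpa using ht.isIntegral)
    exact htr (by
      rw [div_eq_mul_inv]
      exact ((halg i).restrictScalars ℂ).mul ((halg j).restrictScalars ℂ).inv)
  obtain ⟨𝒪, hc, hO⟩ := exists_place t ht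
  have hcalg : ∀ c : ℂ, IsAlgebraic (Algebra.adjoin ℂ {t}) (algebraMap ℂ Ω c) := fun c =>
    isAlgebraic_algebraMap (algebraMap ℂ (Algebra.adjoin ℂ {t}) c)
  have hβalg : ∀ i, IsAlgebraic (Algebra.adjoin ℂ {t}) (β i) := by
    intro i
    have e : β i = (N - algebraMap ℂ Ω (ϑ i)) * (α i ^ k)⁻¹ := by
      rw [← hs.rel i]
      have := hs.a0 i
      field_simp
    rw [e]
    exact (hN.sub (hcalg _)).mul ((halg i).pow k).inv
  have hspan : ∀ γ : Fin d → Ω, (∀ i, IsAlgebraic (Algebra.adjoin ℂ {t}) (γ i)) →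
      ∀ x ∈ Submodule.span ℂ (Set.range γ), IsAlgebraic (Algebra.adjoin ℂ {t}) x := by
    intro γ hγ x hx
    induction hx using Submodule.span_induction with
    | mem x hx => obtain ⟨i, rfl⟩ := hx; exact hγ i
    | zero => exact isAlgebraic_zero
    | add x y _ _ h1 h2 => exact h1.add h2
    | smul c x _ h1 => rw [Algebra.smul_def]; exact (hcalg c).mul h1
  have hres : ∀ γ : Fin d → Ω, (∀ i, IsAlgebraic (Algebra.adjoin ℂ {t}) (γ i)) →
      ∀ x ∈ Submodule.span ℂ (Set.range γ), ∀ y ∈ Submodule.span ℂ (Set.range γ), y ≠ 0 →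
        x / y ∈ 𝒪 → ∃ c : ℂ, 𝒪.valuation (x / y - algebraMap ℂ Ω c) < 1 := by
    intro γ hγ x hx y hy _ hxy
    refine hO _ hxy ?_
    rw [div_eq_mul_inv]
    exact (hspan γ hγ x hx).mul (hspan γ hγ y hy).inv
  have hke : e ≤ k * e := Nat.le_mul_of_pos_left e (by omega)
  have hn : (k + 1) * e = k * e + e := by ring
  rw [hn]
  unfold V
  generalize k * e = m at hke
  by_cases hβ : ∀ a b : Fin d, ∃ c : ℂ, β a = algebraMap ℂ Ω c * β b
  · obtain ⟨u, hu, hind⟩ := three_indep hs hk hd i j htr hβ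
    obtain ⟨a, ha, hv⟩ := exists_strictAnti_val 𝒪 hc _ (hres α halg) u
      (fun l => Submodule.subset_span (hu l)) hind
    have hb : β i ∈ Submodule.span ℂ (Set.range β) := Submodule.subset_span ⟨i, rfl⟩
    refine hcurve_chain 𝒪 hc _ (fun s => a 0 ^ (m - s) * a 1 ^ (min s m - (s - m)) * a 2 ^ (s - m) *
      β i ^ e) _ (fun s hs' => ⟨?_, ?_⟩) (fun s hs' => ?_)
    · refine Submodule.mul_mem_mul ?_ (Submodule.pow_mem_pow _ hb e)
      have := Submodule.mul_mem_mul (Submodule.mul_mem_mul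
        (Submodule.pow_mem_pow _ (ha 0).1 (m - s))
        (Submodule.pow_mem_pow _ (ha 1).1 (min s m - (s - m))))
        (Submodule.pow_mem_pow _ (ha 2).1 (s - m))
      rwa [← pow_add, ← pow_add, show m - s + (min s m - (s - m)) + (s - m) = m by omega] at this
    · exact mul_ne_zero (mul_ne_zero (mul_ne_zero (pow_ne_zero _ (ha 0).2) (pow_ne_zero _ (ha 1).2))
        (pow_ne_zero _ (ha 2).2)) (pow_ne_zero _ (hs.b0 i))
    · by_cases h : s < m
      · refine ⟨a 0, a 1, hv (by decide), ?_⟩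
        rw [show m - s = (m - (s + 1)) + 1 by omega,
          show min (s + 1) m - (s + 1 - m) = min s m - (s - m) + 1 by omega,
          show s + 1 - m = s - m by omega]
        ring
      · refine ⟨a 1, a 2, hv (by decide), ?_⟩
        rw [show m - s = m - (s + 1) by omega,
          show min s m - (s - m) = min (s + 1) m - (s + 1 - m) + 1 by omega,
          show s + 1 - m = s - m + 1 by omega]
        ring
  · push Not at hβ
    obtain ⟨p, q, hpq⟩ := hβ
    have hindβ : LinearIndependent ℂ ![β q, β p] := by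
      rw [LinearIndependent.pair_iff' (hs.b0 q)]
      intro c hc'
      exact hpq c (by rw [← hc', Algebra.smul_def])
    obtain ⟨a, ha, hv⟩ := exists_strictAnti_val 𝒪 hc _ (hres α halg) ![α j, α i]
      (fun l => Submodule.subset_span (by fin_cases l <;> simp)) (hcurve_pair (hs.a0 j) htr)
    obtain ⟨b, hb, hw⟩ := exists_strictAnti_val 𝒪 hc _ (hres β hβalg) ![β q, β p]
      (fun l => Submodule.subset_span (by fin_cases l <;> simp)) hindβ
    refine hcurve_chain 𝒪 hc _ (fun s => a 0 ^ (m - s) * a 1 ^ (min s m) *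
      (b 0 ^ (e - (s - m)) * b 1 ^ (s - m))) _ (fun s hs' => ⟨?_, ?_⟩) (fun s hs' => ?_)
    · refine Submodule.mul_mem_mul ?_ ?_
      · have := Submodule.mul_mem_mul (Submodule.pow_mem_pow _ (ha 0).1 (m - s))
          (Submodule.pow_mem_pow _ (ha 1).1 (min s m))
        rwa [← pow_add, show m - s + min s m = m by omega] at this
      · have := Submodule.mul_mem_mul (Submodule.pow_mem_pow _ (hb 0).1 (e - (s - m)))
          (Submodule.pow_mem_pow _ (hb 1).1 (s - m))
        rwa [← pow_add, show e - (s - m) + (s - m) = e by omega] at this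
    · exact mul_ne_zero (mul_ne_zero (pow_ne_zero _ (ha 0).2) (pow_ne_zero _ (ha 1).2))
        (mul_ne_zero (pow_ne_zero _ (hb 0).2) (pow_ne_zero _ (hb 1).2))
    · by_cases h : s < m
      · refine ⟨a 0, a 1, hv (by decide), ?_⟩
        rw [show m - s = (m - (s + 1)) + 1 by omega, show min (s + 1) m = min s m + 1 by omega,
          show s + 1 - m = s - m by omega]
        ring
      · refine ⟨b 0, b 1, hw (by decide), ?_⟩
        rw [show m - s = m - (s + 1) by omega, show min (s + 1) m = min s m by omega,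
          show e - (s - m) = e - (s + 1 - m) + 1 by omega, show s + 1 - m = s - m + 1 by omega]
        ring

end Crest.Agent.R022
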