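import Crest.Agent.R022.Defs

set_option autoImplicit false

namespace Crest.Agent.R022

open Finset

variable {Ω : Type*} [Field Ω] [Algebra ℂ Ω] {d : ℕ}

/-- Laurent monomials in algebraically independent elements are linearly independent. -/
theorem lmon_indep {κ : Type*} [Fintype κ] (x : κ → Ω) (hx : AlgebraicIndependent ℂ x) :
    LinearIndependent ℂ (fun w : κ → ℤ => lmon x w) := by
  classical
  have hmon : LinearIndependent ℂ (fun a : κ →₀ ℕ => ∏ i, x i ^ a i) := by
    have h1 := (MvPolynomial.basisMonomials κ ℂ).linearIndependent.map'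
      (MvPolynomial.aeval x : MvPolynomial κ ℂ →ₐ[ℂ] Ω).toLinearMap
      (LinearMap.ker_eq_bot.2 hx)
    refine (congrArg (fun v => LinearIndependent ℂ v) ?_).mp h1
    funext a
    simp [MvPolynomial.aeval_monomial, Finsupp.prod_fintype]
  rw [linearIndependent_iff_finset_linearIndependent]
  intro s
  let N : ℕ := ∑ w ∈ s, ∑ i, (w i).natAbs
  have hN : ∀ w ∈ s, ∀ i, 0 ≤ w i + N := by
    intro w hw i
    have h1 : (w i).natAbs ≤ ∑ i, (w i).natAbs :=
      Finset.single_le_sum (f := fun i => (w i).natAbs) (fun _ _ => Nat.zero_le _) (mem_univ i)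
    have h2 : ∑ i, (w i).natAbs ≤ N :=
      Finset.single_le_sum (f := fun w : κ → ℤ => ∑ i, (w i).natAbs) (fun _ _ => Nat.zero_le _) hw
    omega
  let a : s → κ →₀ ℕ := fun w => Finsupp.equivFunOnFinite.symm fun i => (w.1 i + N).toNat
  have ha : Function.Injective a := by
    intro w w' h
    apply Subtype.ext
    funext i
    have h1 : (w.1 i + N).toNat = (w'.1 i + N).toNat := DFunLike.congr_fun h i
    have := hN _ w.2 i
    have := hN _ w'.2 i
    omega
  refine LinearIndependent.of_comp (LinearMap.mulRight ℂ (∏ i, x i ^ N)) ?_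
  refine (congrArg (fun v => LinearIndependent ℂ v) ?_).mpr (hmon.comp a ha)
  funext w
  simp only [Function.comp, LinearMap.mulRight_apply, lmon, ← Finset.prod_mul_distrib]
  refine Finset.prod_congr rfl fun i _ => ?_
  rw [← zpow_natCast, ← zpow_natCast, ← zpow_add₀ (hx.ne_zero i)]
  congr 1
  exact (Int.toNat_of_nonneg (hN _ w.2 i)).symm

/-- Choice of `y + 1` of the `α_i` with algebraically independent ratios.
Hint: fix an index `l`; all `x j` lie in the field generated by the ratios `α i / α l`; choose a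
transcendence basis (maximal algebraically independent subfamily) among the ratios; it has at least
`y` elements (`AlgebraicIndependent.matroid`, `IsTranscendenceBasis`, or
`Algebra.IsAlgebraic` + `trdeg` comparisons), and does not use the index `l` (ratio `1`). -/
theorem exists_ratio_basis (α : Fin d → Ω) (h0 : ∀ i, α i ≠ 0) (hd : 0 < d) {y : ℕ}
    (x : Fin y → Ω) (hx : AlgebraicIndependent ℂ x)
    (hmem : ∀ j, ∃ a ∈ Submodule.span ℂ (Set.range α), ∃ b ∈ Submodule.span ℂ (Set.range α),
      x j = a / b) :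
    ∃ e : Fin (y + 1) ↪ Fin d,
      AlgebraicIndependent ℂ (fun j : Fin y => α (e j.succ) / α (e 0)) := by
  classical
  let l : Fin d := ⟨0, hd⟩
  let ρ : Fin d → Ω := fun i => α i / α l
  let M := AlgebraicIndependent.matroid ℂ Ω
  obtain ⟨B, hB⟩ := M.exists_isBasis' (Set.range ρ)
  have hsp : ∀ a ∈ Submodule.span ℂ (Set.range α), a / α l ∈ Algebra.adjoin ℂ (Set.range ρ) := by
    intro a ha
    induction ha using Submodule.span_induction with
    | mem z hz =>
      obtain ⟨i, rfl⟩ := hz
      exact Algebra.subset_adjoin ⟨i, rfl⟩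
    | zero => simp
    | add a b _ _ ha hb => rw [add_div]; exact add_mem ha hb
    | smul c a _ ha => rw [smul_div_assoc]; exact Subalgebra.smul_mem _ ha c
  have hcl : Set.range x ⊆ M.closure (Set.range ρ) := by
    rintro _ ⟨j, rfl⟩
    rw [AlgebraicIndependent.matroid_closure_eq, SetLike.mem_coe, Subalgebra.mem_algebraicClosure]
    obtain ⟨a, ha, b, hb, hj⟩ := hmem j
    have h1 : IsAlgebraic (Algebra.adjoin ℂ (Set.range ρ)) (a / α l) :=
      isAlgebraic_algebraMap (⟨_, hsp a ha⟩ : Algebra.adjoin ℂ (Set.range ρ))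
    have h2 : IsAlgebraic (Algebra.adjoin ℂ (Set.range ρ)) (b / α l) :=
      isAlgebraic_algebraMap (⟨_, hsp b hb⟩ : Algebra.adjoin ℂ (Set.range ρ))
    have h3 := h1.mul (IsAlgebraic.inv_iff.2 h2)
    rw [← div_eq_mul_inv, div_div_div_cancel_right₀ (h0 l)] at h3
    rwa [hj]
  have hind : M.Indep (Set.range x) := hx.to_subtype_range
  have hcard : (y : ℕ∞) ≤ B.encard := by
    have h1 := hind.encard_le_eRk_of_subset hcl
    rw [M.eRk_closure_eq, ← hB.encard_eq_eRk, ← Set.image_univ,
      hx.injective.injOn.encard_image] at h1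
    simpa using h1
  obtain ⟨T, hTB, hT⟩ := Set.exists_subset_encard_eq hcard
  have hTfin : T.Finite := Set.finite_of_encard_eq_coe hT
  have hTi : AlgebraicIndependent ℂ ((↑) : T → Ω) := hB.indep.subset hTB
  have := hTfin.fintype
  have hTc : Fintype.card T = y := by
    rw [Set.encard_eq_coe_toFinset_card, Nat.cast_inj] at hT
    rw [← hT, Set.toFinset_card]
  let b : Fin y ≃ T := (Fintype.equivFinOfCardEq hTc).symm
  have hb : AlgebraicIndependent ℂ (fun j => (b j : Ω)) := hTi.comp b b.injective
  choose e he using fun j => hB.subset (hTB (b j).2)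
  have hel : ∀ j, e j ≠ l := by
    intro j hj
    apply hb.transcendental j
    change IsAlgebraic ℂ (b j : Ω)
    rw [← he j, hj]
    simp only [ρ, div_self (h0 l)]
    exact isAlgebraic_one
  have hei : Function.Injective e := fun j j' h => hb.injective (by
    rw [← he j, ← he j', h])
  refine ⟨⟨Fin.cons l e, Fin.cons_injective_iff.2 ⟨?_, hei⟩⟩, ?_⟩
  · rintro ⟨j, hj⟩
    exact hel j hj
  · convert hb using 1
    funext j
    simpa [ρ] using he j

theorem inP_extend {y R : ℕ} (e : Fin y ↪ Fin d) (w : Fin y → ℤ) (hw : InP R w) :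
    InP R (Function.extend e w 0) := by
  classical
  obtain ⟨h1, h2⟩ := hw
  constructor
  · rw [← h1]
    symm
    refine Fintype.sum_of_injective e e.injective _ _ (fun i hi => ?_) (fun j => ?_)
    · rw [Function.extend_apply' _ _ _ hi]; rfl
    · rw [e.injective.extend_apply]
  · refine le_of_eq_of_le ?_ h2
    symm
    refine Fintype.sum_of_injective e e.injective _ _ (fun i hi => ?_) (fun j => ?_)
    · rw [Function.extend_apply' _ _ _ hi]; rfl
    · rw [e.injective.extend_apply]

theorem lmon_extend {y : ℕ} (α : Fin d → Ω) (e : Fin y ↪ Fin d) (w : Fin y → ℤ) :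
    lmon α (Function.extend e w 0) = lmon (fun j => α (e j)) w := by
  classical
  unfold lmon
  symm
  refine Fintype.prod_of_injective e e.injective _ _ (fun i hi => ?_) (fun j => ?_)
  · rw [Function.extend_apply' _ _ _ hi]; simp
  · rw [e.injective.extend_apply]

theorem lmon_ratio {y : ℕ} (x : Fin (y + 1) → Ω) (h0 : x 0 ≠ 0) (w : Fin (y + 1) → ℤ)
    (hw : ∑ i, w i = 0) :
    lmon x w = lmon (fun j : Fin y => x j.succ / x 0) (fun j => w j.succ) := by
  unfold lmon
  rw [Fin.sum_univ_succ] at hw
  rw [Fin.prod_univ_succ, eq_neg_of_add_eq_zero_left hw]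
  simp only [div_zpow, Finset.prod_div_distrib]
  rw [zpow_neg, div_eq_mul_inv, mul_comm]
  congr 2
  induction (Finset.univ : Finset (Fin y)) using Finset.induction_on with
  | empty => simp
  | insert a s ha ih => rw [Finset.sum_insert ha, Finset.prod_insert ha, zpow_add₀ h0, ih]

theorem natAbs_le_of_inP {κ : Type*} [Fintype κ] {R : ℕ} {w : κ → ℤ} (hw : InP R w) (i : κ) :
    (w i).natAbs ≤ R := by
  classical
  obtain ⟨h1, h2⟩ := hw
  have h3 : ((∑ i, (-w i).toNat : ℕ) : ℤ) = ((∑ i, (w i).toNat : ℕ) : ℤ) := by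
    have : ∑ i, w i = ∑ i, (((w i).toNat : ℤ) - ((-w i).toNat : ℤ)) :=
      Finset.sum_congr rfl fun i _ => by omega
    rw [Finset.sum_sub_distrib] at this
    push_cast
    omega
  have h4 : (-w i).toNat ≤ ∑ i, (-w i).toNat :=
    Finset.single_le_sum (f := fun i => (-w i).toNat) (fun _ _ => Nat.zero_le _) (mem_univ i)
  have h5 : (w i).toNat ≤ ∑ i, (w i).toNat :=
    Finset.single_le_sum (f := fun i => (w i).toNat) (fun _ _ => Nat.zero_le _) (mem_univ i)
  omega

end Crest.Agent.R022
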