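import Crest.Agent.R022.HMem

set_option autoImplicit false

namespace Crest.Agent.R022

open Finset

variable {Ω : Type*} [Field Ω] [Algebra ℂ Ω] {d : ℕ}

open Polynomial in
theorem hlevel_li {K : Type*} [Field K] [Algebra ℂ K] {ι : Type*} [Fintype ι] (deg : ι → ℕ)
    (P : ι → K[X]) (hdeg : ∀ j, (P j).natDegree ≤ deg j)
    (hli : ∀ n, LinearIndependent ℂ (fun j : {j // deg j = n} => (P j).coeff n)) :
    LinearIndependent ℂ P := by
  classical
  rw [Fintype.linearIndependent_iff]
  intro g hg
  by_contra hne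
  push Not at hne
  obtain ⟨j0, hj0, hmax⟩ := exists_max_image (univ.filter fun j => g j ≠ 0) deg
    (by obtain ⟨j, hj⟩ := hne; exact ⟨j, by simp [hj]⟩)
  simp only [mem_filter, mem_univ, true_and] at hj0 hmax
  have h1 := congrArg (fun p : K[X] => p.coeff (deg j0)) hg
  simp only [finsetSum_coeff, coeff_smul, coeff_zero] at h1
  have h2 : ∑ j : {j // deg j = deg j0}, g j • (P j).coeff (deg j0) = 0 := by
    rw [← h1, ← Finset.sum_subtype (univ.filter fun j => deg j = deg j0) (by simp)
      (fun j => g j • (P j).coeff (deg j0))]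
    refine sum_subset (filter_subset _ _) fun j _ hj => ?_
    simp only [mem_filter, mem_univ, true_and] at hj
    by_cases hgj : g j = 0
    · rw [hgj, zero_smul]
    · have := hmax j hgj
      rw [coeff_eq_zero_of_natDegree_lt ((hdeg j).trans_lt (by omega)), smul_zero]
  exact hj0 (Fintype.linearIndependent_iff.1 (hli (deg j0)) (fun j => g j) h2 ⟨j0, rfl⟩)

/-- Vertical case: `N` is transcendental over `ℂ(α)`.
Hint: the elements `lmon α w * ∏ (N - ϑ_i) ^ v_i` (`e' ≤ e`, `w ∈ W e'`, `v` from `lmon_mem`, some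
coordinate of `w` is `≥ 0` as `∑ w = 0`) lie in `V e` (`V_mono'`); they are the values at `N` of
polynomials over `K₀ = ℂ(α)` of degree `e'` with leading coefficient `lmon α w`; look at the top
degree occurring in a linear relation. -/
theorem rank_vert {k : ℕ} {ϑ : Fin d → ℂ} {α β : Fin d → Ω} {N : Ω} (hs : HS k ϑ α β N)
    (hd : 2 ≤ d) (hk : 1 ≤ k)
    (hN : Transcendental (IntermediateField.adjoin ℂ (Set.range α)) N) (e : ℕ)
    (W : ℕ → Finset (Fin d → ℤ)) (hW : ∀ e' ≤ e, ∀ w ∈ W e', InP (Rad d k e') w)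
    (hind : ∀ e' ≤ e, LinearIndependent ℂ (fun w : W e' => lmon α w)) :
    ((∑ e' ∈ range (e + 1), (W e').card : ℕ) : Cardinal) ≤ Module.rank ℂ (V k α β e) := by
  classical
  set K₀ := IntermediateField.adjoin ℂ (Set.range α) with hK₀
  let α' : Fin d → K₀ := fun i => ⟨α i, IntermediateField.subset_adjoin _ _ ⟨i, rfl⟩⟩
  have hα' : ∀ w : Fin d → ℤ, algebraMap K₀ Ω (lmon α' w) = lmon α w := by
    intro w
    simp only [lmon, map_prod, map_zpow₀]
    rfl
  let S : Finset (Σ _ : ℕ, Fin d → ℤ) := (range (e + 1)).sigma W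
  have hS : ∀ j : S, j.1.1 ≤ e ∧ j.1.2 ∈ W j.1.1 := by
    intro j
    have := mem_sigma.1 j.2
    exact ⟨Nat.lt_succ_iff.1 (mem_range.1 this.1), this.2⟩
  have hex : ∀ j : S, ∃ v : Fin d → ℕ, ∑ i, v i = j.1.1 ∧
      lmon α j.1.2 * ∏ i, (N - algebraMap ℂ Ω (ϑ i)) ^ v i ∈ V k α β e := by
    intro j
    have hw := hW _ (hS j).1 _ (hS j).2
    obtain ⟨i0, hi0⟩ : ∃ i0, 0 ≤ j.1.2 i0 := by
      by_contra h
      push Not at h
      have h2 : ∑ i, j.1.2 i < ∑ _i : Fin d, (0 : ℤ) :=
        sum_lt_sum_of_nonempty ⟨⟨0, by omega⟩, mem_univ _⟩ fun i _ => h i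
      rw [hw.1] at h2
      simp at h2
    obtain ⟨v, hv, -, hmem⟩ := lmon_mem hs hd hk _ _ hw i0 hi0
    exact ⟨v, hv, V_mono' hs hd (hS j).1 hmem⟩
  choose v hv hmem using hex
  let Q : S → Polynomial K₀ := fun j =>
    ∏ i, (Polynomial.X - Polynomial.C (algebraMap ℂ K₀ (ϑ i))) ^ v j i
  have hQm : ∀ j, (Q j).Monic := fun j =>
    Polynomial.monic_prod_of_monic _ _ fun i _ => (Polynomial.monic_X_sub_C _).pow _
  have hQd : ∀ j, (Q j).natDegree = j.1.1 := by
    intro j
    rw [← hv j]
    simp only [Q]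
    rw [Polynomial.natDegree_prod_of_monic _ _ fun i _ => (Polynomial.monic_X_sub_C _).pow _]
    simp
  let P : S → Polynomial K₀ := fun j => Polynomial.C (lmon α' j.1.2) * Q j
  have hP : LinearIndependent ℂ P := by
    refine hlevel_li (fun j => j.1.1) P
      (fun j => (Polynomial.natDegree_C_mul_le _ _).trans (hQd j).le) fun n => ?_
    by_cases hn : n ≤ e
    · refine LinearIndependent.of_comp (IsScalarTower.toAlgHom ℂ K₀ Ω).toLinearMap ?_
      let φ : {j : S // j.1.1 = n} → W n := fun j =>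
        ⟨j.1.1.2, by have h := (hS j.1).2; rwa [j.2] at h⟩
      have hφ : Function.Injective φ := by
        intro j j' h
        refine Subtype.ext (Subtype.ext (Sigma.ext (j.2.trans j'.2.symm) (heq_of_eq ?_)))
        exact congrArg Subtype.val h
      convert (hind n hn).comp φ hφ using 1
      funext j
      have h1 : (Q j.1).coeff n = 1 := by
        have := (hQm j.1).coeff_natDegree
        rwa [hQd, j.2] at this
      simp only [Function.comp_apply, P, Polynomial.coeff_C_mul, h1, mul_one, φ]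
      exact hα' _
    · have : IsEmpty {j : S // j.1.1 = n} := ⟨fun j => hn (j.2 ▸ (hS j.1).1)⟩
      exact linearIndependent_empty_type
  have hinj : Function.Injective (Polynomial.aeval (R := K₀) N) :=
    transcendental_iff_injective.1 hN
  have hP2 := hP.map' ((Polynomial.aeval (R := K₀) N).restrictScalars ℂ).toLinearMap
    (LinearMap.ker_eq_bot.2 hinj)
  let f : S → V k α β e := fun j => ⟨_, hmem j⟩
  have hf : LinearIndependent ℂ f := by
    refine LinearIndependent.of_comp (V k α β e).subtype ?_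
    suffices h : (V k α β e).subtype ∘ f =
        ((Polynomial.aeval (R := K₀) N).restrictScalars ℂ).toLinearMap ∘ P by
      rw [h]
      exact hP2
    funext j
    simp only [Function.comp_apply, f, Submodule.subtype_apply, P, Q, AlgHom.toLinearMap_apply,
      AlgHom.coe_restrictScalars', map_mul, map_prod, map_pow, map_sub, Polynomial.aeval_C,
      Polynomial.aeval_X, hα']
    rfl
  have h3 := hf.cardinal_lift_le_rank
  rw [Cardinal.mk_fintype, Fintype.card_coe, card_sigma, Cardinal.lift_natCast,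
    Cardinal.lift_uzero] at h3
  exact h3

end Crest.Agent.R022
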