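import Crest.Agent.R022.HVal
import Crest.Agent.R022.HMem
import Crest.Agent.R022.HIndep
import Crest.Agent.R022.HCount

set_option autoImplicit false

namespace Crest.Agent.R022

open Finset

variable {Ω : Type*} [Field Ω] [Algebra ℂ Ω] {d : ℕ}

theorem hnonvert_common (𝒪 : ValuationSubring Ω) (hc : ∀ c : ℂ, algebraMap ℂ Ω c ∈ 𝒪)
    {ϑ : Fin d → ℂ} (hinj : Function.Injective ϑ) (hd : 2 ≤ d) (N : Ω) :
    ∃ (i0 : Fin d) (γ : 𝒪.ValueGroup), γ ≠ 0 ∧
      ∀ i, i ≠ i0 → 𝒪.valuation (N - algebraMap ℂ Ω (ϑ i)) = γ := by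
  by_cases hN : N ∈ 𝒪
  · have hle : ∀ i, 𝒪.valuation (N - algebraMap ℂ Ω (ϑ i)) ≤ 1 := fun i =>
      (𝒪.valuation_le_one_iff _).2 (𝒪.toSubring.sub_mem hN (hc _))
    by_cases hex : ∃ i0, 𝒪.valuation (N - algebraMap ℂ Ω (ϑ i0)) < 1
    · obtain ⟨i0, hi0⟩ := hex
      refine ⟨i0, 1, one_ne_zero, fun i hi => ?_⟩
      refine le_antisymm (hle i) (not_lt.1 fun hlt => ?_)
      have h1 : 𝒪.valuation (algebraMap ℂ Ω (ϑ i - ϑ i0)) = 1 :=
        hval_const 𝒪 hc (sub_ne_zero.2 fun h => hi (hinj h))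
      have h2 : algebraMap ℂ Ω (ϑ i - ϑ i0) =
          (N - algebraMap ℂ Ω (ϑ i0)) - (N - algebraMap ℂ Ω (ϑ i)) := by
        rw [map_sub]; ring
      rw [h2] at h1
      exact (𝒪.valuation.map_sub_lt hi0 hlt).ne h1
    · push Not at hex
      exact ⟨⟨0, by omega⟩, 1, one_ne_zero, fun i _ => le_antisymm (hle i) (hex i)⟩
  · have h1 : 1 < 𝒪.valuation N := not_le.1 fun h => hN ((𝒪.valuation_le_one_iff _).1 h)
    refine ⟨⟨0, by omega⟩, 𝒪.valuation N, (zero_lt_one.trans h1).ne', fun i _ => ?_⟩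
    exact 𝒪.valuation.map_sub_eq_of_lt_left
      (((𝒪.valuation_le_one_iff _).2 (hc _)).trans_lt h1)

/-- Lower bound from `y` independent ratios.
Hint: take `𝒪` from `exists_val_sep` for the ratios.  There is `i0 : Fin d` such that all
`N - ϑ_i`, `i ≠ i0`, have the same valuation `γ` (if `N ∉ 𝒪` all have the valuation of `N`; otherwise at
most one of them is a non-unit, as `ϑ_i - ϑ_j` is a unit).  Let `j0 : Fin (y+1)` with `e j0 = i0` if
`i0` is in the range of `e` (else arbitrary), `W` from `count_half`; for `w ∈ W` the element given by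
`lmon_mem` for `Function.extend e w 0` and `i0` has valuation `v (lmon ..) * γ ^ l`; these are
distinct, so `indep_of_val` applies. -/
theorem rank_nonvert {k : ℕ} {ϑ : Fin d → ℂ} {α β : Fin d → Ω} {N : Ω} (hs : HS k ϑ α β N)
    (hd : 2 ≤ d) (hk : 1 ≤ k) {y : ℕ} (hy : 1 ≤ y) (e : Fin (y + 1) ↪ Fin d)
    (hind : AlgebraicIndependent ℂ (fun j : Fin y => α (e j.succ) / α (e 0))) (l : ℕ) :
    ((cnt y (y - 1) (Rad d k l) : ℕ) : Cardinal) ≤ Module.rank ℂ (V k α β l) := by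
  classical
  obtain ⟨𝒪, hc, hsep⟩ := exists_val_sep _ hind (Rad d k l)
  obtain ⟨i0, γ, hγ, hi0⟩ := hnonvert_common 𝒪 hc hs.inj hd N
  obtain ⟨j0, hj0⟩ : ∃ j0 : Fin (y + 1), ∀ j, e j = i0 → j = j0 := by
    by_cases h : ∃ j, e j = i0
    · obtain ⟨j, hj⟩ := h
      exact ⟨j, fun j' hj' => e.injective (hj'.trans hj.symm)⟩
    · exact ⟨0, fun j hj => (h ⟨j, hj⟩).elim⟩
  obtain ⟨W, hWc, hW⟩ := count_half y (Rad d k l) hy j0
  have hex : ∀ w : W, ∃ v : Fin d → ℕ, ∑ i, v i = l ∧ v i0 = 0 ∧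
      lmon α (Function.extend e (w : Fin (y + 1) → ℤ) 0) *
        ∏ i, (N - algebraMap ℂ Ω (ϑ i)) ^ v i ∈ V k α β l := by
    intro w
    refine lmon_mem hs hd hk l _ (inP_extend e _ (hW w w.2).1) i0 ?_
    by_cases h : ∃ j, e j = i0
    · obtain ⟨j, hj⟩ := h
      rw [← hj, e.injective.extend_apply, hj0 j hj]
      exact (hW w w.2).2
    · rw [Function.extend_apply' _ _ _ h]; simp
  choose v hv1 hv2 hv3 using hex
  let u : W → Ω := fun w => lmon α (Function.extend e (w : Fin (y + 1) → ℤ) 0) *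
        ∏ i, (N - algebraMap ℂ Ω (ϑ i)) ^ v w i
  have hval : ∀ w : W, 𝒪.valuation (u w) =
      𝒪.valuation (lmon (fun j : Fin y => α (e j.succ) / α (e 0))
        (fun j => (w : Fin (y + 1) → ℤ) j.succ)) * γ ^ l := by
    intro w
    simp only [u]
    rw [map_mul, lmon_extend, lmon_ratio (fun j => α (e j)) (hs.a0 _) _ (hW w w.2).1.1, map_prod,
      ← hv1 w, ← Finset.prod_pow_eq_pow_sum]
    congr 1
    refine Finset.prod_congr rfl fun i _ => ?_
    rw [map_pow]
    by_cases hi : i = i0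
    · rw [hi, hv2 w, pow_zero, pow_zero]
    · rw [hi0 i hi]
  have hr0 : ∀ j : Fin y, α (e j.succ) / α (e 0) ≠ 0 := fun j => div_ne_zero (hs.a0 _) (hs.a0 _)
  have hu0 : ∀ w, u w ≠ 0 := by
    intro w h
    have := hval w
    rw [h, map_zero] at this
    exact mul_ne_zero (by simpa using hval_lmon_ne _ hr0 _) (pow_ne_zero _ hγ) this.symm
  have hinj : Function.Injective fun w => 𝒪.valuation (u w) := by
    intro w w' h
    simp only [hval] at h
    have h1 := mul_right_cancel₀ (pow_ne_zero _ hγ) h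
    have h2 := hsep _ _ (fun j => natAbs_le_of_inP (hW w w.2).1 _)
      (fun j => natAbs_le_of_inP (hW w' w'.2).1 _) h1
    apply Subtype.ext
    have h3 : ∀ j : Fin y, (w : Fin (y + 1) → ℤ) j.succ = (w' : Fin (y + 1) → ℤ) j.succ :=
      fun j => congrFun h2 j
    funext j
    refine Fin.cases ?_ h3 j
    have a1 := (hW w w.2).1.1
    have a2 := (hW w' w'.2).1.1
    rw [Fin.sum_univ_succ] at a1 a2
    simp only [h3] at a1
    linarith
  have hli := indep_of_val 𝒪 hc u hu0 hinj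
  have hli' : LinearIndependent ℂ (fun w : W => (⟨u w, hv3 w⟩ : V k α β l)) :=
    LinearIndependent.of_comp (V k α β l).subtype hli
  have := hli'.cardinal_lift_le_rank
  simp only [Cardinal.mk_fintype, Fintype.card_coe, Cardinal.lift_natCast, Cardinal.lift_uzero]
    at this
  exact le_trans (by exact_mod_cast hWc) this

end Crest.Agent.R022
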