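import Crest.Agent.R022.HVal

set_option autoImplicit false

namespace Crest.Agent.R022

open Finset

variable {Ω : Type*} [Field Ω] [Algebra ℂ Ω] {d : ℕ}

theorem hplace_strip (t x : Ω) (ht : t ≠ 0) (n : ℕ) (j0 : ℕ) (hj0 : j0 < n) :
    ∀ (m : ℕ) (q : ℕ → Polynomial ℂ), q j0 ≠ 0 → (q j0).natDegree = m →
      ∑ j ∈ range n, Polynomial.aeval t (q j) * x ^ j = 0 →
      ∃ q' : ℕ → Polynomial ℂ, (∃ j < n, (q' j).coeff 0 ≠ 0) ∧
        ∑ j ∈ range n, Polynomial.aeval t (q' j) * x ^ j = 0 := by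
  intro m
  induction m using Nat.strong_induction_on with
  | _ m ih =>
    intro q hq hm hsum
    by_cases h : ∃ j < n, (q j).coeff 0 ≠ 0
    · exact ⟨q, h, hsum⟩
    push Not at h
    have e : ∀ j < n, q j = Polynomial.X * (q j).divX := fun j hj => by
      have := Polynomial.X_mul_divX_add (q j)
      rw [h j hj, map_zero, add_zero] at this
      exact this.symm
    have hne : (q j0).divX ≠ 0 := fun h0 => hq (by rw [e j0 hj0, h0, mul_zero])
    refine ih (q j0).divX.natDegree ?_ (fun j => (q j).divX) hne rfl ?_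
    · have := congrArg Polynomial.natDegree (e j0 hj0)
      rw [Polynomial.natDegree_X_mul hne] at this
      omega
    · refine mul_left_cancel₀ ht ?_
      rw [mul_zero, ← hsum, Finset.mul_sum]
      refine Finset.sum_congr rfl fun j hj => ?_
      conv_rhs => rw [e j (mem_range.1 hj)]
      rw [map_mul, Polynomial.aeval_X, mul_assoc]

/-- A place of a function field in one variable with residue field `ℂ`.
Hint: `Ideal.image_subset_nonunits_valuationSubring` for `ℂ[t] ∋ t`; if `x ∈ 𝒪` is algebraic over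
`ℂ[t]`, take a relation `Φ(t, x) = 0`, strip the powers of `t`, reduce modulo the maximal ideal and
factor `Φ(0, T)` over `ℂ`. -/
theorem exists_place (t : Ω) (ht : Transcendental ℂ t) :
    ∃ 𝒪 : ValuationSubring Ω, (∀ c : ℂ, algebraMap ℂ Ω c ∈ 𝒪) ∧
      ∀ x : Ω, x ∈ 𝒪 → IsAlgebraic (Algebra.adjoin ℂ {t}) x →
        ∃ c : ℂ, 𝒪.valuation (x - algebraMap ℂ Ω c) < 1 := by
  classical
  have ht0 : t ≠ 0 := fun h => ht (h ▸ isAlgebraic_zero)
  let A : Subring Ω := (Algebra.adjoin ℂ {t}).toSubring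
  have htA : t ∈ A := Algebra.self_mem_adjoin_singleton ℂ t
  have hA : ∀ a ∈ Algebra.adjoin ℂ {t}, ∃ q : Polynomial ℂ, Polynomial.aeval t q = a := by
    intro a ha
    rw [Algebra.adjoin_singleton_eq_range_aeval] at ha
    exact ha
  have hI : Ideal.span {(⟨t, htA⟩ : A)} ≠ ⊤ := by
    rw [Ne, Ideal.eq_top_iff_one, Ideal.mem_span_singleton']
    rintro ⟨a, ha⟩
    obtain ⟨q, hq⟩ := hA a.1 a.2
    have h1 : a.1 * t = 1 := congrArg Subtype.val ha
    refine ht ⟨q * Polynomial.X - 1, fun h0 => ?_, ?_⟩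
    · have := congrArg (fun p => Polynomial.coeff p 0) h0
      simp at this
    · simp [hq, h1]
  obtain ⟨𝒪, h1, h2⟩ := Ideal.image_subset_nonunits_valuationSubring _ hI
  have hvt : 𝒪.valuation t < 1 :=
    (𝒪.mem_nonunits_iff).1 (h2 ⟨⟨t, htA⟩, Ideal.mem_span_singleton_self _, rfl⟩)
  have hc : ∀ c : ℂ, algebraMap ℂ Ω c ∈ 𝒪 := fun c =>
    h1 (Subalgebra.algebraMap_mem (Algebra.adjoin ℂ {t}) c)
  have hq1 : ∀ q : Polynomial ℂ, 𝒪.valuation (Polynomial.aeval t q) ≤ 1 := fun q =>
    (𝒪.valuation_le_one_iff _).2 (h1 (Polynomial.aeval_mem_adjoin_singleton ℂ t))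
  refine ⟨𝒪, hc, fun x hx halg => ?_⟩
  have hvx : 𝒪.valuation x ≤ 1 := (𝒪.valuation_le_one_iff _).2 hx
  obtain ⟨p, hp0, hp⟩ := halg
  choose q hq using fun j => hA (p.coeff j).1 (p.coeff j).2
  have hsum : ∑ j ∈ range (p.natDegree + 1), Polynomial.aeval t (q j) * x ^ j = 0 := by
    rw [← hp, Polynomial.aeval_eq_sum_range]
    refine Finset.sum_congr rfl fun j _ => ?_
    rw [hq j, Algebra.smul_def]
    rfl
  have hq0 : q p.natDegree ≠ 0 := fun h0 => by
    have := hq p.natDegree
    rw [h0, map_zero] at this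
    exact (Polynomial.leadingCoeff_ne_zero.2 hp0) (Subtype.ext this.symm)
  obtain ⟨q', ⟨j1, hj1, hne⟩, hsum'⟩ :=
    hplace_strip t x ht0 _ _ (Nat.lt_succ_self _) _ q hq0 rfl hsum
  set n := p.natDegree + 1
  let P : Polynomial ℂ := ∑ j ∈ range n, Polynomial.monomial j ((q' j).coeff 0)
  have hP0 : P ≠ 0 := fun h0 => by
    have := congrArg (fun p => Polynomial.coeff p j1) h0
    simp only [P, Polynomial.finsetSum_coeff, Polynomial.coeff_monomial, Finset.sum_ite_eq',
      mem_range, Polynomial.coeff_zero] at this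
    rw [if_pos hj1] at this
    exact hne this
  have hPv : 𝒪.valuation (Polynomial.aeval x P) < 1 := by
    have e : Polynomial.aeval x P =
        -(t * ∑ j ∈ range n, Polynomial.aeval t (q' j).divX * x ^ j) := by
      rw [eq_neg_iff_add_eq_zero, ← hsum', Finset.mul_sum, map_sum, ← Finset.sum_add_distrib]
      refine Finset.sum_congr rfl fun j _ => ?_
      conv_rhs => rw [← Polynomial.X_mul_divX_add (q' j)]
      simp only [Polynomial.aeval_monomial, map_add, map_mul, Polynomial.aeval_X,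
        Polynomial.aeval_C]
      ring
    rw [e, Valuation.map_neg, map_mul]
    refine lt_of_le_of_lt (mul_le_of_le_one_right' ?_) hvt
    refine Valuation.map_sum_le _ fun j _ => ?_
    rw [map_mul, map_pow]
    exact mul_le_one' (hq1 _) (pow_le_one' hvx _)
  by_contra hcon
  push Not at hcon
  have hlc : 1 ≤ 𝒪.valuation (algebraMap ℂ Ω P.leadingCoeff) := by
    have h3 : 𝒪.valuation (algebraMap ℂ Ω P.leadingCoeff) *
        𝒪.valuation (algebraMap ℂ Ω P.leadingCoeff⁻¹) = 1 := by
      rw [← map_mul, ← map_mul, mul_inv_cancel₀ (Polynomial.leadingCoeff_ne_zero.2 hP0), map_one,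
        map_one]
    rw [← h3]
    exact mul_le_of_le_one_right' ((𝒪.valuation_le_one_iff _).2 (hc _))
  have hfac := (IsAlgClosed.splits P).eq_prod_roots
  rw [hfac, map_mul, map_mul, Polynomial.aeval_C, map_multiset_prod, map_multiset_prod] at hPv
  refine absurd hPv (not_lt.2 (one_le_mul hlc (Multiset.one_le_prod_of_one_le fun y hy => ?_)))
  simp only [Multiset.map_map, Multiset.mem_map, Function.comp] at hy
  obtain ⟨r, -, rfl⟩ := hy
  simpa using hcon r

/-- In a space of functions whose quotients have residues in `ℂ`, independent elements can be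
replaced by elements with strictly decreasing valuations (Gaussian elimination, induction on `n`:
pick the element of largest valuation and subtract multiples of it from the others). -/
theorem exists_strictAnti_val (𝒪 : ValuationSubring Ω) (hc : ∀ c : ℂ, algebraMap ℂ Ω c ∈ 𝒪)
    (U : Submodule ℂ Ω)
    (hres : ∀ x ∈ U, ∀ y ∈ U, y ≠ 0 → x / y ∈ 𝒪 →
      ∃ c : ℂ, 𝒪.valuation (x / y - algebraMap ℂ Ω c) < 1)
    {n : ℕ} (u : Fin n → Ω) (hu : ∀ i, u i ∈ U) (hind : LinearIndependent ℂ u) :
    ∃ u' : Fin n → Ω, (∀ i, u' i ∈ U ∧ u' i ≠ 0) ∧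
      StrictAnti fun i => 𝒪.valuation (u' i) := by
  induction n generalizing U with
  | zero => exact ⟨u, fun i => i.elim0, fun i => i.elim0⟩
  | succ n ih =>
    obtain ⟨i0, -, hi0⟩ := Finset.exists_max_image (univ : Finset (Fin (n + 1)))
      (fun i => 𝒪.valuation (u i)) ⟨0, mem_univ _⟩
    have hne : u i0 ≠ 0 := hind.ne_zero i0
    have hpos : 0 < 𝒪.valuation (u i0) := zero_lt_iff.2 ((map_ne_zero _).2 hne)
    have hq : ∀ j : Fin n, u (i0.succAbove j) / u i0 ∈ 𝒪 := fun j => by
      rw [← 𝒪.valuation_le_one_iff, map_div₀, div_le_one₀ hpos]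
      exact hi0 _ (mem_univ _)
    choose c hcv using fun j => hres _ (hu _) _ (hu i0) hne (hq j)
    let U' : Submodule ℂ Ω :=
      { carrier := {x | x ∈ U ∧ 𝒪.valuation x < 𝒪.valuation (u i0)}
        add_mem' := fun ha hb => ⟨U.add_mem ha.1 hb.1, Valuation.map_add_lt _ ha.2 hb.2⟩
        zero_mem' := ⟨U.zero_mem, by simpa using hpos⟩
        smul_mem' := fun z x hx => ⟨U.smul_mem z hx.1, by
          rw [Algebra.smul_def, map_mul]
          exact lt_of_le_of_lt (mul_le_of_le_one_left' ((𝒪.valuation_le_one_iff _).2 (hc z)))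
            hx.2⟩ }
    obtain ⟨w, hw, hanti⟩ := ih U' (fun x hx y hy => hres x hx.1 y hy.1)
      (fun j => u (i0.succAbove j) - c j • u i0) (fun j => ⟨U.sub_mem (hu _) (U.smul_mem _ (hu _)),
        by
          have e : u (i0.succAbove j) - c j • u i0 =
              (u (i0.succAbove j) / u i0 - algebraMap ℂ Ω (c j)) * u i0 := by
            rw [Algebra.smul_def]; field_simp
          rw [e, map_mul]
          exact mul_lt_of_lt_one_left hpos (hcv j)⟩) (by
        rw [Fintype.linearIndependent_iff] at hind ⊢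
        intro g hg j
        have := hind (i0.insertNth (-∑ j, g j * c j) g) (by
          rw [Fin.sum_univ_succAbove _ i0, ← hg]
          simp only [Fin.insertNth_apply_same, Fin.insertNth_apply_succAbove, smul_sub,
            Finset.sum_sub_distrib, smul_smul, neg_smul, Finset.sum_smul]
          abel) (i0.succAbove j)
        simpa using this)
    refine ⟨Fin.cons (u i0) w, fun i => ?_, fun i j hij => ?_⟩
    · refine Fin.cases ⟨hu i0, hne⟩ (fun i => ⟨(hw i).1.1, (hw i).2⟩) i
    · obtain ⟨j, rfl⟩ := Fin.exists_succ_eq.2 (Fin.pos_iff_ne_zero.1 (lt_of_le_of_lt (Fin.zero_le _) hij))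
      revert hij
      refine Fin.cases (fun _ => (hw j).1.2) (fun i hij => hanti (Fin.succ_lt_succ_iff.1 hij)) i

end Crest.Agent.R022
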