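import Crest.Agent.R022.HIndep
import Crest.Agent.R022.HCount

set_option autoImplicit false

namespace Crest.Agent.R022

open Finset

variable {Ω : Type*} [Field Ω] [Algebra ℂ Ω] {d : ℕ}

/-- the torus monomials supported on the chosen `y + 1` indices are independent -/
theorem indep_V3 (α : Fin d → Ω) (h0 : ∀ i, α i ≠ 0) {y : ℕ} (e : Fin (y + 1) ↪ Fin d)
    (hind : AlgebraicIndependent ℂ (fun j : Fin y => α (e j.succ) / α (e 0))) (R : ℕ) :
    ∃ W : Finset (Fin d → ℤ), cnt y y R ≤ W.card ∧ (∀ w ∈ W, InP R w) ∧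
      LinearIndependent ℂ (fun w : W => lmon α w) := by
  classical
  obtain ⟨W₀, h1, h2⟩ := count_full y R
  have hinj : Function.Injective fun w : Fin (y + 1) → ℤ => Function.extend e w (0 : Fin d → ℤ) := by
    intro w w' h
    funext j
    have := congrFun h (e j)
    simpa only [e.injective.extend_apply] using this
  refine ⟨W₀.map ⟨_, hinj⟩, by rwa [card_map], fun w hw => ?_, ?_⟩
  · obtain ⟨w₀, hw₀, rfl⟩ := mem_map.1 hw
    exact inP_extend e w₀ (h2 w₀ hw₀)
  · have key : ∀ w : (W₀.map ⟨_, hinj⟩ : Finset (Fin d → ℤ)), ∃ w₀ ∈ W₀,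
        Function.extend e w₀ (0 : Fin d → ℤ) = w := fun w => mem_map.1 w.2
    choose g hg1 hg2 using key
    have hli := (lmon_indep _ hind).comp
      (fun w : (W₀.map ⟨_, hinj⟩ : Finset (Fin d → ℤ)) => fun j : Fin y => g w j.succ) (by
        intro w w' h
        have h3 : g w = g w' := by
          have e1 := (h2 _ (hg1 w)).1
          have e2 := (h2 _ (hg1 w')).1
          rw [Fin.sum_univ_succ] at e1 e2
          have h4 : ∀ j : Fin y, g w j.succ = g w' j.succ := fun j => congrFun h j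
          funext j
          refine Fin.cases ?_ h4 j
          simp only [h4] at e1
          linarith
        apply Subtype.ext
        rw [← hg2 w, ← hg2 w', h3])
    convert hli using 1
    funext w
    simp only [Function.comp]
    rw [← lmon_ratio (fun j => α (e j)) (h0 _) (g w) (h2 _ (hg1 w)).1, ← lmon_extend, hg2]

/-- elements `α_i Ψ(α)` with `deg Ψ ≤ δ` -/
def hv1_G (α : Fin d → Ω) (i : Fin d) (δ : ℕ) : Submodule ℂ Ω where
  carrier := {x | ∃ Ψ : MvPolynomial (Fin d) ℂ, Ψ.totalDegree ≤ δ ∧ x = α i * MvPolynomial.aeval α Ψ}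
  zero_mem' := ⟨0, by simp, by simp⟩
  add_mem' := by
    rintro _ _ ⟨Ψ, h1, rfl⟩ ⟨Ψ', h2, rfl⟩
    exact ⟨Ψ + Ψ', (MvPolynomial.totalDegree_add _ _).trans (max_le h1 h2), by
      rw [map_add, mul_add]⟩
  smul_mem' := by
    rintro c _ ⟨Ψ, h1, rfl⟩
    exact ⟨c • Ψ, (MvPolynomial.totalDegree_smul_le _ _).trans h1, by
      rw [map_smul, mul_smul_comm]⟩

theorem hv1_mono_mem (α : Fin d → Ω) (i : Fin d) (δ : ℕ) (μ : Fin d → ℕ) (h1 : 1 ≤ μ i)
    (h2 : ∑ j, μ j ≤ δ) : ∏ j, α j ^ μ j ∈ hv1_G α i δ := by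
  classical
  refine ⟨∏ j, MvPolynomial.X j ^ (μ j - if j = i then 1 else 0), ?_, ?_⟩
  · refine (MvPolynomial.totalDegree_finsetProd _ _).trans (le_trans (sum_le_sum fun j _ => ?_) h2)
    rw [MvPolynomial.totalDegree_X_pow]
    exact Nat.sub_le _ _
  · simp only [map_prod, map_pow, MvPolynomial.aeval_X]
    have : α i = ∏ j, α j ^ (if j = i then 1 else 0) := by
      simp [pow_ite]
    rw [this, ← prod_mul_distrib]
    refine prod_congr rfl fun j _ => ?_
    rw [← pow_add]
    congr 1
    split_ifs with h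
    · subst h; omega
    · omega

theorem hv1_term (α : Fin d → Ω) (h0 : ∀ i, α i ≠ 0) (j l : Fin d) (r r' : ℕ) (h : r' ≤ r) :
    (∏ t, α t ^ r) * (α l / α j) ^ r' =
      ∏ t, α t ^ (r + (if t = l then r' else 0) - (if t = j then r' else 0)) := by
  classical
  have e1 : ∀ s : Fin d, α s ^ r' = ∏ t, α t ^ (if t = s then r' else 0) := fun s => by
    simp [pow_ite]
  rw [div_pow, ← mul_div_assoc, div_eq_iff (pow_ne_zero _ (h0 j)), e1 l, e1 j, ← prod_mul_distrib,
    ← prod_mul_distrib]
  refine prod_congr rfl fun t _ => ?_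
  rw [← pow_add, ← pow_add]
  congr 1
  split_ifs <;> omega

theorem hv1_sum (j l : Fin d) (r r' : ℕ) (h : r' ≤ r) :
    ∑ t : Fin d, (r + (if t = l then r' else 0) - (if t = j then r' else 0)) = d * r := by
  classical
  have : ∑ t : Fin d, (r + (if t = l then r' else 0) - (if t = j then r' else 0)) +
      ∑ t : Fin d, (if t = j then r' else 0) =
      ∑ t : Fin d, (r + (if t = l then r' else 0)) := by
    rw [← sum_add_distrib]
    refine sum_congr rfl fun t _ => ?_
    split_ifs <;> omega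
  simp only [sum_add_distrib, sum_ite_eq', mem_univ, if_true, sum_const, card_univ,
    Fintype.card_fin, smul_eq_mul] at this
  omega

theorem hv1_li (α : Fin d → Ω) (h0 : ∀ i, α i ≠ 0) (l : Fin d → Fin d) (hl : ∀ i, l i ≠ i) (R : ℕ)
    (hc : ¬ Cert (d * R) α) :
    LinearIndependent ℂ (fun p : Option (Fin d × Fin R) =>
      p.elim (1 : Ω) fun q => (α (l q.1) / α q.1) ^ (q.2.val + 1)) := by
  classical
  rw [Fintype.linearIndependent_iff]
  intro g hg
  rw [Fintype.sum_option] at hg
  simp only [Option.elim] at hg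
  have hs : ∀ q, g (some q) = 0 := by
    by_contra hne
    push Not at hne
    obtain ⟨q₀, hq₀, hmax⟩ := (univ.filter fun q => g (some q) ≠ 0).exists_max_image
      (fun q => q.2.val) (by obtain ⟨q, hq⟩ := hne; exact ⟨q, by simpa using hq⟩)
    have hq₀' : g (some q₀) ≠ 0 := (mem_filter.1 hq₀).2
    have hmax' : ∀ q, g (some q) ≠ 0 → q.2.val ≤ q₀.2.val := fun q hq =>
      hmax q (by simpa using hq)
    set r := q₀.2.val + 1 with hr
    have hrR : d * r ≤ d * R := Nat.mul_le_mul_left _ q₀.2.2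
    set P : Ω := ∏ t, α t ^ r with hP
    rw [← add_sum_erase _ _ (mem_univ q₀)] at hg
    have hmem : P * (α (l q₀.1) / α q₀.1) ^ r ∈ hv1_G α q₀.1 (d * R) := by
      have e1 : P * (α (l q₀.1) / α q₀.1) ^ r = (-(g (some q₀))⁻¹) • (g none • P +
          ∑ q ∈ univ.erase q₀, g (some q) • (P * (α (l q.1) / α q.1) ^ (q.2.val + 1))) := by
        have e2 := congrArg (fun x => P * x) hg
        simp only [mul_add, mul_zero, mul_sum, mul_smul_comm, mul_one] at e2
        have e3 : g none • P + ∑ q ∈ univ.erase q₀,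
            g (some q) • (P * (α (l q.1) / α q.1) ^ (q.2.val + 1)) =
            -(g (some q₀) • (P * (α (l q₀.1) / α q₀.1) ^ r)) := by
          rw [eq_neg_iff_add_eq_zero, ← e2]; abel
        rw [e3, neg_smul_neg, smul_smul, inv_mul_cancel₀ hq₀', one_smul]
      rw [e1]
      refine Submodule.smul_mem _ _ (Submodule.add_mem _ (Submodule.smul_mem _ _ ?_)
        (Submodule.sum_mem _ fun q hq => ?_))
      · exact hv1_mono_mem α _ _ (fun _ => r) (by omega) (by simpa using hrR)
      · by_cases hq0 : g (some q) = 0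
        · rw [hq0, zero_smul]; exact Submodule.zero_mem _
        have hle := hmax' q hq0
        refine Submodule.smul_mem _ _ ?_
        rw [hP, hv1_term α h0 _ _ _ _ (by omega)]
        refine hv1_mono_mem α _ _ _ ?_ (by rw [hv1_sum _ _ _ _ (by omega)]; exact hrR)
        have hne := ne_of_mem_erase hq
        by_cases h1 : q₀.1 = q.1
        · have h2 : q.2.val ≠ q₀.2.val := fun h2 => hne (Prod.ext h1.symm (Fin.ext h2))
          rw [if_pos h1]
          omega
        · rw [if_neg h1]
          omega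
    obtain ⟨Ψ, h1, h2⟩ := hmem
    rw [hP, hv1_term α h0 _ _ _ _ le_rfl] at h2
    refine hc ⟨q₀.1, _, Ψ, ?_, by rw [hv1_sum _ _ _ _ le_rfl]; exact hrR, h1, h2⟩
    simp [(hl q₀.1).symm]
  simp only [hs, zero_smul, sum_const_zero, add_zero, smul_eq_zero, one_ne_zero, or_false] at hg
  rintro (_ | q)
  · exact hg
  · exact hs q

/-- Curves: `W = {0} ∪ {ρ (e_{l i} - e_i) | i, 1 ≤ ρ ≤ R}` with `l i ≠ i` (e.g. `finRotate`).
In a nontrivial relation take the largest `ρ ≥ 1` with a nonzero coefficient `c`, at the face `i`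
(if only the coefficient of `w = 0` is nonzero we get `c = 0`); multiply by `∏_j α_j ^ ρ`: the term
`(i, ρ)` becomes `c α^ν` with `ν i = 0`, all other terms are monomials of degree `d ρ` divisible by
`α_i`. -/
theorem indep_V1 (α : Fin d → Ω) (h0 : ∀ i, α i ≠ 0) (hd : 2 ≤ d) (R : ℕ) :
    Cert (d * R) α ∨ ∃ W : Finset (Fin d → ℤ), d * R + 1 ≤ W.card ∧ (∀ w ∈ W, InP R w) ∧
      LinearIndependent ℂ (fun w : W => lmon α w) := by
  classical
  by_cases hc : Cert (d * R) α
  · exact Or.inl hc
  right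
  haveI : Nontrivial (Fin d) := Fin.nontrivial_iff_two_le.2 hd
  choose l hl using fun i : Fin d => exists_ne i
  have hli := hv1_li α h0 l hl R hc
  let v : Option (Fin d × Fin R) → Fin d → ℤ := fun p => p.elim 0 fun q t =>
    (if t = l q.1 then ((q.2.val + 1 : ℕ) : ℤ) else 0) - if t = q.1 then ((q.2.val + 1 : ℕ) : ℤ) else 0
  have hv : ∀ p, lmon α (v p) =
      p.elim (1 : Ω) fun q => (α (l q.1) / α q.1) ^ (q.2.val + 1) := by
    rintro (_ | q)
    · simp [v, lmon]
    · simp only [v, lmon, Option.elim]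
      rw [prod_congr rfl fun t _ => zpow_sub₀ (h0 t) _ _, prod_div_distrib, div_pow]
      congr 1
      · rw [Fintype.prod_eq_single (l q.1) fun t ht => by rw [if_neg ht, zpow_zero], if_pos rfl,
          zpow_natCast]
      · rw [Fintype.prod_eq_single q.1 fun t ht => by rw [if_neg ht, zpow_zero], if_pos rfl,
          zpow_natCast]
  have hinj : Function.Injective v := fun p p' h =>
    hli.injective (by simp only [← hv, h])
  refine ⟨univ.map ⟨v, hinj⟩, by simp, fun w hw => ?_, ?_⟩
  · obtain ⟨p, -, rfl⟩ := mem_map.1 hw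
    rcases p with _ | q
    · exact ⟨by simp [v], by simp [v]⟩
    · refine ⟨by simp [v, sum_sub_distrib], ?_⟩
      simp only [Function.Embedding.coeFn_mk, v, Option.elim]
      rw [Fintype.sum_eq_single q.1 fun t ht => by
        rw [if_neg ht]
        split_ifs <;> omega]
      rw [if_neg (hl q.1).symm, if_pos rfl]
      have := q.2.2
      omega
  · have key : ∀ w : (univ.map ⟨v, hinj⟩ : Finset (Fin d → ℤ)), ∃ p, v p = w := fun w => by
      obtain ⟨p, -, hp⟩ := mem_map.1 w.2
      exact ⟨p, hp⟩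
    choose g hg using key
    have := hli.comp g fun w w' h => Subtype.ext (by rw [← hg w, ← hg w', h])
    convert this using 1
    funext w
    simp only [Function.comp]
    rw [← hv, hg]

theorem Cert.mono {K : Type*} [CommRing K] [Algebra ℂ K] {δ δ' : ℕ} {α : Fin d → K}
    (h : Cert δ α) (hδ : δ ≤ δ') : Cert δ' α := by
  obtain ⟨i, ν, Ψ, h1, h2, h3, h4⟩ := h
  exact ⟨i, ν, Ψ, h1, h2.trans hδ, h3.trans hδ, h4⟩

end Crest.Agent.R022
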