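import Crest.Agent.R022.Defs

set_option autoImplicit false

namespace Crest.Agent.R022

open Finset

variable {Ω : Type*} [Field Ω] [Algebra ℂ Ω] {d : ℕ}

/-- substitute `0` for the variable `i` -/
noncomputable def killv (i : Fin 4) : MvPolynomial (Fin 4) ℂ →ₐ[ℂ] MvPolynomial (Fin 4) ℂ :=
  MvPolynomial.aeval (fun j => if j = i then 0 else MvPolynomial.X j)

omit [Algebra ℂ Ω] in
theorem hv2a_dvd_of_prime {A : Type*} [CommRing A] [IsDomain A] (φ : Polynomial A →+* Ω)
    (hφ : ∀ a, φ (Polynomial.C a) = 0 → a = 0) {G : Polynomial A} (hG : Prime G) (h0 : φ G = 0)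
    (Θ : Polynomial A) (hΘ : φ Θ = 0) : G ∣ Θ := by
  have := AdjoinRoot.isDomain_of_prime hG
  by_contra hn
  have hr : AdjoinRoot.mk G Θ ≠ 0 := fun h => hn (AdjoinRoot.mk_eq_zero.1 h)
  let ψ : AdjoinRoot G →+* Ω := Ideal.Quotient.lift (Ideal.span {G}) φ (fun a ha => by
    obtain ⟨b, rfl⟩ := Ideal.mem_span_singleton'.1 ha
    rw [map_mul, h0, mul_zero])
  have hψ : ∀ q, ψ (AdjoinRoot.mk G q) = φ q := fun _ => rfl
  have halg : ∀ q : Polynomial A, IsAlgebraic A (AdjoinRoot.mk G q) := by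
    intro q
    induction q using Polynomial.induction_on' with
    | add p q hp hq => rw [map_add]; exact hp.add hq
    | monomial n a =>
      rw [← Polynomial.C_mul_X_pow_eq_monomial, map_mul, map_pow]
      exact (isAlgebraic_algebraMap a).mul ((AdjoinRoot.isAlgebraic_root hG.ne_zero).pow n)
  refine Ideal.comap_ne_bot_of_algebraic_mem (I := RingHom.ker ψ) hr
    (by rw [RingHom.mem_ker, hψ, hΘ]) (halg Θ) ?_
  rw [eq_bot_iff]
  intro a ha
  exact hφ a ha

/-- The ideal of relations of a hypersurface is principal.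
Hint: the kernel `𝔮` of `aeval x` is prime, so it contains an irreducible factor `G` of `Φ`.  `G`
involves `X 3` (the first three are independent).  In the domain `ℂ[X] ⧸ (G)` every element is
algebraic over `A = ℂ[X_0, X_1, X_2]`, so a nonzero ideal meets `A` nontrivially
(`Ideal.comap_ne_bot_of_algebraic_mem`); as `𝔮 ∩ A = 0`, `𝔮 = (G)`.  Alternatively use
`MvPolynomial.finSuccEquiv`-like isomorphisms, Gauss' lemma and `minpoly`. -/
theorem exists_generator (x : Fin 4 → Ω)
    (hind : AlgebraicIndependent ℂ (fun j : Fin 3 => x j.castSucc))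
    (Φ : MvPolynomial (Fin 4) ℂ) (hΦ0 : Φ ≠ 0) (hΦ : MvPolynomial.aeval x Φ = 0) :
    ∃ G : MvPolynomial (Fin 4) ℂ, Irreducible G ∧ G.totalDegree ≤ Φ.totalDegree ∧
      ∀ Θ : MvPolynomial (Fin 4) ℂ, MvPolynomial.aeval x Θ = 0 ↔ G ∣ Θ := by
  let φ : MvPolynomial (Fin 4) ℂ →+* Ω := (MvPolynomial.aeval x : _ →ₐ[ℂ] Ω)
  have hp : (RingHom.ker φ).IsPrime := RingHom.ker_isPrime φ
  obtain ⟨G, hG0, hG⟩ := hp.exists_mem_prime_of_ne_bot (fun h => hΦ0 (by
    have : Φ ∈ RingHom.ker φ := hΦ
    rwa [h] at this))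
  have hG0' : MvPolynomial.aeval x G = 0 := hG0
  let e : MvPolynomial (Fin 4) ℂ ≃ₐ[ℂ] Polynomial (MvPolynomial (Fin 3) ℂ) :=
    (MvPolynomial.renameEquiv ℂ finSuccEquivLast).trans (MvPolynomial.optionEquivLeft ℂ (Fin 3))
  have he : ∀ a : MvPolynomial (Fin 3) ℂ, e (MvPolynomial.rename Fin.castSucc a) = Polynomial.C a := by
    intro a
    induction a using MvPolynomial.induction_on with
    | C c => simp [e]
    | add p q hp hq => simp only [map_add, hp, hq]
    | mul_X p n hp =>
      rw [map_mul, map_mul, hp, map_mul]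
      simp [e]
  have key : ∀ Θ : MvPolynomial (Fin 4) ℂ, MvPolynomial.aeval x Θ = 0 → G ∣ Θ := by
    intro Θ hΘ
    have := hv2a_dvd_of_prime (φ.comp (e.symm : _ →+* _)) (fun a ha => by
      rw [← he] at ha
      have ha' : MvPolynomial.aeval x (MvPolynomial.rename Fin.castSucc a) = 0 := by
        simpa [φ] using ha
      rw [MvPolynomial.aeval_rename] at ha'
      exact (algebraicIndependent_iff.1 hind) a ha') (G := e G)
      ((MulEquiv.prime_iff e).2 hG) (by simpa [φ] using hG0') (e Θ) (by simpa [φ] using hΘ)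
    exact (map_dvd_iff e).1 this
  refine ⟨G, hG.irreducible, MvPolynomial.totalDegree_le_of_dvd_of_isDomain (key Φ hΦ) hΦ0,
    fun Θ => ⟨key Θ, ?_⟩⟩
  rintro ⟨q, rfl⟩
  rw [map_mul, hG0', zero_mul]

theorem hv2a_monomial (p : MvPolynomial (Fin 4) ℂ)
    (h : ∀ π : MvPolynomial (Fin 4) ℂ, Prime π → π ∣ p → ∃ j, π ∣ MvPolynomial.X j) :
    ∃ (c : ℂ) (ν : Fin 4 →₀ ℕ), p = MvPolynomial.monomial ν c := by
  induction p using UniqueFactorizationMonoid.induction_on_prime with
  | h₁ => exact ⟨0, 0, by simp⟩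
  | h₂ u hu =>
    obtain ⟨c, -, rfl⟩ := MvPolynomial.isUnit_iff_eq_C_of_isReduced.1 hu
    exact ⟨c, 0, rfl⟩
  | h₃ a π ha hπ ih =>
    obtain ⟨c, ν, rfl⟩ := ih fun ρ hρ hd => h ρ hρ (hd.mul_left _)
    obtain ⟨j, hj⟩ := h π hπ (dvd_mul_right _ _)
    obtain ⟨u, hu⟩ := (hπ.associated_of_dvd MvPolynomial.X_prime hj).symm
    obtain ⟨c', -, hc'⟩ := MvPolynomial.isUnit_iff_eq_C_of_isReduced.1 u.isUnit
    refine ⟨c' * c, Finsupp.single j 1 + ν, ?_⟩
    rw [← hu, hc', MvPolynomial.X, mul_assoc, MvPolynomial.C_mul_monomial,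
      MvPolynomial.monomial_mul, one_mul]

theorem hv2a_degreeOf (G : MvPolynomial (Fin 4) ℂ) (i : Fin 4) : (killv i G).degreeOf i = 0 := by
  induction G using MvPolynomial.induction_on with
  | C c => simp [killv, MvPolynomial.degreeOf_C]
  | add p q hp hq =>
    rw [map_add]
    have := MvPolynomial.degreeOf_add_le i (killv i p) (killv i q)
    rw [hp, hq] at this
    simpa using this
  | mul_X p n hp =>
    rw [map_mul]
    have := MvPolynomial.degreeOf_mul_le i (killv i p) (killv i (MvPolynomial.X n))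
    have h2 : (killv i (MvPolynomial.X n)).degreeOf i = 0 := by
      by_cases hn : n = i
      · simp [killv, hn]
      · simp [killv, hn, MvPolynomial.degreeOf_X, Ne.symm hn]
    omega

/-- If the restriction of `G` to the face `X_i = 0` is not a monomial, there is `h ≠ i` such that it
divides no nonzero polynomial of the form (monomial) × (polynomial not involving `X_i, X_h`).
Hint: `G_i = killv i G ≠ 0` has an irreducible factor `π` dividing no variable (otherwise `G_i` is a
unit times a product of variables; use `UniqueFactorizationMonoid.induction_on_prime` or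
`WfDvdMonoid`), `π` is not constant, so it involves a variable `h`, and `h ≠ i` as `G_i` does not
involve `X_i`.  If `π ∣ X^ν Θ` then `π ∣ Θ`, and `degreeOf h Θ = 0` forces `Θ = 0`
(`MvPolynomial.degreeOf_mul_eq`). -/
theorem face_pair (G : MvPolynomial (Fin 4) ℂ) (i : Fin 4)
    (hG : ¬ ∃ (c : ℂ) (ν : Fin 4 →₀ ℕ), killv i G = MvPolynomial.monomial ν c) :
    ∃ h : Fin 4, h ≠ i ∧ ∀ (ν : Fin 4 →₀ ℕ) (Θ : MvPolynomial (Fin 4) ℂ), Θ.degreeOf h = 0 →
      killv i G ∣ MvPolynomial.monomial ν 1 * Θ → Θ = 0 := by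
  have h0 : killv i G ≠ 0 := fun h => hG ⟨0, 0, by simp [h]⟩
  have h1 : ¬ ∀ π : MvPolynomial (Fin 4) ℂ, Prime π → π ∣ killv i G →
      ∃ j, π ∣ MvPolynomial.X j := fun h => hG (hv2a_monomial _ h)
  push Not at h1
  obtain ⟨π, hπ, hd, hX⟩ := h1
  have hv : ∃ h, π.degreeOf h ≠ 0 := by
    by_contra hc
    push Not at hc
    have : π.vars = ∅ := by
      rw [Finset.eq_empty_iff_forall_notMem]
      intro h hh
      exact MvPolynomial.mem_vars_iff_degreeOf_ne_zero.1 hh (hc h)
    rw [MvPolynomial.vars_eq_empty_iff_eq_C] at this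
    apply hπ.not_isUnit
    rw [this]
    refine IsUnit.map _ (isUnit_iff_ne_zero.2 fun h => hπ.ne_zero ?_)
    rw [this, h, map_zero]
  obtain ⟨h, hh⟩ := hv
  have hdeg : ∀ (n : Fin 4) (Θ : MvPolynomial (Fin 4) ℂ), Θ ≠ 0 → π ∣ Θ → Θ.degreeOf n = 0 →
      π.degreeOf n = 0 := by
    rintro n _ hΘ ⟨q, rfl⟩ hn
    rw [MvPolynomial.degreeOf_mul_eq hπ.ne_zero (right_ne_zero_of_mul hΘ)] at hn
    omega
  refine ⟨h, ?_, fun ν Θ hΘ hdv => ?_⟩
  · rintro rfl
    exact hh (hdeg _ _ h0 hd (hv2a_degreeOf G _))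
  · by_contra hne
    rcases hπ.dvd_or_dvd (hd.trans hdv) with h2 | h2
    · rw [MvPolynomial.monomial_eq, map_one, one_mul, Finsupp.prod] at h2
      obtain ⟨j, -, hj⟩ := (Prime.dvd_finsetProd_iff hπ _).1 h2
      exact hX j (hπ.dvd_of_dvd_pow hj)
    · exact hh (hdeg _ _ hne h2 hΘ)

/-- `G - killv i G` is divisible by `X i`, with control of the degree -/
theorem exists_sub_killv (G : MvPolynomial (Fin 4) ℂ) (i : Fin 4) :
    ∃ Ψ : MvPolynomial (Fin 4) ℂ, Ψ.totalDegree ≤ G.totalDegree ∧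
      G = killv i G + MvPolynomial.X i * Ψ := by
  classical
  have hm : ∀ (m : Fin 4 →₀ ℕ) (c : ℂ), MvPolynomial.monomial m c =
      killv i (MvPolynomial.monomial m c) + MvPolynomial.X i *
        (if m i = 0 then 0 else MvPolynomial.monomial (m - Finsupp.single i 1) c) := by
    intro m c
    by_cases h : m i = 0
    · rw [if_pos h, mul_zero, add_zero, killv, MvPolynomial.aeval_monomial,
        MvPolynomial.monomial_eq, MvPolynomial.algebraMap_eq]
      congr 1
      refine Finsupp.prod_congr fun j hj => ?_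
      have : j ≠ i := by
        rintro rfl
        exact (Finsupp.mem_support_iff.1 hj) h
      rw [if_neg this]
    · have hz : killv i (MvPolynomial.monomial m c) = 0 := by
        rw [killv, MvPolynomial.aeval_monomial, Finsupp.prod,
          Finset.prod_eq_zero (Finsupp.mem_support_iff.2 h) (by simp [h]), mul_zero]
      rw [if_neg h, hz, zero_add, MvPolynomial.X, MvPolynomial.monomial_mul, one_mul,
        add_tsub_cancel_of_le (Finsupp.single_le_iff.2 (Nat.pos_of_ne_zero h))]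
  refine ⟨∑ m ∈ G.support, if m i = 0 then 0 else
    MvPolynomial.monomial (m - Finsupp.single i 1) (G.coeff m), ?_, ?_⟩
  · refine (MvPolynomial.totalDegree_finsetSum _ _).trans (Finset.sup_le fun m hmG => ?_)
    split_ifs
    · simp
    · refine (MvPolynomial.totalDegree_monomial_le _ _).trans
        (le_trans ?_ (MvPolynomial.le_totalDegree hmG))
      rw [Finsupp.sum_fintype _ _ (fun _ => rfl), Finsupp.sum_fintype _ _ (fun _ => rfl)]
      exact Finset.sum_le_sum fun j _ => by simp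
  · conv_lhs => rw [G.as_sum]
    conv_rhs => enter [1]; rw [G.as_sum]
    rw [map_sum, Finset.mul_sum, ← Finset.sum_add_distrib]
    exact Finset.sum_congr rfl fun m _ => hm m _

end Crest.Agent.R022
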