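import Crest.Agent.R022.HV2a

set_option autoImplicit false

namespace Crest.Agent.R022

open Finset

variable {Ω : Type*} [Field Ω] [Algebra ℂ Ω] {d : ℕ}

theorem hv2b_killv_monomial (i : Fin 4) (ν : Fin 4 →₀ ℕ) (c : ℂ) :
    killv i (MvPolynomial.monomial ν c) = if ν i = 0 then MvPolynomial.monomial ν c else 0 := by
  classical
  rw [killv, MvPolynomial.aeval_monomial]
  split_ifs with h
  · rw [MvPolynomial.monomial_eq, MvPolynomial.algebraMap_eq]
    congr 1
    refine Finsupp.prod_congr fun j hj => ?_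
    rw [if_neg]
    rintro rfl
    exact Finsupp.mem_support_iff.1 hj h
  · rw [Finsupp.prod, prod_eq_zero (Finsupp.mem_support_iff.2 h), mul_zero]
    rw [if_pos rfl, zero_pow h]

theorem hv2b_indep (x : Fin 4 → Ω) (h0 : ∀ i, x i ≠ 0) (G : MvPolynomial (Fin 4) ℂ)
    (hG : ∀ Θ : MvPolynomial (Fin 4) ℂ, MvPolynomial.aeval x Θ = 0 → G ∣ Θ)
    (h : Fin 4 → Fin 4)
    (hh : ∀ i, ∀ (ν : Fin 4 →₀ ℕ) (Θ : MvPolynomial (Fin 4) ℂ), Θ.degreeOf (h i) = 0 →
      killv i G ∣ MvPolynomial.monomial ν 1 * Θ → Θ = 0)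
    (sg : ℕ → ℕ) (W : Finset (Fin 4 → ℤ))
    (hW : ∀ w ∈ W, ∃ (i : Fin 4) (ρ : ℕ), w i = -(ρ : ℤ) ∧ w (h i) = -(sg ρ : ℤ) ∧
      ∀ j, j ≠ i → -(ρ : ℤ) < w j) :
    LinearIndependent ℂ (fun w : W => lmon x w) := by
  classical
  rw [linearIndependent_iff']
  intro s g hsum w1 hw1
  by_contra hg1
  set S := s.filter fun w => g w ≠ 0 with hS
  have hsum' : ∑ w ∈ S, g w • lmon x w.1 = 0 := by
    rw [← hsum, hS, sum_filter]
    refine sum_congr rfl fun w _ => ?_
    split_ifs with h'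
    · rfl
    · rw [not_not.1 h', zero_smul]
  obtain ⟨⟨w0, i0⟩, hw0, hmin⟩ := exists_min_image (S ×ˢ (univ : Finset (Fin 4)))
    (fun q => q.1.1 q.2) ⟨(w1, 0), mem_product.2 ⟨mem_filter.2 ⟨hw1, hg1⟩, mem_univ _⟩⟩
  have hw0S : w0 ∈ S := (mem_product.1 hw0).1
  obtain ⟨i, ρ, hi1, -, hi3⟩ := hW w0.1 w0.2
  have hlow : ∀ w ∈ S, ∀ j, -(ρ : ℤ) ≤ w.1 j := by
    intro w hw j
    have a1 : w0.1 i0 ≤ w.1 j := hmin (w, j) (mem_product.2 ⟨hw, mem_univ _⟩)
    by_cases hi : i0 = i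
    · rw [← hi1, ← hi]; exact a1
    · exact (hi3 i0 hi).le.trans a1
  have hface : ∀ w ∈ S, w.1 i = -(ρ : ℤ) → w.1 (h i) = -(sg ρ : ℤ) := by
    intro w hw hwi
    obtain ⟨i', ρ', a1, a2, a3⟩ := hW w.1 w.2
    have a4 := hlow w hw i'
    have hi : i = i' := by
      by_contra hne
      have := a3 i hne
      omega
    subst hi
    have hρ : ρ = ρ' := by omega
    rw [hρ]; exact a2
  let ν : W → (Fin 4 →₀ ℕ) := fun w => Finsupp.equivFunOnFinite.symm fun j => (w.1 j + ρ).toNat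
  have hν : ∀ w ∈ S, ∀ j, (ν w j : ℤ) = w.1 j + ρ := by
    intro w hw j
    have := hlow w hw j
    simp only [ν, Finsupp.equivFunOnFinite_symm_apply_apply]
    omega
  have h1 : MvPolynomial.aeval x (∑ w ∈ S, MvPolynomial.monomial (ν w) (g w)) = 0 := by
    rw [map_sum, ← mul_zero (∏ j, x j ^ (ρ : ℤ)), ← hsum', mul_sum]
    refine sum_congr rfl fun w hw => ?_
    rw [MvPolynomial.aeval_monomial, Finsupp.prod_fintype _ _ (fun _ => pow_zero _),
      mul_smul_comm, Algebra.smul_def, lmon, ← prod_mul_distrib]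
    congr 1
    refine prod_congr rfl fun j _ => ?_
    rw [← zpow_natCast, hν w hw j, zpow_add₀ (h0 j), mul_comm]
  have h2 := map_dvd (killv i) (hG _ h1)
  set S' := S.filter fun w => ν w i = 0 with hS'
  have h3 : killv i (∑ w ∈ S, MvPolynomial.monomial (ν w) (g w)) =
      ∑ w ∈ S', MvPolynomial.monomial (ν w) (g w) := by
    rw [map_sum, hS', sum_filter (s := S)]
    exact sum_congr rfl fun w _ => hv2b_killv_monomial _ _ _
  have h4 : ∑ w ∈ S', MvPolynomial.monomial (ν w) (g w) =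
      MvPolynomial.monomial (Finsupp.single (h i) (ρ - sg ρ)) 1 *
        ∑ w ∈ S', MvPolynomial.monomial ((ν w).erase (h i)) (g w) := by
    rw [mul_sum]
    refine sum_congr rfl fun w hw => ?_
    obtain ⟨hwS, hwi⟩ := mem_filter.1 hw
    have a1 := hν w hwS i
    have a2 := hν w hwS (h i)
    have a3 := hface w hwS (by omega)
    have a4 : ρ - sg ρ = ν w (h i) := by omega
    rw [MvPolynomial.monomial_mul, one_mul, a4, Finsupp.single_add_erase]
  have h5 := hh i (Finsupp.single (h i) (ρ - sg ρ))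
    (∑ w ∈ S', MvPolynomial.monomial ((ν w).erase (h i)) (g w)) (by
      refine Nat.eq_zero_of_le_zero ((MvPolynomial.degreeOf_sum_le _ _ _).trans
        (Finset.sup_le fun w _ => ?_))
      refine MvPolynomial.degreeOf_le_iff.2 fun m hm => ?_
      rw [mem_singleton.1 (MvPolynomial.support_monomial_subset hm), Finsupp.erase_same])
    (by rw [← h4, ← h3]; exact h2)
  rw [h5, mul_zero] at h4
  have hw0S' : w0 ∈ S' := mem_filter.2 ⟨hw0S, by have := hν w0 hw0S i; omega⟩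
  have h6 := congrArg (MvPolynomial.coeff (ν w0)) h4
  rw [MvPolynomial.coeff_sum, sum_eq_single w0, MvPolynomial.coeff_monomial, if_pos rfl,
    MvPolynomial.coeff_zero] at h6
  · exact (mem_filter.1 hw0S).2 h6
  · intro w hw hne
    rw [MvPolynomial.coeff_monomial, if_neg]
    intro e
    refine hne (Subtype.ext (funext fun j => ?_))
    have a1 := hν w (mem_filter.1 hw).1 j
    have a2 := hν w0 hw0S j
    rw [e] at a1
    omega
  · exact fun h' => absurd hw0S' h'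

/-- Face monomials on a surface in four variables.
For each face `i` let `h i ≠ i` be given by `face_pair` and let `j, l` be the two remaining indices.
`W = ⋃_{i, 1 ≤ ρ ≤ R} W(i, ρ)`, where `W(i, ρ)` consists of the `w` with `w i = -ρ`,
`w (h i) = -sg2 R ρ`, `w j, w l ≥ -bb2 R ρ`, `w j + w l = ρ + sg2 R ρ`; it has
`ρ + sg2 + 2 bb2 + 1` elements, `min w = -ρ` is attained only at `i` (as `sg2, bb2 ≤ ρ - 1`), so the
pieces are disjoint; the negative part is `≤ ρ + sg2 + bb2 ≤ R` (at most one of `w j, w l` is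
negative).  Independence: in a nontrivial relation take the largest `ρ` with a nonzero coefficient, on
the face `i`; multiply by `∏ x_j ^ ρ` to get a polynomial `Θ₀` with `aeval x Θ₀ = 0`, so `G ∣ Θ₀` and
`killv i G ∣ killv i Θ₀ = X_h ^ (ρ - sg2) * Θ` with `Θ ≠ 0` not involving `X_h`. -/
theorem indep_V2_four (x : Fin 4 → Ω) (h0 : ∀ i, x i ≠ 0) (G : MvPolynomial (Fin 4) ℂ)
    (hG : ∀ Θ : MvPolynomial (Fin 4) ℂ, MvPolynomial.aeval x Θ = 0 → G ∣ Θ)
    (hface : ∀ i, ¬ ∃ (c : ℂ) (ν : Fin 4 →₀ ℕ), killv i G = MvPolynomial.monomial ν c) (R : ℕ) :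
    ∃ W : Finset (Fin 4 → ℤ), N2 R ≤ W.card ∧ (∀ w ∈ W, InP R w) ∧
      LinearIndependent ℂ (fun w : W => lmon x w) := by
  classical
  choose h hhi hh using fun i => face_pair G i (hface i)
  have hperm : ∀ i j : Fin 4, j ≠ i → ∃ e : Equiv.Perm (Fin 4), e 0 = i ∧ e 1 = j := by decide
  choose e he0 he1 using fun i => hperm i (h i) (hhi i)
  let I : Finset (Fin 4 × (Σ _ : ℕ, ℕ)) :=
    univ ×ˢ (Icc 1 R).sigma fun ρ => range (ρ + sg2 R ρ + 2 * bb2 R ρ + 1)
  let v : ℕ → ℕ → Fin 4 → ℤ := fun ρ t =>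
    ![-(ρ : ℤ), -(sg2 R ρ : ℤ), (t : ℤ) - bb2 R ρ, (ρ : ℤ) + sg2 R ρ + bb2 R ρ - t]
  let φ : Fin 4 × (Σ _ : ℕ, ℕ) → Fin 4 → ℤ := fun q j => v q.2.1 q.2.2 ((e q.1).symm j)
  have hI : ∀ q ∈ I, 1 ≤ q.2.1 ∧ q.2.1 ≤ R ∧
      q.2.2 < q.2.1 + sg2 R q.2.1 + 2 * bb2 R q.2.1 + 1 := by
    intro q hq
    simp only [I, mem_product, mem_univ, true_and, mem_sigma, mem_Icc, mem_range] at hq
    exact ⟨hq.1.1, hq.1.2, hq.2⟩
  have hφ : ∀ q k, φ q (e q.1 k) = v q.2.1 q.2.2 k := fun q k => by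
    simp only [φ, Equiv.symm_apply_apply]
  have hP : ∀ q ∈ I, φ q q.1 = -(q.2.1 : ℤ) ∧ φ q (h q.1) = -(sg2 R q.2.1 : ℤ) ∧
      ∀ j, j ≠ q.1 → -(q.2.1 : ℤ) < φ q j := by
    intro q hq
    obtain ⟨h1, h2, h3⟩ := hI q hq
    refine ⟨?_, ?_, fun j hj => ?_⟩
    · have := hφ q 0
      rwa [he0] at this
    · have := hφ q 1
      rwa [he1] at this
    · obtain ⟨k, rfl⟩ := (e q.1).surjective j
      have hk : k ≠ 0 := fun h' => hj (by rw [h', he0])
      rw [hφ]
      have h4 : sg2 R q.2.1 ≤ q.2.1 - 1 := min_le_left _ _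
      have h5 : bb2 R q.2.1 ≤ q.2.1 - 1 := min_le_left _ _
      fin_cases k
      · exact absurd rfl hk
      · simp only [v]; simp; omega
      · simp only [v]; simp; omega
      · simp only [v]; simp; omega
  refine ⟨I.image φ, ?_, ?_, ?_⟩
  · rw [card_image_of_injOn]
    · simp only [I, card_product, card_univ, Fintype.card_fin, card_sigma, card_range, N2, le_refl]
    · rintro ⟨i, ρ, t⟩ hq ⟨i', ρ', t'⟩ hq' hφφ
      obtain ⟨h1, -, h3⟩ := hP _ hq
      obtain ⟨h1', -, h3'⟩ := hP _ hq'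
      simp only at h1 h3 h1' h3'
      have hi : i = i' := by
        by_contra hne
        have a1 := h3 i' (Ne.symm hne)
        have a2 := h3' i hne
        rw [hφφ] at h1 a1
        omega
      subst hi
      have hρ : ρ = ρ' := by
        rw [hφφ] at h1
        omega
      subst hρ
      have a1 := hφ (i, ⟨ρ, t⟩) 2
      have a2 := hφ (i, ⟨ρ, t'⟩) 2
      rw [hφφ] at a1
      simp only [v] at a1 a2
      have ht : t = t' := by
        have := a1.symm.trans a2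
        simpa using this
      rw [ht]
  · intro w hw
    obtain ⟨q, hq, rfl⟩ := mem_image.1 hw
    obtain ⟨h1, h2, h3⟩ := hI q hq
    have h4 : sg2 R q.2.1 ≤ R + 1 - 2 * q.2.1 := min_le_right _ _
    have h5 : bb2 R q.2.1 ≤ R - q.2.1 - sg2 R q.2.1 := min_le_right _ _
    constructor
    · rw [← Equiv.sum_comp (e q.1)]
      simp only [hφ, Fin.sum_univ_four, v]
      simp only [Matrix.cons_val_zero, Matrix.cons_val_one, Matrix.cons_val]
      ring
    · rw [← Equiv.sum_comp (e q.1)]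
      simp only [hφ, Fin.sum_univ_four, v]
      simp only [Matrix.cons_val_zero, Matrix.cons_val_one, Matrix.cons_val]
      omega
  · refine hv2b_indep x h0 G hG h hh (sg2 R) _ fun w hw => ?_
    obtain ⟨q, hq, rfl⟩ := mem_image.1 hw
    exact ⟨q.1, q.2.1, hP q hq⟩

end Crest.Agent.R022
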