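import Crest.Agent.R022.HV2b
import Crest.Agent.R022.HIndep

set_option autoImplicit false

namespace Crest.Agent.R022

open Finset

variable {Ω : Type*} [Field Ω] [Algebra ℂ Ω] {d : ℕ}

omit [Algebra ℂ Ω] in
theorem hv2c_prod_zpow {κ : Type*} (s : Finset κ) {N : Ω} (hN : N ≠ 0) (w : κ → ℤ) :
    ∏ j ∈ s, N ^ w j = N ^ ∑ j ∈ s, w j := by
  classical
  induction s using Finset.induction_on with
  | empty => simp
  | insert a s ha ih => rw [prod_insert ha, sum_insert ha, ih, zpow_add₀ hN]

/-- the substitution `X j ↦ T * a j` -/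
noncomputable def hv2cPhi {K : Type*} [Field K] [Algebra ℂ K] (a : Fin 4 → K) :
    MvPolynomial (Fin 4) ℂ →ₐ[ℂ] Polynomial K :=
  MvPolynomial.aeval (fun j => Polynomial.X * Polynomial.C (a j))

theorem hv2c_phi_monomial (a : Fin 4 → Ω) (ν : Fin 4 →₀ ℕ) (c : ℂ) :
    hv2cPhi a (MvPolynomial.monomial ν c) =
      Polynomial.monomial (∑ j, ν j) (MvPolynomial.aeval a (MvPolynomial.monomial ν c)) := by
  rw [hv2cPhi, MvPolynomial.aeval_monomial, MvPolynomial.aeval_monomial,
    Finsupp.prod_fintype _ _ (by simp), Finsupp.prod_fintype _ _ (by simp)]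
  simp only [mul_pow, prod_mul_distrib, prod_pow_eq_pow_sum]
  rw [← Polynomial.C_mul_X_pow_eq_monomial, map_mul, map_prod, Polynomial.algebraMap_apply]
  simp only [map_pow]
  ring

theorem hv2c_phi_coeff (a : Fin 4 → Ω) (k : ℕ) (Ψ : MvPolynomial (Fin 4) ℂ) :
    (hv2cPhi a Ψ).coeff k = MvPolynomial.aeval a (MvPolynomial.homogeneousComponent k Ψ) := by
  induction Ψ using MvPolynomial.induction_on' with
  | monomial ν c =>
    have h : MvPolynomial.monomial ν c ∈ MvPolynomial.homogeneousSubmodule (Fin 4) ℂ (∑ j, ν j) :=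
      MvPolynomial.isHomogeneous_monomial c (Finsupp.degree_eq_sum ν)
    rw [hv2c_phi_monomial, MvPolynomial.homogeneousComponent_of_mem h, Polynomial.coeff_monomial]
    by_cases hk : k = ∑ j, ν j
    · rw [if_pos hk, if_pos hk.symm]
    · rw [if_neg hk, if_neg (Ne.symm hk), map_zero]
  | add p q hp hq => rw [map_add, map_add, map_add, Polynomial.coeff_add, hp, hq]

theorem hv2c_phi_zero (K : IntermediateField ℂ Ω) (a : Fin 4 → Ω) (ha : ∀ j, a j ∈ K) {N : Ω}
    (hN : Transcendental K N) {G : MvPolynomial (Fin 4) ℂ}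
    (hG : MvPolynomial.aeval (fun j => N * a j) G = 0) : hv2cPhi a G = 0 := by
  let a' : Fin 4 → K := fun j => ⟨a j, ha j⟩
  have h1 : ∀ G : MvPolynomial (Fin 4) ℂ,
      Polynomial.aeval N (hv2cPhi a' G) = MvPolynomial.aeval (fun j => N * a j) G := by
    intro G
    induction G using MvPolynomial.induction_on with
    | C c =>
      rw [MvPolynomial.algHom_C, MvPolynomial.algHom_C, Polynomial.algebraMap_apply,
        Polynomial.aeval_C, ← IsScalarTower.algebraMap_apply]
    | add p q hp hq => simp only [map_add, hp, hq]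
    | mul_X p j hp =>
      rw [map_mul, map_mul, map_mul, hp]
      simp [hv2cPhi, a', mul_comm N]
  have h2 : ∀ G : MvPolynomial (Fin 4) ℂ,
      (hv2cPhi a' G).map (algebraMap K Ω) = hv2cPhi a G := by
    intro G
    induction G using MvPolynomial.induction_on with
    | C c =>
      rw [MvPolynomial.algHom_C, MvPolynomial.algHom_C, Polynomial.algebraMap_apply,
        Polynomial.map_C, ← IsScalarTower.algebraMap_apply, Polynomial.algebraMap_apply]
    | add p q hp hq => simp only [map_add, Polynomial.map_add, hp, hq]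
    | mul_X p j hp =>
      rw [map_mul, map_mul, Polynomial.map_mul, hp]
      simp [hv2cPhi, a']
  rw [← h2, transcendental_iff.1 hN _ ((h1 G).trans hG), Polynomial.map_zero]

theorem hv2c_indep (K : IntermediateField ℂ Ω) (a : Fin 3 → Ω) (ha : ∀ j, a j ∈ K) (h0 : a 0 ≠ 0)
    {N : Ω} (hN : Transcendental K N)
    (hind : AlgebraicIndependent ℂ (fun j : Fin 2 => a j.succ / a 0)) :
    AlgebraicIndependent ℂ (fun j => N * a j) := by
  have hN0 : N ≠ 0 := fun h => hN (h ▸ isAlgebraic_zero)
  have ht : Transcendental K (N * a 0) := fun h => hN (by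
    have h1 : IsAlgebraic K (a 0)⁻¹ := isAlgebraic_algebraMap (⟨(a 0)⁻¹, K.inv_mem (ha 0)⟩ : K)
    have := h.mul h1
    rwa [mul_inv_cancel_right₀ h0] at this)
  have hle : Algebra.adjoin ℂ (Set.range fun j : Fin 2 => a j.succ / a 0) ≤ K.toSubalgebra := by
    refine Algebra.adjoin_le ?_
    rintro _ ⟨j, rfl⟩
    exact K.div_mem (ha _) (ha _)
  have hy := AlgebraicIndependent.option_iff.2 ⟨hind,
    Transcendental.of_tower_top_of_subalgebra_le hle ht⟩
  let ψ : (Fin 3 →₀ ℕ) → Option (Fin 2) → ℤ := fun ν o => o.elim (∑ j, (ν j : ℤ)) fun j => ν j.succ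
  have hψ : Function.Injective ψ := by
    intro ν ν' h
    have e0 := congrFun h none
    have e1 := congrFun h (some 0)
    have e2 := congrFun h (some 1)
    simp only [ψ, Option.elim, Fin.sum_univ_three, Fin.succ_zero_eq_one, Fin.succ_one_eq_two]
      at e0 e1 e2
    ext j
    fin_cases j <;> simp <;> omega
  have hl := (lmon_indep _ hy).comp ψ hψ
  rw [algebraicIndependent_iff]
  intro p hp
  rw [MvPolynomial.aeval_def, MvPolynomial.eval₂_eq'] at hp
  have := linearIndependent_iff'.1 hl p.support (fun ν => p.coeff ν) (by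
    rw [← hp]
    refine sum_congr rfl fun ν _ => ?_
    rw [Algebra.smul_def]
    congr 1
    simp only [Function.comp_apply, lmon, ψ, Fintype.prod_option, Option.elim, Fin.prod_univ_two,
      Fin.sum_univ_three, Fin.prod_univ_three, Fin.succ_zero_eq_one, Fin.succ_one_eq_two]
    rw [← Nat.cast_add, ← Nat.cast_add, zpow_natCast, zpow_natCast, zpow_natCast]
    simp only [div_pow, mul_pow, pow_add]
    field_simp)
  ext ν
  by_contra h
  exact h (this ν (MvPolynomial.mem_support_iff.2 h))

theorem hv2c_killv_X (i : Fin 4) : killv i (MvPolynomial.X i) = 0 := by simp [killv]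

theorem hv2c_killv_killv (i : Fin 4) (G : MvPolynomial (Fin 4) ℂ) :
    killv i (killv i G) = killv i G := by
  obtain ⟨Ψ, -, h⟩ := exists_sub_killv G i
  conv_rhs => rw [h, map_add, map_mul, hv2c_killv_X, zero_mul, add_zero]

/-- Surfaces.  Hint: put `x j = N * α (e j)`.  The first three are algebraically independent
(`N α_0` is transcendental over `ℂ(α)`, and the ratios are independent).  Take `G` from
`exists_generator`.  If `killv i G = monomial ν c` for some `i`: `c ≠ 0` (else `X i ∣ G`, `G` is
associated to `X i`, `x i = 0`); write `G = c X^ν + X_i Ψ` (`exists_sub_killv`; `ν i = 0`, `|ν| ≤ δ`);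
since `N` is transcendental over `ℂ(α)` every homogeneous component of `G` vanishes at `α ∘ e`; the
component of degree `|ν|` gives the certificate (rename the variables along `e`).  Otherwise use
`indep_V2_four`, `lmon x w = lmon (α ∘ e) w` for `∑ w = 0`, and `Function.extend e w 0`. -/
theorem indep_V2 (α : Fin d → Ω) (h0 : ∀ i, α i ≠ 0) (N : Ω)
    (hN : Transcendental (IntermediateField.adjoin ℂ (Set.range α)) N) (e : Fin 4 ↪ Fin d)
    (hind : AlgebraicIndependent ℂ (fun j : Fin 2 => α (e j.succ.castSucc) / α (e 0)))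
    (δ : ℕ) (Φ : MvPolynomial (Fin 4) ℂ) (hΦ0 : Φ ≠ 0) (hδ : Φ.totalDegree ≤ δ)
    (hΦ : MvPolynomial.aeval (fun j => N * α (e j)) Φ = 0) :
    Cert δ α ∨ ∀ R : ℕ, ∃ W : Finset (Fin d → ℤ), N2 R ≤ W.card ∧ (∀ w ∈ W, InP R w) ∧
      LinearIndependent ℂ (fun w : W => lmon α w) := by
  classical
  have hK : ∀ i, α i ∈ IntermediateField.adjoin ℂ (Set.range α) := fun i =>
    IntermediateField.subset_adjoin _ _ ⟨i, rfl⟩
  have hN0 : N ≠ 0 := fun h => hN (h ▸ isAlgebraic_zero)
  have hx0 : ∀ j, N * α (e j) ≠ 0 := fun j => mul_ne_zero hN0 (h0 _)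
  obtain ⟨G, hirr, hdeg, hG⟩ := exists_generator (fun j => N * α (e j))
    (hv2c_indep _ (fun j : Fin 3 => α (e j.castSucc)) (fun j => hK _) (h0 _) hN hind) Φ hΦ0 hΦ
  have hG0 : MvPolynomial.aeval (fun j => N * α (e j)) G = 0 := (hG G).2 dvd_rfl
  by_cases hface : ∀ i, ¬ ∃ (c : ℂ) (ν : Fin 4 →₀ ℕ), killv i G = MvPolynomial.monomial ν c
  · refine Or.inr fun R => ?_
    obtain ⟨W, h1, h2, h3⟩ := indep_V2_four _ hx0 G (fun Θ h => (hG Θ).1 h) hface R
    have hext : ∀ (w : Fin 4 → ℤ) (j : Fin 4), Function.extend e w 0 (e j) = w j :=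
      fun w j => e.injective.extend_apply w 0 j
    have hinj : Function.Injective fun w : Fin 4 → ℤ => Function.extend e w (0 : Fin d → ℤ) :=
      fun w w' h => funext fun j => by rw [← hext w j, ← hext w' j]; exact congrFun h _
    refine ⟨W.image fun w => Function.extend e w 0, by rwa [card_image_of_injective _ hinj],
      fun w hw => ?_, ?_⟩
    · obtain ⟨u, hu, rfl⟩ := mem_image.1 hw
      exact inP_extend e u (h2 u hu)
    · choose g hg1 hg2 using fun w : (W.image fun w => Function.extend e w (0 : Fin d → ℤ)) =>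
        mem_image.1 w.2
      have hg : Function.Injective fun w => (⟨g w, hg1 w⟩ : W) := fun w w' h =>
        Subtype.ext (by rw [← hg2 w, ← hg2 w', show g w = g w' from congrArg Subtype.val h])
      convert h3.comp _ hg using 1
      funext w
      rw [Function.comp_apply, ← hg2 w, lmon_extend]
      simp only [lmon, mul_zpow, prod_mul_distrib]
      rw [hv2c_prod_zpow _ hN0, (h2 _ (hg1 w)).1, zpow_zero, one_mul]
  · left
    push Not at hface
    obtain ⟨i, c, ν, hν⟩ := hface
    obtain ⟨Ψ, -, hΨ⟩ := exists_sub_killv G i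
    rw [hν] at hΨ
    have hc : c ≠ 0 := by
      rintro rfl
      rw [map_zero, zero_add] at hΨ
      rcases hirr.isUnit_or_isUnit hΨ with h | h
      · have := h.map (killv i)
        rw [hv2c_killv_X] at this
        exact not_isUnit_zero this
      · rw [hΨ, map_mul, MvPolynomial.aeval_X] at hG0
        exact mul_ne_zero (hx0 i) (h.map (MvPolynomial.aeval fun j => N * α (e j))).ne_zero hG0
    have hνi : ν i = 0 := by
      by_contra h
      have h1 := hv2c_killv_killv i G
      rw [hν, killv, MvPolynomial.aeval_monomial, Finsupp.prod_fintype _ _ (by simp),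
        prod_eq_zero (mem_univ i) (by simp [h]), mul_zero] at h1
      exact hc (MvPolynomial.monomial_eq_zero.1 h1.symm)
    have hνδ : ∑ j, ν j ≤ δ := by
      have h1 : ν ∈ G.support := by
        rw [MvPolynomial.mem_support_iff, hΨ, MvPolynomial.coeff_add, MvPolynomial.coeff_monomial,
          if_pos rfl, MvPolynomial.coeff_X_mul', if_neg (by simp [hνi]), add_zero]
        exact hc
      have h2 := MvPolynomial.le_totalDegree h1
      rw [Finsupp.sum_fintype _ _ (by simp)] at h2
      omega
    have hφ := hv2c_phi_zero _ (fun j => α (e j)) (fun j => hK _) hN hG0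
    have h1 := congrArg (fun p : Polynomial Ω => p.coeff (∑ j, ν j)) hφ
    have hX : hv2cPhi (fun j => α (e j)) (MvPolynomial.X i) =
        Polynomial.X * Polynomial.C (α (e i)) := by simp [hv2cPhi]
    simp only [Polynomial.coeff_zero] at h1
    rw [hΨ, map_add, map_mul, hv2c_phi_monomial, Polynomial.coeff_add, Polynomial.coeff_monomial,
      if_pos rfl, hX, mul_assoc, MvPolynomial.aeval_monomial,
      Finsupp.prod_fintype _ _ (by simp)] at h1
    have hc' : algebraMap ℂ Ω c ≠ 0 := by simpa using hc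
    rcases hk : ∑ j, ν j with _ | k
    · rw [hk, Polynomial.coeff_X_mul_zero, add_zero] at h1
      exact absurd h1 (mul_ne_zero hc' (prod_ne_zero_iff.2 fun j _ => pow_ne_zero _ (h0 _)))
    · rw [hk, Polynomial.coeff_X_mul, Polynomial.coeff_C_mul, hv2c_phi_coeff] at h1
      refine ⟨e i, Finsupp.mapDomain e ν,
        MvPolynomial.rename e ((-c⁻¹) • MvPolynomial.homogeneousComponent k Ψ), ?_, ?_, ?_, ?_⟩
      · rw [Finsupp.mapDomain_apply e.injective, hνi]
      · rw [← Finsupp.sum_fintype (Finsupp.mapDomain e ν) (fun _ n => n) (by simp),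
          Finsupp.sum_mapDomain_index_inj e.injective, Finsupp.sum_fintype _ _ (by simp)]
        exact hνδ
      · refine (MvPolynomial.totalDegree_rename_le _ _).trans
          ((MvPolynomial.totalDegree_smul_le _ _).trans
            ((MvPolynomial.homogeneousComponent_isHomogeneous k Ψ).totalDegree_le.trans ?_))
        omega
      · rw [CertAt, ← Finsupp.prod_fintype (Finsupp.mapDomain e ν) (fun j n => α j ^ n) (by simp),
          Finsupp.prod_mapDomain_index_inj e.injective, Finsupp.prod_fintype _ _ (by simp),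
          MvPolynomial.aeval_rename, map_smul, Algebra.smul_def, map_neg, map_inv₀]
        refine mul_left_cancel₀ hc' ?_
        rw [eq_neg_of_add_eq_zero_left h1]
        field_simp
        rfl

end Crest.Agent.R022
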