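import Crest.Agent.R022.Defs
import Crest.Agent.R022.HIndep

set_option autoImplicit false

namespace Crest.Agent.R022

open Finset

variable {Ω : Type*} [Field Ω] [Algebra ℂ Ω] {d : ℕ}

theorem hval_const (𝒪 : ValuationSubring Ω) (hc : ∀ c : ℂ, algebraMap ℂ Ω c ∈ 𝒪) {c : ℂ}
    (h : c ≠ 0) : 𝒪.valuation (algebraMap ℂ Ω c) = 1 := by
  have h1 : 𝒪.valuation (algebraMap ℂ Ω c) ≤ 1 := (𝒪.valuation_le_one_iff _).2 (hc c)
  have h2 : 𝒪.valuation (algebraMap ℂ Ω c⁻¹) ≤ 1 := (𝒪.valuation_le_one_iff _).2 (hc _)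
  have h3 : 𝒪.valuation (algebraMap ℂ Ω c) * 𝒪.valuation (algebraMap ℂ Ω c⁻¹) = 1 := by
    rw [← map_mul, ← map_mul, mul_inv_cancel₀ h, map_one, map_one]
  refine le_antisymm h1 ?_
  calc (1 : 𝒪.ValueGroup) = _ := h3.symm
    _ ≤ 𝒪.valuation (algebraMap ℂ Ω c) * 1 := mul_le_mul_right h2 _
    _ = _ := mul_one _

theorem hval_lmon_add {κ : Type*} [Fintype κ] (x : κ → Ω) (h0 : ∀ i, x i ≠ 0) (w w' : κ → ℤ) :
    lmon x (w + w') = lmon x w * lmon x w' := by
  unfold lmon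
  rw [← Finset.prod_mul_distrib]
  exact Finset.prod_congr rfl fun i _ => zpow_add₀ (h0 i) _ _

theorem hval_lmon_ne {κ : Type*} [Fintype κ] (x : κ → Ω) (h0 : ∀ i, x i ≠ 0) (w : κ → ℤ) :
    lmon x w ≠ 0 :=
  Finset.prod_ne_zero_iff.2 fun i _ => zpow_ne_zero _ (h0 i)

/-- elements with pairwise distinct valuations are linearly independent over the constants -/
theorem indep_of_val (𝒪 : ValuationSubring Ω) (hc : ∀ c : ℂ, algebraMap ℂ Ω c ∈ 𝒪) {κ : Type*}
    (v : κ → Ω) (h0 : ∀ i, v i ≠ 0) (hinj : Function.Injective fun i => 𝒪.valuation (v i)) :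
    LinearIndependent ℂ v := by
  classical
  rw [linearIndependent_iff']
  intro s g hg i hi
  by_contra hne
  set s' := s.filter fun i => g i ≠ 0 with hs'
  have hsum : ∑ i ∈ s', g i • v i = 0 := by
    rw [← hg, hs']
    refine Finset.sum_filter_of_ne fun j _ hj h => hj ?_
    rw [h, zero_smul]
  have hval : ∀ i ∈ s', 𝒪.valuation (g i • v i) = 𝒪.valuation (v i) := by
    intro i hi
    rw [Algebra.smul_def, map_mul, hval_const 𝒪 hc (Finset.mem_filter.1 hi).2, one_mul]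
  obtain ⟨j, hj, hmax⟩ := Finset.exists_max_image s' (fun i => 𝒪.valuation (v i))
    ⟨i, Finset.mem_filter.2 ⟨hi, hne⟩⟩
  have h1 : 𝒪.valuation (∑ i ∈ s', g i • v i) = 𝒪.valuation (g j • v j) := by
    refine 𝒪.valuation.map_sum_eq_of_lt (f := fun i => g i • v i) hj fun i hi => ?_
    have hi' := Finset.mem_sdiff.1 hi
    rw [hval i hi'.1, hval j hj]
    refine lt_of_le_of_ne (hmax i hi'.1) fun h => hi'.2 ?_
    simpa using hinj h
  rw [hsum, hval j hj, map_zero] at h1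
  exact h0 j (by simpa using h1.symm)

/-- A valuation separating boundedly many Laurent monomials.
Hint: `B = 2 R y + 1`, `t_0 = x_0`, `t_{j+1} = x_{j+1} / x_j ^ B`.  The ideal generated by the `t_j` in
`A = ℂ[t]` is proper (e.g. the `t_j` are algebraically independent since `x_j ∈ ℂ[t]` and there are `y`
of them; or directly: monomials in `t` are distinct Laurent monomials in `x`); apply
`Ideal.image_subset_nonunits_valuationSubring`.  Then `v(x_0) < 1`, `v(x_{j+1}) < v(x_j) ^ B`, and a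
Laurent monomial with exponents `≤ 2 R`, not all zero, has valuation `≠ 1` (look at the last nonzero
exponent). -/
theorem exists_val_sep {y : ℕ} (x : Fin y → Ω) (hx : AlgebraicIndependent ℂ x) (R : ℕ) :
    ∃ 𝒪 : ValuationSubring Ω, (∀ c : ℂ, algebraMap ℂ Ω c ∈ 𝒪) ∧
      ∀ w w' : Fin y → ℤ, (∀ j, (w j).natAbs ≤ R) → (∀ j, (w' j).natAbs ≤ R) →
        𝒪.valuation (lmon x w) = 𝒪.valuation (lmon x w') → w = w' := by
  classical
  have h0 : ∀ i, x i ≠ 0 := fun i => hx.ne_zero i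
  have hl0 : lmon x (0 : Fin y → ℤ) = 1 := by simp [lmon]
  let P : Submodule ℂ Ω := Submodule.span ℂ (lmon x '' {w | 0 ≤ toLex w})
  let Q : Submodule ℂ Ω := Submodule.span ℂ (lmon x '' {w | 0 < toLex w})
  have hPP : P * P ≤ P := by
    simp only [P]
    rw [Submodule.span_mul_span]
    refine Submodule.span_mono ?_
    rintro _ ⟨_, ⟨a, ha, rfl⟩, _, ⟨b, hb, rfl⟩, rfl⟩
    refine ⟨a + b, ?_, hval_lmon_add x h0 a b⟩
    exact add_nonneg (α := Lex (Fin y → ℤ)) ha hb
  have hPQ : P * Q ≤ Q := by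
    simp only [P, Q]
    rw [Submodule.span_mul_span]
    refine Submodule.span_mono ?_
    rintro _ ⟨_, ⟨a, ha, rfl⟩, _, ⟨b, hb, rfl⟩, rfl⟩
    refine ⟨a + b, ?_, hval_lmon_add x h0 a b⟩
    exact add_pos_of_nonneg_of_pos (α := Lex (Fin y → ℤ)) ha hb
  have h1P : (1 : Ω) ∈ P := Submodule.subset_span ⟨0, le_rfl (a := (0 : Lex (Fin y → ℤ))), hl0⟩
  have h1Q : (1 : Ω) ∉ Q := by
    have := (lmon_indep x hx).notMem_span_image (s := {w | 0 < toLex w}) (x := 0)
      (lt_irrefl (0 : Lex (Fin y → ℤ)))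
    rwa [hl0] at this
  let A : Subalgebra ℂ Ω :=
    P.toSubalgebra h1P fun a b ha hb => hPP (Submodule.mul_mem_mul ha hb)
  let I : Ideal A.toSubring :=
    { carrier := {a | (a : Ω) ∈ Q}
      add_mem' := fun ha hb => Q.add_mem ha hb
      zero_mem' := Q.zero_mem
      smul_mem' := fun c a ha => hPQ (Submodule.mul_mem_mul c.2 ha) }
  have hI : I ≠ ⊤ := by
    intro h
    have : (1 : A.toSubring) ∈ I := h ▸ Submodule.mem_top
    exact h1Q this
  obtain ⟨𝒪, hA, hIO⟩ := Ideal.image_subset_nonunits_valuationSubring I hI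
  have hpos : ∀ w : Fin y → ℤ, 0 < toLex w → 𝒪.valuation (lmon x w) < 1 := by
    intro w hw
    rw [← 𝒪.mem_nonunits_iff]
    refine hIO ⟨⟨lmon x w, Submodule.subset_span ⟨w, le_of_lt hw, rfl⟩⟩, ?_, rfl⟩
    exact Submodule.subset_span ⟨w, hw, rfl⟩
  have hlt : ∀ w w' : Fin y → ℤ, toLex w < toLex w' →
      𝒪.valuation (lmon x w) ≠ 𝒪.valuation (lmon x w') := by
    intro w w' h he
    have h1 := hpos (w' - w) (sub_pos.2 h)
    have h2 : lmon x w' = lmon x w * lmon x (w' - w) := by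
      rw [← hval_lmon_add x h0]; congr 1; abel
    have h3 : 𝒪.valuation (lmon x w) ≠ 0 := by simpa using hval_lmon_ne x h0 w
    rw [h2, map_mul] at he
    have h4 : 𝒪.valuation (lmon x (w' - w)) = 1 := by
      apply mul_left_cancel₀ h3
      rw [mul_one]; exact he.symm
    exact h1.ne h4
  refine ⟨𝒪, fun c => hA (A.algebraMap_mem c), fun w w' _ _ h => ?_⟩
  rcases lt_trichotomy (toLex w) (toLex w') with h1 | h1 | h1
  · exact (hlt _ _ h1 h).elim
  · exact toLex.injective h1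
  · exact (hlt _ _ h1 h.symm).elim

end Crest.Agent.R022
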