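import Crest.Agent.R022.Siegel

set_option autoImplicit false

namespace Crest.Agent.R022

open Finset

theorem height_deg {σ R : Type*} [Fintype σ] [CommSemiring R] {h : MvPolynomial σ R} {δ : ℕ}
    (hd : h.totalDegree ≤ δ) {m : σ →₀ ℕ} (hm : m ∈ h.support) : ∑ i, m i ≤ δ := by
  have := (MvPolynomial.le_totalDegree hm).trans hd
  rwa [Finsupp.sum_fintype _ _ (fun _ => rfl)] at this

theorem height_card {σ R : Type*} [Fintype σ] [DecidableEq σ] [CommSemiring R]
    {h : MvPolynomial σ R} {δ : ℕ} (hd : h.totalDegree ≤ δ) :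
    h.support.card ≤ (δ + 1) ^ Fintype.card σ := by
  have h1 : (Fintype.piFinset fun _ : σ => range (δ + 1)).card = (δ + 1) ^ Fintype.card σ := by
    rw [Fintype.card_piFinset, prod_const, card_range, card_univ]
  rw [← h1]
  refine card_le_card_of_injOn (fun m => (m : σ → ℕ)) (fun m hm => ?_)
    fun m _ m' _ e => DFunLike.coe_injective e
  rw [mem_coe, Fintype.mem_piFinset]
  intro i
  have := (single_le_sum (f := fun i => m i) (fun _ _ => Nat.zero_le _) (mem_univ i)).trans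
    (height_deg hd hm)
  exact mem_range.2 (Nat.lt_succ_of_le this)

/-- A complex relation on rational points of bounded height gives an integer relation of bounded
height.  Hint: pick a monomial `m0` with `coeff m0 h ≠ 0` and a `ℚ`-linear functional `λ : ℂ → ℚ`
with `λ (coeff m0 h) = 1`; the numbers `λ (coeff m h)`, `m ∈ h.support`, solve the linear system with
rows `z ∈ S`, entries `c_z ^ δ * z ^ m ∈ ℤ` of size `≤ H ^ δ`; the number of monomials of degree
`≤ δ` is `≤ (δ + 1) ^ card σ`; apply `siegel_coord`. -/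
theorem rel_of_complex {σ : Type*} [Fintype σ] [DecidableEq σ] (δ : ℕ) :
    ∃ c : ℕ, ∀ (H : ℕ) (S : Finset (σ → ℚ)) (A : Set σ) (h : MvPolynomial σ ℂ), 1 ≤ H →
      (∀ z ∈ S, PtH H z) → h ≠ 0 → h ∈ MvPolynomial.supported ℂ A → h.totalDegree ≤ δ →
      (∀ z ∈ S, MvPolynomial.aeval (toC z) h = 0) → Rel A δ ((c * H) ^ c) S := by
  classical
  set M : ℕ := (δ + 1) ^ Fintype.card σ with hM
  refine ⟨M * (δ + 1), fun H S A h hH hS h0 hA hd hz => ?_⟩
  obtain ⟨m0, hm0⟩ := MvPolynomial.ne_zero_iff.1 h0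
  obtain ⟨lam, hlam⟩ := Module.Projective.exists_dual_ne_zero ℚ hm0
  have hS' : ∀ z : S, ∃ (c : ℤ) (a : σ → ℤ), c ≠ 0 ∧ c.natAbs ≤ H ∧
      ∀ i, (a i).natAbs ≤ H ∧ (c : ℚ) * z.1 i = a i := fun z => by
    obtain ⟨c, h1, h2, h3⟩ := hS z.1 z.2
    choose a ha using h3
    exact ⟨c, a, h1, h2, ha⟩
  choose cz a hc0 hcH ha using hS'
  let B : S → h.support → ℤ := fun z m => cz z ^ (δ - ∑ i, m.1 i) * ∏ i, a z i ^ m.1 i
  have hB : ∀ z m, (B z m).natAbs ≤ H ^ δ := by
    intro z m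
    have h1 : (∏ i, a z i ^ m.1 i).natAbs ≤ H ^ ∑ i, m.1 i := by
      rw [← prod_pow_eq_pow_sum, ← Int.natAbsHom_apply, map_prod]
      refine prod_le_prod' fun i _ => ?_
      rw [map_pow, Int.natAbsHom_apply]
      exact Nat.pow_le_pow_left (ha z i).1 _
    have h2 : (cz z ^ (δ - ∑ i, m.1 i)).natAbs ≤ H ^ (δ - ∑ i, m.1 i) := by
      rw [Int.natAbs_pow]
      exact Nat.pow_le_pow_left (hcH z) _
    calc (B z m).natAbs ≤ H ^ (δ - ∑ i, m.1 i) * H ^ ∑ i, m.1 i := by
          rw [Int.natAbs_mul]; exact Nat.mul_le_mul h2 h1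
      _ = H ^ δ := by rw [← pow_add, Nat.sub_add_cancel (height_deg hd m.2)]
  have hBq : ∀ z m, (B z m : ℚ) = (cz z : ℚ) ^ δ * ∏ i, z.1 i ^ m.1 i := by
    intro z m
    have h1 : (∏ i, (a z i : ℚ) ^ m.1 i) = (cz z : ℚ) ^ (∑ i, m.1 i) * ∏ i, z.1 i ^ m.1 i := by
      rw [← prod_pow_eq_pow_sum, ← prod_mul_distrib]
      exact prod_congr rfl fun i _ => by rw [← (ha z i).2, mul_pow]
    simp only [B, Int.cast_mul, Int.cast_pow, Int.cast_prod]
    rw [h1, ← mul_assoc, ← pow_add, Nat.sub_add_cancel (height_deg hd m.2)]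
  have hx : ∀ z, ∑ m : h.support, (B z m : ℚ) * lam (h.coeff m.1) = 0 := by
    intro z
    have h1 := hz z.1 z.2
    rw [MvPolynomial.aeval_def, MvPolynomial.eval₂_eq', ← sum_coe_sort] at h1
    have h2 : ∑ m : h.support, (∏ i, z.1 i ^ m.1 i) • h.coeff m.1 = 0 := by
      rw [← h1]
      refine sum_congr rfl fun m _ => ?_
      rw [Rat.smul_def, mul_comm]
      simp [toC]
    have h3 := congrArg lam h2
    rw [map_sum, map_zero] at h3
    simp only [map_smul, smul_eq_mul] at h3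
    simp only [hBq, mul_assoc]
    rw [← mul_sum, h3, mul_zero]
  obtain ⟨t, ht0, htb, ht⟩ := siegel_coord B (H ^ δ) (Nat.one_le_pow _ _ hH) hB
    (fun m => lam (h.coeff m.1)) ⟨m0, MvPolynomial.mem_support_iff.2 hm0⟩ hlam hx
  let g : MvPolynomial σ ℤ := ∑ m : h.support, MvPolynomial.monomial m.1 (t m)
  have hg1 : ∀ m : h.support, g.coeff m.1 = t m := by
    intro m
    simp only [g, MvPolynomial.coeff_sum, MvPolynomial.coeff_monomial]
    rw [sum_eq_single m (fun b _ hb => if_neg fun e => hb (Subtype.ext e))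
      (fun hm => absurd (mem_univ m) hm), if_pos rfl]
  have hg2 : ∀ m, m ∉ h.support → g.coeff m = 0 := by
    intro m hm
    simp only [g, MvPolynomial.coeff_sum, MvPolynomial.coeff_monomial]
    exact sum_eq_zero fun b _ => if_neg fun e : b.1 = m => hm (e ▸ b.2)
  have hsub : g.support ⊆ h.support := fun m hm => by
    by_contra hm'
    exact MvPolynomial.mem_support_iff.1 hm (hg2 m hm')
  have hcard : Fintype.card h.support ≤ M := by
    rw [Fintype.card_coe]; exact height_card hd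
  have hM1 : 1 ≤ M := Nat.one_le_pow _ _ (Nat.succ_pos δ)
  have hbound : (Fintype.card h.support * H ^ δ) ^ Fintype.card h.support ≤
      (M * (δ + 1) * H) ^ (M * (δ + 1)) := by
    have e1 : M ≤ M * (δ + 1) := Nat.le_mul_of_pos_right _ (Nat.succ_pos δ)
    calc (Fintype.card h.support * H ^ δ) ^ Fintype.card h.support
        ≤ (M * H ^ δ) ^ Fintype.card h.support :=
          Nat.pow_le_pow_left (Nat.mul_le_mul_right _ hcard) _
      _ ≤ (M * H ^ δ) ^ M :=
          Nat.pow_le_pow_right (Nat.mul_pos hM1 (Nat.pow_pos hH)) hcard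
      _ = M ^ M * H ^ (δ * M) := by rw [mul_pow, ← pow_mul H]
      _ ≤ (M * (δ + 1)) ^ (M * (δ + 1)) * H ^ (M * (δ + 1)) := by
          refine Nat.mul_le_mul ((Nat.pow_le_pow_left e1 _).trans
            (Nat.pow_le_pow_right (hM1.trans e1) e1)) (Nat.pow_le_pow_right hH ?_)
          rw [mul_comm]
          exact Nat.mul_le_mul_left _ (Nat.le_succ δ)
      _ = _ := (mul_pow _ _ _).symm
  refine ⟨g, fun e => ht0 ?_, ?_, ⟨?_, fun m => ?_⟩, fun z hzS => ?_⟩
  · rw [← hg1, e, MvPolynomial.coeff_zero]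
  · rw [MvPolynomial.mem_supported] at hA ⊢
    refine fun i hi => hA ?_
    obtain ⟨d, hd1, hd2⟩ := (MvPolynomial.mem_vars_iff_mem_support i).1 hi
    exact (MvPolynomial.mem_vars_iff_mem_support i).2 ⟨d, hsub hd1, hd2⟩
  · exact le_trans (Finset.sup_mono (f := fun s : σ →₀ ℕ => s.sum fun _ e => e) hsub) hd
  · by_cases hm : m ∈ h.support
    · rw [hg1 ⟨m, hm⟩]
      exact (htb _).trans hbound
    · rw [hg2 m hm]
      exact Nat.zero_le _
  · have h1 : ((∑ m, B ⟨z, hzS⟩ m * t m : ℤ) : ℚ) = 0 := by rw [ht]; rfl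
    simp only [Int.cast_sum, Int.cast_mul, hBq, mul_assoc] at h1
    rw [← mul_sum, mul_eq_zero] at h1
    have h2 := h1.resolve_left (pow_ne_zero _ (Int.cast_ne_zero.2 (hc0 _)))
    rw [← h2]
    simp only [g, map_sum, ev, MvPolynomial.eval₂Hom_monomial]
    refine sum_congr rfl fun m _ => ?_
    rw [Finsupp.prod_fintype _ _ (fun _ => pow_zero _), mul_comm]
    rfl

end Crest.Agent.R022
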