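import Crest.Agent.R022.MonSel
import Crest.Agent.R022.HLevel
import Crest.Agent.R022.HV1
import Crest.Agent.R022.HV2c
import Crest.Agent.R022.HNonvert
import Crest.Agent.R022.HCurve
import Crest.Agent.R022.Dep

set_option autoImplicit false

namespace Crest.Agent.R022

open Finset

theorem hilb_ev_mem {σ Ω : Type*} [Field Ω] [Algebra ℂ Ω] (ω : σ → Ω) (A : Set σ)
    (p : MvPolynomial σ ℤ) (hp : p ∈ MvPolynomial.supported ℤ A) :
    ev ω p ∈ Algebra.adjoin ℂ (ω '' A) := by
  unfold MvPolynomial.supported at hp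
  induction hp using Algebra.adjoin_induction with
  | mem x hx =>
    obtain ⟨i, hi, rfl⟩ := hx
    have : ev ω (MvPolynomial.X i) = ω i := by simp [ev]
    rw [this]
    exact Algebra.subset_adjoin ⟨i, hi, rfl⟩
  | algebraMap r =>
    have : ev ω (algebraMap ℤ (MvPolynomial σ ℤ) r) = (r : Ω) := by simp
    rw [this]
    exact intCast_mem _ r
  | add x y _ _ hx hy => rw [map_add]; exact add_mem hx hy
  | mul x y _ _ hx hy => rw [map_mul]; exact mul_mem hx hy

theorem hilb_dep_alg {ι Ω : Type} [Field Ω] [Algebra ℂ Ω] (s : Sys ι) {δ H : ℕ} (hs : s.Cx δ H)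
    (ω : Option ι → Ω) (hnd : s.ND ω) (η : Option ι) (hη : s.Dep η) :
    IsAlgebraic (Algebra.adjoin ℂ (ω '' (some '' (s.J : Set ι)))) (ω η) := by
  set A := Algebra.adjoin ℂ (ω '' (some '' (s.J : Set ι)))
  have hl : s.gv ω η ∈ Polynomial.lifts (algebraMap A Ω) := by
    rw [Polynomial.lifts_iff_coeff_lifts]
    intro j
    refine ⟨⟨_, hilb_ev_mem ω _ _ ((hs η hη).2 j).1⟩, ?_⟩
    simp [Sys.gv]
  obtain ⟨q, hq⟩ := (Polynomial.mem_lifts _).mp hl
  refine ⟨q, ?_, ?_⟩
  · rintro rfl
    have h0 := (hnd η hη).2.1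
    rw [← hq] at h0
    simp at h0
  · rw [← Polynomial.eval_map_algebraMap, hq]
    exact (hnd η hη).1

theorem hilb_xi_alg {ι Ω : Type} [Field Ω] [Algebra ℂ Ω] (s : Sys ι) {δ H : ℕ} (hs : s.Cx δ H)
    (ω : Option ι → Ω) (hnd : s.ND ω) (i : ι) :
    IsAlgebraic (Algebra.adjoin ℂ (ω '' (some '' (s.J : Set ι)))) (ω (some i)) := by
  by_cases hi : i ∈ s.J
  · exact isAlgebraic_algebraMap (R := Algebra.adjoin ℂ (ω '' (some '' (s.J : Set ι))))
      ⟨ω (some i), Algebra.subset_adjoin ⟨some i, ⟨i, hi, rfl⟩, rfl⟩⟩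
  · exact hilb_dep_alg s hs ω hnd (some i) hi

theorem hilb_span_alg {Ω : Type*} [Field Ω] [Algebra ℂ Ω] (A : Subalgebra ℂ Ω) (S : Set Ω)
    (hS : ∀ x ∈ S, IsAlgebraic A x) (x : Ω) (hx : x ∈ Submodule.span ℂ S) : IsAlgebraic A x := by
  induction hx using Submodule.span_induction with
  | mem x hx => exact hS x hx
  | zero => exact isAlgebraic_zero
  | add x y _ _ hx hy => exact hx.add hy
  | smul c x _ hx =>
    have := hx.smul (algebraMap ℂ A c)
    rwa [algebraMap_smul] at this

theorem hilb_hom_self {K : Type*} [CommRing K] {n : ℕ} (c : Fin (n + 1))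
    (z : Option (Fin n) → K) : hom c z c = 1 := by
  simp [hom]

theorem hilb_hom_succ {K : Type*} [CommRing K] {n : ℕ} (c : Fin (n + 1))
    (z : Option (Fin n) → K) (j : Fin n) : hom c z (c.succAbove j) = z (some j) := by
  simp [hom]

theorem hilb_alv_alg {n : ℕ} {Ω : Type} [Field Ω] [Algebra ℂ Ω] {ϑ : Fin (n + 1) → ℂ}
    (hinj : Function.Injective ϑ) (c : Fin (n + 1)) (s : Sys (Fin n)) {δ H : ℕ} (hs : s.Cx δ H)
    (ω : Option (Fin n) → Ω) (hnd : s.ND ω) (i : Fin (n + 1)) :
    IsAlgebraic (Algebra.adjoin ℂ (ω '' (some '' (s.J : Set (Fin n))))) (alv ϑ c ω i) := by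
  refine hilb_span_alg _ (Set.range (hom c ω)) ?_ _ ?_
  · rintro _ ⟨j, rfl⟩
    refine Fin.succAboveCases c ?_ (fun j => ?_) j
    · rw [hilb_hom_self]; exact isAlgebraic_one
    · rw [hilb_hom_succ]; exact hilb_xi_alg s hs ω hnd j
  · rw [← span_conj hinj]
    exact Submodule.subset_span ⟨i, rfl⟩

theorem hilb_trans {n : ℕ} {Ω : Type} [Field Ω] [Algebra ℂ Ω] {ϑ : Fin (n + 1) → ℂ}
    (hinj : Function.Injective ϑ) (c : Fin (n + 1)) (s : Sys (Fin n)) {δ H : ℕ} (hs : s.Cx δ H)
    (ω : Option (Fin n) → Ω) (hg : s.Gen ω) (hv : s.vert = true) :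
    Transcendental (IntermediateField.adjoin ℂ (Set.range (alv ϑ c ω))) (ω none) := by
  rw [IntermediateField.transcendental_adjoin_iff]
  intro halg
  have h1 : IsAlgebraic (Algebra.adjoin ℂ (ω '' (some '' (s.J : Set (Fin n))))) (ω none) := by
    refine IsAlgebraic.adjoin_of_forall_isAlgebraic ?_ halg
    rintro _ ⟨⟨i, rfl⟩, -⟩
    exact hilb_alv_alg hinj c s hs ω hg.nd i
  have hnone : ¬ s.Dep none := by simp [Sys.Dep, hv]
  have h2 := hg.indep.transcendental_adjoin
    (s := {i : {i : Option (Fin n) // ¬ s.Dep i} | i.1 ≠ none}) (i := ⟨none, hnone⟩) (by simp)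
  refine h2 (h1.tower_top_of_subalgebra_le (Algebra.adjoin_mono ?_))
  rintro _ ⟨_, ⟨j, hj, rfl⟩, rfl⟩
  exact ⟨⟨some j, by simpa [Sys.Dep] using hj⟩, by simp, rfl⟩

theorem hilb_basis {n : ℕ} {Ω : Type} [Field Ω] [Algebra ℂ Ω] {ϑ : Fin (n + 1) → ℂ}
    (hinj : Function.Injective ϑ) (c : Fin (n + 1)) (s : Sys (Fin n))
    (ω : Option (Fin n) → Ω) (hg : s.Gen ω) (h0 : ∀ i, alv ϑ c ω i ≠ 0) {y : ℕ}
    (hy : s.J.card = y) :
    ∃ e : Fin (y + 1) ↪ Fin (n + 1),
      AlgebraicIndependent ℂ (fun j : Fin y => alv ϑ c ω (e j.succ) / alv ϑ c ω (e 0)) := by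
  subst hy
  let f : Fin s.J.card → {i : Option (Fin n) // ¬ s.Dep i} := fun j =>
    ⟨some (s.J.equivFin.symm j), by simp [Sys.Dep]⟩
  have hf : Function.Injective f := by
    intro a b hab
    have : ((s.J.equivFin.symm a : s.J) : Fin n) = s.J.equivFin.symm b := by
      simpa [f] using hab
    exact s.J.equivFin.symm.injective (Subtype.ext this)
  refine exists_ratio_basis _ h0 (Nat.succ_pos n) _ (hg.indep.comp f hf) fun j => ?_
  have hsp : Submodule.span ℂ (Set.range (alv ϑ c ω)) = Submodule.span ℂ (Set.range (hom c ω)) :=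
    span_conj hinj _
  rw [hsp]
  refine ⟨_, Submodule.subset_span ⟨c.succAbove (s.J.equivFin.symm j), rfl⟩, _,
    Submodule.subset_span ⟨c, rfl⟩, ?_⟩
  rw [hilb_hom_self, hilb_hom_succ, div_one]
  rfl

theorem hilb_extend {d : ℕ} (hd : 4 ≤ d) (e : Fin 3 ↪ Fin d) :
    ∃ e' : Fin 4 ↪ Fin d, ∀ j : Fin 3, e' j.castSucc = e j := by
  have : ∃ x : Fin d, x ∉ Set.range e := by
    by_contra h
    push Not at h
    have := Fintype.card_le_of_surjective e h
    simp at this
    omega
  obtain ⟨x, hx⟩ := this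
  refine ⟨⟨Fin.snoc (α := fun _ => Fin d) e x, ?_⟩, fun j => Fin.snoc_castSucc (α := fun _ => Fin d) _ _ _⟩
  exact Fin.snoc_injective_iff.mpr ⟨e.injective, hx⟩

/-- Lower bound for the Hilbert function at a generic point. -/
theorem hilbert_gen {n : ℕ} {F : Polynomial ℤ} {ϑ : Fin (n + 1) → ℂ} (hF : FS F ϑ) (hn : 3 ≤ n)
    (k : ℕ) (hk : 2 ≤ k) (δ D : ℕ) :
    ∃ δc : ℕ, ∀ (c : Fin (n + 1)) (s : Sys (Fin n)) (H : ℕ) {Ω : Type} [Field Ω] [Algebra ℂ Ω]
      (ω : Option (Fin n) → Ω), s.Cx δ H → s.Gen ω → 1 ≤ s.J.card →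
      (∀ i, alv ϑ c ω i ≠ 0 ∧ ω none - algebraMap ℂ Ω (ϑ i) ≠ 0) →
      Cert δc (alv ϑ c ω) ∨ ∀ e ≤ D, (gfun (n + 1) k s.vert s.J.card e : Cardinal) ≤
        Module.rank ℂ (V k (alv ϑ c ω) (bev k ϑ c ω) e) := by
  obtain ⟨δ', hδ'⟩ := dep_bound (ι := Fin n) δ 2
  refine ⟨max δ' ((n + 1) * (k * D)), fun c s H Ω _ _ ω hs hg hy hne => ?_⟩
  have hHS := monsel_HS hF k c ω hne
  have h0 : ∀ i, alv ϑ c ω i ≠ 0 := fun i => (hne i).1
  obtain ⟨e, he⟩ := hilb_basis hF.inj c s ω hg h0 rfl
  cases hv : s.vert with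
  | false =>
    right
    intro l _
    by_cases hy1 : s.J.card = 1
    · obtain ⟨j0, hj0⟩ := Finset.card_eq_one.mp hy1
      have hset : ω '' (some '' (s.J : Set (Fin n))) = {ω (some j0)} := by
        rw [hj0]; simp
      have h1 := rank_curve hHS hk (by omega) (ω (some j0))
        (fun i => by have := hilb_alv_alg hF.inj c s hs ω hg.nd i; rw [hset] at this; exact this)
        (by have := hilb_dep_alg s hs ω hg.nd none hv; rw [hset] at this; exact this) _ _
        (he.transcendental ⟨0, by omega⟩) l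
      simpa [gfun, hy1] using h1
    · have h1 := rank_nonvert hHS (by omega) (by omega) hy e he l
      simpa [gfun, hy1] using h1
  | true =>
    have hN := hilb_trans hF.inj c s hs ω hg hv
    have key : Cert (max δ' ((n + 1) * (k * D))) (alv ϑ c ω) ∨ ∀ e' ≤ D,
        ∃ W : Finset (Fin (n + 1) → ℤ), Nv (n + 1) s.J.card (Rad (n + 1) k e') ≤ W.card ∧
          (∀ w ∈ W, InP (Rad (n + 1) k e') w) ∧
          LinearIndependent ℂ (fun w : W => lmon (alv ϑ c ω) w) := by
      by_cases hy1 : s.J.card = 1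
      · by_cases hc : Cert (max δ' ((n + 1) * (k * D))) (alv ϑ c ω)
        · exact Or.inl hc
        · right
          intro e' he'
          rcases indep_V1 (alv ϑ c ω) h0 (by omega) (Rad (n + 1) k e') with h | h
          · refine absurd (h.mono (le_trans ?_ (le_max_right _ _))) hc
            refine Nat.mul_le_mul_left _ ((Nat.sub_le _ _).trans (Nat.mul_le_mul_left _ he'))
          · simpa [Nv, hy1] using h
      · by_cases hy2 : s.J.card = 2
        · obtain ⟨e3, he3⟩ := hilb_basis hF.inj c s ω hg h0 hy2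
          obtain ⟨e4, he4⟩ := hilb_extend (by omega) e3
          have hm : s.m + 1 = 4 := by simp [Sys.m, hv, hy2]
          obtain ⟨Φ, hΦ0, hΦd, hΦ⟩ := hδ' s H ω hs hg.nd
            (fun j => MvPolynomial.X none *
              alv ϑ c (fun j => (MvPolynomial.X j : MvPolynomial (Option (Fin n)) ℂ))
                (e4 (Fin.cast hm j)))
            (fun j => (MvPolynomial.totalDegree_mul _ _).trans (by
              have h1 := alv_totalDegree ϑ c (e4 (Fin.cast hm j))
              have h2 := MvPolynomial.totalDegree_X (R := ℂ) (none : Option (Fin n))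
              omega))
          have hind : AlgebraicIndependent ℂ
              (fun j : Fin 2 => alv ϑ c ω (e4 j.succ.castSucc) / alv ϑ c ω (e4 0)) := by
            have h00 : e4 0 = e3 0 := he4 0
            simp only [he4, h00]
            exact he3
          have h2 := indep_V2 (alv ϑ c ω) h0 (ω none) hN e4 hind δ'
            (MvPolynomial.rename (Fin.cast hm) Φ)
            (fun h => hΦ0 (MvPolynomial.rename_injective _ (Fin.cast_injective hm)
              (by rw [h, map_zero])))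
            ((MvPolynomial.totalDegree_rename_le _ _).trans hΦd)
            (by
              rw [MvPolynomial.aeval_rename, ← hΦ]
              congr 2
              funext j
              simp [aeval_alv])
          rcases h2 with h | h
          · exact Or.inl (h.mono (le_max_left _ _))
          · right
            intro e' _
            simpa [Nv, hy2] using h (Rad (n + 1) k e')
        · right
          intro e' _
          simpa [Nv, hy1, hy2] using indep_V3 (alv ϑ c ω) h0 e he (Rad (n + 1) k e')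
    rcases key with h | h
    · exact Or.inl h
    · right
      intro l hl
      choose! W hW1 hW2 hW3 using h
      have h1 := rank_vert hHS (by omega) (by omega) hN l W
        (fun e' he' => hW2 e' (he'.trans hl)) (fun e' he' => hW3 e' (he'.trans hl))
      refine le_trans ?_ h1
      have : gfun (n + 1) k true s.J.card l ≤ ∑ e' ∈ range (l + 1), (W e').card := by
        simp only [gfun, if_true]
        exact Finset.sum_le_sum fun e' he' =>
          hW1 e' ((Nat.lt_succ_iff.mp (Finset.mem_range.mp he')).trans hl)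
      exact_mod_cast this

end Crest.Agent.R022
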