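import Crest.Agent.R022.Comp

set_option autoImplicit false

namespace Crest.Agent.R022

open Finset

theorem integ_row (F : Polynomial ℤ) (hF : F.Monic) {d : ℕ} (hd : F.natDegree = d)
    (k : ℕ) (q N : ℤ) (a : Fin d → ℤ) (hN : q ∣ F.eval N) (ha : q ∣ conj a N ^ k) (j : Fin d) :
    q ∣ Matrix.vecMul (fun j : Fin d => N ^ (j : ℕ)) (mulM F a ^ k) j := by
  let φ := Ideal.Quotient.mk (Ideal.span {q})
  have h0 : ∀ x : ℤ, φ x = 0 ↔ q ∣ x := fun x =>
    Ideal.Quotient.eq_zero_iff_mem.trans Ideal.mem_span_singleton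
  have ht : Polynomial.aeval (φ N) F = 0 := by
    rw [← (h0 _).2 hN]
    exact (Polynomial.aeval_algHom_apply φ.toIntAlgHom N F).trans (by simp [φ])
  have h := congrFun (comp_vecMul_pow F hF hd (φ N) ht (fun j => φ (a j)) k) j
  rw [← map_conj, ← map_pow, (h0 _).2 ha, zero_smul, ← comp_map_mulM, ← map_pow] at h
  rw [← h0, RingHom.map_vecMul]
  have e : (φ ∘ fun j : Fin d => N ^ (j : ℕ)) = fun j : Fin d => φ N ^ (j : ℕ) := by
    funext i
    simp
  rw [e]
  exact h

theorem integ_U {n : ℕ} (r : Fin (n + 1) → ℤ) (M : Matrix (Fin (n + 1)) (Fin (n + 1)) ℤ) :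
    (1 : Matrix (Fin (n + 1)) (Fin (n + 1)) ℤ).updateRow 0 r * M =
      M.updateRow 0 (Matrix.vecMul r M) := by
  rw [Matrix.updateRow_mul, Matrix.one_mul]

theorem integ_det_U {n : ℕ} (r : Fin (n + 1) → ℤ) :
    ((1 : Matrix (Fin (n + 1)) (Fin (n + 1)) ℤ).updateRow 0 r).det = r 0 := by
  rw [← Matrix.cramer_transpose_apply, Matrix.transpose_one, Matrix.cramer_one]
  rfl

/-- Integrality.  Hint: let `r = (N ^ j)_j`; modulo `p ^ k`, `N` is a root of `F`, so
`r M ^ k ≡ (conj a N) ^ k r ≡ 0` (`vecMul_mulM` in `ZMod (p ^ k)`).  Let `U` be the identity matrix with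
the first row replaced by `r` (`det U = 1`).  Then `U M ^ k = diag (p ^ k, 1, …, 1) M'` with `M'`
integral, so `adj (M ^ k) = adj M' * diag (1, p ^ k, …, p ^ k) * U` (`adj (A B) = adj B adj A`,
`adj (M^k) * adj U = adj (U M^k)`, `adj U * U = 1`), and the first coordinate of `U (wv d N)` is
`N - N = 0`.  For the norm use the same argument modulo `p`. -/
theorem dvd_nm_bvec (F : Polynomial ℤ) (hF : F.Monic) {d : ℕ} (hd : F.natDegree = d) (hd2 : 2 ≤ d)
    (k : ℕ) (hk : 1 ≤ k) (p N : ℤ) (a : Fin d → ℤ) (hN : p ^ k ∣ F.eval N) (ha : p ∣ conj a N) :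
    p ∣ nm F a ∧ ∀ j, p ^ k ∣ bvec F k a N j := by
  obtain ⟨n, rfl⟩ : ∃ n, d = n + 1 := ⟨d - 1, by omega⟩
  set r : Fin (n + 1) → ℤ := fun j => N ^ (j : ℕ) with hr
  set U := (1 : Matrix (Fin (n + 1)) (Fin (n + 1)) ℤ).updateRow 0 r with hU
  have hdet : U.det = 1 := by rw [hU, integ_det_U]; simp [hr]
  constructor
  · choose q hq using integ_row F hF hd 1 p N a
      ((dvd_pow_self p (by omega)).trans hN) (by simpa using ha)
    have h1 := congrArg Matrix.det (integ_U r (mulM F a))
    rw [pow_one] at hq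
    rw [Matrix.det_mul, hdet, one_mul,
      show Matrix.vecMul r (mulM F a) = p • q from funext hq, Matrix.det_updateRow_smul] at h1
    exact ⟨_, h1⟩
  · choose q hq using integ_row F hF hd k (p ^ k) N a hN (pow_dvd_pow_of_dvd ha k)
    set D : Fin (n + 1) → ℤ := fun i => if i = 0 then p ^ k else 1 with hD
    have h1 : U * mulM F a ^ k = Matrix.diagonal D * (mulM F a ^ k).updateRow 0 q := by
      rw [hU, integ_U]
      ext i j
      rw [Matrix.diagonal_mul]
      by_cases hi : i = 0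
      · subst hi
        simpa [hD] using hq j
      · simp [hD, hi]
    have h2 := congrArg (fun A => Matrix.adjugate A * U) h1
    simp only [Matrix.adjugate_mul_distrib, Matrix.mul_assoc, Matrix.adjugate_mul, hdet, one_smul,
      Matrix.mul_one, Matrix.adjugate_pow] at h2
    intro j
    rw [bvec, h2, ← Matrix.mulVec_mulVec, ← Matrix.mulVec_mulVec]
    rw [Matrix.mulVec, dotProduct]
    refine Finset.dvd_sum fun i _ => Dvd.dvd.mul_left ?_ _
    rw [Matrix.adjugate_diagonal, Matrix.mulVec_diagonal]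
    by_cases hi : i = 0
    · subst hi
      have h3 : Matrix.mulVec U (wv (n + 1) N) 0 = 0 := by
        have := comp_dot_wv hd2 N N
        rw [sub_self] at this
        rw [← this, hU]
        simp [Matrix.mulVec, hr]
      rw [h3, mul_zero]
      exact dvd_zero _
    · refine Dvd.dvd.mul_right ?_ _
      have h4 := Finset.dvd_prod_of_mem D
        (Finset.mem_erase.2 ⟨Ne.symm hi, Finset.mem_univ (0 : Fin (n + 1))⟩)
      simpa [hD] using h4

end Crest.Agent.R022
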