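import Crest.Agent.R022.Sel
import Crest.Agent.R022.HMem
import Crest.Agent.R022.Mon

set_option autoImplicit false

namespace Crest.Agent.R022

open Finset

variable {Ω : Type*} [Field Ω] [Algebra ℂ Ω]

theorem monsel_root {d : ℕ} {F : Polynomial ℤ} {ϑ : Fin d → ℂ} (hF : FS F ϑ) {K : Type*}
    [CommRing K] [Algebra ℂ K] (i : Fin d) : Polynomial.aeval (algebraMap ℂ K (ϑ i)) F = 0 := by
  have h := Polynomial.aeval_algHom_apply ((algebraMap ℂ K).toIntAlgHom) (ϑ i) F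
  rw [hF.root i, map_zero] at h
  exact h

theorem monsel_HS {n : ℕ} {F : Polynomial ℤ} {ϑ : Fin (n + 1) → ℂ} (hF : FS F ϑ) (k : ℕ)
    (c : Fin (n + 1)) (ω : Option (Fin n) → Ω)
    (hne : ∀ i, alv ϑ c ω i ≠ 0 ∧ ω none - algebraMap ℂ Ω (ϑ i) ≠ 0) :
    HS k ϑ (alv ϑ c ω) (bev k ϑ c ω) (ω none) where
  inj := hF.inj
  rel i := by
    have := (hne i).1
    unfold bev
    field_simp
  a0 i := (hne i).1
  b0 i := div_ne_zero (hne i).2 (pow_ne_zero _ (hne i).1)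

theorem monsel_nm_ne {n : ℕ} {F : Polynomial ℤ} {ϑ : Fin (n + 1) → ℂ} (hF : FS F ϑ)
    (c : Fin (n + 1)) (ω : Option (Fin n) → Ω) (hne : ∀ i, alv ϑ c ω i ≠ 0) :
    nm F (hom c ω) ≠ 0 := by
  rw [nm_eq_prod hF]
  exact Finset.prod_ne_zero_iff.mpr fun i _ => hne i

theorem select_mon {n : ℕ} {F : Polynomial ℤ} {ϑ : Fin (n + 1) → ℂ} (hF : FS F ϑ) (hn : 1 ≤ n)
    (k : ℕ) (c : Fin (n + 1)) (D : ℕ) (g : ℕ → ℕ) (ω : Option (Fin n) → Ω)
    (hne : ∀ i, alv ϑ c ω i ≠ 0 ∧ ω none - algebraMap ℂ Ω (ϑ i) ≠ 0)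
    (hg : ∀ e ≤ D, (g e : Cardinal) ≤ Module.rank ℂ (V k (alv ϑ c ω) (bev k ϑ c ω) e))
    (hmono : ∀ e < D, g e ≤ g (e + 1)) :
    ∃ (u v : Fin (g D) → Fin (n + 1) → ℕ) (lev : Fin (g D) → ℕ),
      (∀ i, lev i ≤ D ∧ ∑ j, u i j = k * lev i ∧ ∑ j, v i j = lev i) ∧
      LinearIndependent ℂ (fun i => ev ω (mon F k c D (lev i) (u i) (v i))) ∧
      ∑ i, lev i + ∑ e ∈ range D, g e ≤ D * g D := by
  have hs := monsel_HS hF k c ω hne
  have hnm := monsel_nm_ne hF c ω (fun i => (hne i).1)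
  set a : Fin (n + 1) → Ω := hom c ω with ha
  set b : Fin (n + 1) → Ω := fun j => (nm F a ^ k)⁻¹ * bvec F k a (ω none) j with hb
  have hA : Submodule.span ℂ (Set.range (alv ϑ c ω)) = Submodule.span ℂ (Set.range a) :=
    span_conj hF.inj a
  have hB : Submodule.span ℂ (Set.range (bev k ϑ c ω)) = Submodule.span ℂ (Set.range b) := by
    rw [← span_conj hF.inj b]
    congr 2
    funext i
    have h1 := conj_bvec F hF.monic hF.deg (by omega) k (algebraMap ℂ Ω (ϑ i))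
      (monsel_root hF i) a (ω none)
    have h2 : alv ϑ c ω i = conj a (algebraMap ℂ Ω (ϑ i)) := rfl
    have h3 := (hne i).1
    rw [hb, conj_smul]
    unfold bev
    rw [h2] at h3 ⊢
    field_simp
    linear_combination -h1
  have hV : ∀ e, V k (alv ϑ c ω) (bev k ϑ c ω) e = V k a b e := by
    intro e; unfold V; rw [hA, hB]
  set T : ℕ → Set Ω := fun e => {x | ∃ u v : Fin (n + 1) → ℕ, ∑ i, u i = k * e ∧ ∑ i, v i = e ∧
      x = (∏ i, a i ^ u i) * ∏ i, b i ^ v i} with hT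
  have hVT : ∀ e, Submodule.span ℂ (T e) = V k (alv ϑ c ω) (bev k ϑ c ω) e := by
    intro e; rw [hV, V_eq_span]
  obtain ⟨w, lev, hind, hw, hsum⟩ := select_levels (K := ℂ) T g D
    (fun e _ => by rw [hVT, hVT]; exact V_mono hs (by omega) e)
    (fun e he => by rw [hVT]; exact hg e he) hmono
  have hw' : ∀ i, ∃ u v : Fin (n + 1) → ℕ, ∑ j, u j = k * lev i ∧ ∑ j, v j = lev i ∧
      w i = (∏ j, a j ^ u j) * ∏ j, b j ^ v j := fun i => (hw i).1
  choose u v hu hv hwuv using hw'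
  refine ⟨u, v, lev, fun i => ⟨(hw i).2, hu i, hv i⟩, ?_, hsum⟩
  have heq : (fun i => ev ω (mon F k c D (lev i) (u i) (v i))) =
      (LinearMap.mulLeft ℂ (nm F a ^ (k * D))) ∘ w := by
    funext i
    simp only [Function.comp, LinearMap.mulLeft_apply]
    rw [ev_mon, hwuv i, ← ha]
    have h1 : ∏ j, b j ^ v i j = ((nm F a ^ k)⁻¹) ^ lev i * ∏ j, bvec F k a (ω none) j ^ v i j := by
      simp only [hb, mul_pow]
      rw [Finset.prod_mul_distrib, Finset.prod_pow_eq_pow_sum, hv i]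
    rw [h1]
    have h2 : nm F a ^ (k * D) = nm F a ^ (k * (D - lev i)) * (nm F a ^ k) ^ lev i := by
      rw [← pow_mul, ← pow_add, ← Nat.mul_add, Nat.sub_add_cancel (hw i).2]
    rw [h2, inv_pow]
    have h3 : (nm F a ^ k) ^ lev i ≠ 0 := pow_ne_zero _ (pow_ne_zero _ hnm)
    field_simp
  rw [heq]
  refine hind.map' _ (LinearMap.ker_eq_bot.mpr ?_)
  intro x y hxy
  simp only [LinearMap.mulLeft_apply] at hxy
  exact mul_left_cancel₀ (pow_ne_zero _ hnm) hxy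

end Crest.Agent.R022
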