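import Crest.Agent.R022.DetDvd

set_option autoImplicit false

namespace Crest.Agent.R022

open Finset

theorem padicdet_map_ev {σ K L : Type*} [CommRing K] [CommRing L] (φ : K →+* L) (z : σ → K)
    (p : MvPolynomial σ ℤ) : φ (ev z p) = ev (fun i => φ (z i)) p := by
  unfold ev
  rw [MvPolynomial.map_eval₂Hom]
  congr 2
  exact RingHom.ext_int _ _

theorem padicdet_gv_map {ι : Type} {K L : Type*} [CommRing K] [CommRing L] (φ : K →+* L)
    (s : Sys ι) (z : Option ι → K) (η : Option ι) :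
    (s.gv z η).map φ = s.gv (fun i => φ (z i)) η := by
  unfold Sys.gv
  rw [Polynomial.map_map]
  congr 1
  exact RingHom.ext fun p => padicdet_map_ev φ z p

theorem padicdet_map_eval {ι : Type} {K L : Type*} [CommRing K] [CommRing L] (φ : K →+* L)
    (s : Sys ι) (z : Option ι → K) (η : Option ι) :
    φ ((s.gv z η).eval (z η)) = (s.gv (fun i => φ (z i)) η).eval (φ (z η)) := by
  rw [← padicdet_gv_map, Polynomial.eval_map_apply]

theorem padicdet_map_deriv {ι : Type} {K L : Type*} [CommRing K] [CommRing L] (φ : K →+* L)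
    (s : Sys ι) (z : Option ι → K) (η : Option ι) :
    φ ((s.gv z η).derivative.eval (z η)) =
      (s.gv (fun i => φ (z i)) η).derivative.eval (φ (z η)) := by
  rw [← padicdet_gv_map, Polynomial.derivative_map, Polynomial.eval_map_apply]

theorem padicdet_ev_mem_supp {σ K : Type*} [CommRing K] (A : Subring K) (z : σ → K) (S : Set σ)
    (hz : ∀ i ∈ S, z i ∈ A) (p : MvPolynomial σ ℤ) (hp : p ∈ MvPolynomial.supported ℤ S) :
    ev z p ∈ A := by
  rw [MvPolynomial.supported_eq_adjoin_X] at hp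
  induction hp using Algebra.adjoin_induction with
  | mem x hx =>
    obtain ⟨i, hi, rfl⟩ := hx
    simpa [ev] using hz i hi
  | algebraMap r => simp [ev]
  | add x y _ _ hx hy => rw [map_add]; exact A.add_mem hx hy
  | mul x y _ _ hx hy => rw [map_mul]; exact A.mul_mem hx hy

theorem padicdet_deriv_mem {K : Type*} [CommRing K] (A : Subring K) (g : Polynomial K)
    (hg : ∀ j, g.coeff j ∈ A) (x : K) (hx : x ∈ A) : g.derivative.eval x ∈ A := by
  rw [Polynomial.eval_eq_sum_range]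
  refine A.sum_mem fun j _ => A.mul_mem ?_ (A.pow_mem hx _)
  rw [Polynomial.coeff_derivative]
  exact A.mul_mem (hg _) (A.add_mem (natCast_mem A j) A.one_mem)

theorem padicdet_dvd_iff {ℓ : ℕ} [Fact ℓ.Prime] (x : ℤ_[ℓ]) :
    (ℓ : ℤ_[ℓ]) ∣ x ↔ PadicInt.toZMod x = 0 := by
  rw [← RingHom.mem_ker, PadicInt.ker_toZMod, PadicInt.maximalIdeal_eq_span_p,
    Ideal.mem_span_singleton]

theorem padicdet_toZMod {ℓ : ℕ} [hℓ : Fact ℓ.Prime] (q : ℚ) (hq : ¬ ℓ ∣ q.den) (x : ℤ_[ℓ])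
    (hx : (x : ℚ_[ℓ]) = (q : ℚ_[ℓ])) : PadicInt.toZMod x = (res ℓ q : ZMod ℓ) := by
  have h1 : x * (q.den : ℤ_[ℓ]) = (q.num : ℤ_[ℓ]) := by
    apply Subtype.ext
    simp only [PadicInt.coe_mul, PadicInt.coe_natCast, PadicInt.coe_intCast, hx]
    exact_mod_cast Rat.mul_den_eq_num q
  have h2 := congrArg PadicInt.toZMod h1
  simp only [map_mul, map_natCast, map_intCast] at h2
  have h3 : (q.den : ZMod ℓ) ≠ 0 := by
    rwa [Ne, ZMod.natCast_eq_zero_iff]
  unfold res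
  rw [ZMod.natCast_zmod_val, ← h2, mul_assoc, mul_inv_cancel₀ h3, mul_one]

theorem padicdet_one_le_norm {ℓ : ℕ} [hℓ : Fact ℓ.Prime] (q : ℚ) (hq : ¬ (ℓ : ℤ) ∣ q.num) :
    1 ≤ ‖(q : ℚ_[ℓ])‖ := by
  have h1 : (q : ℚ_[ℓ]) * ((q.den : ℤ) : ℚ_[ℓ]) = (q.num : ℚ_[ℓ]) := by
    exact_mod_cast Rat.mul_den_eq_num q
  have h2 : 1 ≤ ‖(q.num : ℚ_[ℓ])‖ := by
    by_contra h
    exact hq (Padic.norm_intCast_lt_one_iff.1 (not_le.1 h))
  have h3 := Padic.norm_int_le_one (p := ℓ) (q.den : ℤ)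
  rw [← h1, norm_mul] at h2
  have h4 := norm_nonneg (q : ℚ_[ℓ])
  nlinarith

/-- approximate membership in a subring -/
def padicdetApx {K : Type*} [CommRing K] (A : Subring K) (ρ : K) : Subring K where
  carrier := {y | ∃ a ∈ A, ρ ∣ y - a}
  mul_mem' := by
    rintro x y ⟨a, ha, hx⟩ ⟨b, hb, hy⟩
    refine ⟨a * b, A.mul_mem ha hb, ?_⟩
    have : x * y - a * b = (x - a) * y + a * (y - b) := by ring
    rw [this]
    exact dvd_add (hx.mul_right _) (hy.mul_left _)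
  one_mem' := ⟨1, A.one_mem, by simp⟩
  add_mem' := by
    rintro x y ⟨a, ha, hx⟩ ⟨b, hb, hy⟩
    refine ⟨a + b, A.add_mem ha hb, ?_⟩
    have : x + y - (a + b) = (x - a) + (y - b) := by ring
    rw [this]
    exact dvd_add hx hy
  zero_mem' := ⟨0, A.zero_mem, by simp⟩
  neg_mem' := by
    rintro x ⟨a, ha, hx⟩
    refine ⟨-a, A.neg_mem ha, ?_⟩
    have : -x - -a = -(x - a) := by ring
    rw [this]
    exact dvd_neg.2 hx

theorem padicdet_pi_dvd {R : Type*} [CommRing R] {r : ℕ} (a y : Fin r → R)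
    (h : ∀ j, a j ∣ y j) : a ∣ y := by
  choose t ht using h
  exact ⟨t, funext ht⟩

/-- the abstract core: rows in `∑ N ^ k 𝒜 + π ^ n Λ` -/
theorem padicdet_core {R : Type*} [CommRing R] (π : R) {r : ℕ} {κ : Type} [Fintype κ]
    (t : κ → Fin r → R) (N : Fin r → R) (D' I : ℕ) (M : Matrix (Fin r) (Fin r) R)
    (hM : ∀ i, ∃ (S : Finset (ℕ × (Fin r → R))), M i = ∑ x ∈ S, x.2 * N ^ x.1 ∧
      ∀ x ∈ S, x.1 ≤ D' ∧ x.2 ∈ padicdetApx
        (Algebra.adjoin R (Set.range fun k => π • t k)).toSubring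
          (algebraMap R (Fin r → R) π ^ Gf r (Fintype.card κ) D' I)) :
    π ^ Gf r (Fintype.card κ) D' I ∣ M.det := by
  classical
  set n := Gf r (Fintype.card κ) D' I with hn
  let wt : (κ →₀ ℕ) × Fin (D' + 1) → ℕ := fun μ => μ.1.sum fun _ a => a
  let e : (κ →₀ ℕ) × Fin (D' + 1) → Fin r → R := fun μ => (∏ k, t k ^ μ.1 k) * N ^ (μ.2 : ℕ)
  let W : Submodule R (Fin r → R) := Submodule.span R (Set.range fun μ => π ^ wt μ • e μ)
  have hW : ∀ a ∈ Algebra.adjoin R (Set.range fun k => π • t k), ∀ k ≤ D', a * N ^ k ∈ W := by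
    intro a ha k hk
    rw [Algebra.adjoin_range_eq_range_aeval] at ha
    obtain ⟨p, rfl⟩ := ha
    change MvPolynomial.aeval _ p * _ ∈ W
    rw [MvPolynomial.aeval_def, MvPolynomial.eval₂_eq', Finset.sum_mul]
    refine W.sum_mem fun d _ => ?_
    rw [mul_assoc, ← Algebra.smul_def]
    refine W.smul_mem _ (Submodule.subset_span ⟨(d, ⟨k, Nat.lt_succ_of_le hk⟩), ?_⟩)
    simp only [wt, e, smul_pow, Finset.prod_smul, smul_mul_assoc]
    rw [Finsupp.sum_fintype _ _ (fun _ => rfl), Finset.prod_pow_eq_pow_sum]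
  refine det_dvd_of_span π wt e (fun i => (D' + 1) * (i + Fintype.card κ).choose (Fintype.card κ))
    (fun i T hT => card_mon_le D' i T hT) I n M (fun i => ?_) le_rfl
  obtain ⟨S, hS, hS'⟩ := hM i
  have key : ∃ w ∈ W, ∃ v : Fin r → R, M i = w + π ^ n • v := by
    rw [hS]
    clear hS
    induction S using Finset.induction_on with
    | empty => exact ⟨0, W.zero_mem, 0, by simp⟩
    | insert x S hx ih =>
      obtain ⟨w, hw, v, hv⟩ := ih fun y hy => hS' y (Finset.mem_insert_of_mem hy)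
      obtain ⟨hk, a, ha, b, hb⟩ := hS' x (Finset.mem_insert_self _ _)
      refine ⟨a * N ^ x.1 + w, W.add_mem (hW a ha _ hk) hw, b * N ^ x.1 + v, ?_⟩
      rw [Finset.sum_insert hx, hv, eq_add_of_sub_eq hb, ← map_pow, ← Algebra.smul_def, smul_add,
        add_mul, smul_mul_assoc]
      abel
  obtain ⟨w, hw, v, hv⟩ := key
  obtain ⟨c, hc⟩ := Finsupp.mem_span_range_iff_exists_finsupp.1 hw
  refine ⟨c, v, ?_⟩
  rw [hv, ← hc]
  simp only [smul_smul]

/-- The `ℓ`-adic gain.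
Hint: work in `R = ℤ_[ℓ]` (all coordinates `z j i` are `ℓ`-integral by `Good`) and in the ring
`Λ = Fin r → R` of functions on the points.  Let `c i ∈ ℤ` be the common residue of the coordinate
`i` (for `i = some _`, and for `i = none` when `s.vert = false`), so `z · i = c i + ℓ t i`.  Let `𝒜`
be the subring of `Λ` of all `R`-combinations of `ℓ ^ |a| t ^ a`, `a : J →₀ ℕ`; it contains the
constants and the coordinates `some j`, `j ∈ J`.  By `newton_mem` every dependent coordinate lies in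
`𝒜 + ℓ ^ n Λ` (the derivative is a unit with the same residue at all points).  So each row
`ev (z ·) (f i)` lies in `∑_{j ≤ D'} N ^ j 𝒜 + ℓ ^ n Λ` (`D' = D` if vertical, `0` otherwise);
apply `det_dvd_of_span` with index set `(J →₀ ℕ) × Fin (D' + 1)` and `card_mon_le`.  Finally
`det (ev (z j) (f i)) = (∏ u j) * det M` and `∏ u j` has `ℓ`-adic norm `≥ 1`
(`PadicInt.norm_int_le_pow_iff_dvd`, `PadicInt.pow_p_dvd_int_iff`). -/
theorem padic_det {ι : Type} [Fintype ι] [DecidableEq ι] (s : Sys ι) (δ H : ℕ) (hs : s.Cx δ H)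
    (ℓ : ℕ) (hℓ : ℓ.Prime) {r : ℕ} (z : Fin r → Option ι → ℚ) (hnd : ∀ j, s.ND (z j))
    (hg : ∀ j, s.Good (z j) ℓ) (hcl : ∀ j j', cl ℓ (z j) = cl ℓ (z j'))
    (hN : s.vert = false → ∀ j j', res ℓ (z j none) = res ℓ (z j' none)) (D : ℕ)
    (f : Fin r → MvPolynomial (Option ι) ℤ)
    (hf : s.vert = true → ∀ i, (f i).degreeOf none ≤ D)
    (M : Matrix (Fin r) (Fin r) ℤ) (u : Fin r → ℚ) (hu : ∀ j, ¬ (ℓ : ℤ) ∣ (u j).num)
    (hM : ∀ i j, ev (z j) (f i) = u j * M i j) (I : ℕ) :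
    (ℓ : ℤ) ^ Gf r s.J.card (if s.vert then D else 0) I ∣ M.det := by
  classical
  have : Fact ℓ.Prime := ⟨hℓ⟩
  rcases Nat.eq_zero_or_pos r with rfl | hr
  · simp [Gf]
  let j0 : Fin r := ⟨0, hr⟩
  let X : Option ι → Fin r → ℤ_[ℓ] := fun i j =>
    ⟨(z j i : ℚ_[ℓ]), Padic.norm_rat_le_one ((hg j).1 i)⟩
  let φ : Fin r → (Fin r → ℤ_[ℓ]) →+* ℚ_[ℓ] := fun j =>
    PadicInt.Coe.ringHom.comp (Pi.evalRingHom (fun _ => ℤ_[ℓ]) j)
  have hφ : ∀ j y, φ j y = ((y j : ℤ_[ℓ]) : ℚ_[ℓ]) := fun _ _ => rfl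
  have hφX : ∀ j, (fun i => φ j (X i)) = fun i => Rat.castHom ℚ_[ℓ] (z j i) := fun _ => rfl
  have hφX' : ∀ j i, φ j (X i) = Rat.castHom ℚ_[ℓ] (z j i) := fun _ _ => rfl
  let ψ : Fin r → (Fin r → ℤ_[ℓ]) →+* ZMod ℓ := fun j =>
    PadicInt.toZMod.comp (Pi.evalRingHom (fun _ => ℤ_[ℓ]) j)
  have hψ : ∀ j y, ψ j y = PadicInt.toZMod (y j) := fun _ _ => rfl
  have hψX : ∀ j i, ψ j (X i) = (res ℓ (z j i) : ZMod ℓ) := fun j i =>
    padicdet_toZMod (z j i) ((hg j).1 i) _ rfl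
  let π : Fin r → ℤ_[ℓ] := algebraMap ℤ_[ℓ] (Fin r → ℤ_[ℓ]) (ℓ : ℤ_[ℓ])
  have hπ : ∀ y : Fin r → ℤ_[ℓ], (∀ j, ψ j y = 0) → π ∣ y := fun y hy =>
    padicdet_pi_dvd _ _ fun j => (padicdet_dvd_iff _).2 (hy j)
  -- congruent coordinates
  have hsome : ∀ j i, ψ j (X (some i)) = ψ j0 (X (some i)) := fun j i => by
    rw [hψX, hψX]
    exact congrArg _ (congrFun (hcl j j0) i)
  have hdep : ∀ η, s.Dep η → ∀ j, ψ j (X η) = ψ j0 (X η) := by
    rintro (_ | i) hη j
    · rw [hψX, hψX, hN hη j j0]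
    · exact hsome j i
  have hres : ∀ η, (∀ j, ψ j (X η) = ψ j0 (X η)) →
      π ∣ X η - ((res ℓ (z j0 η) : ℕ) : Fin r → ℤ_[ℓ]) := fun η hη =>
    hπ _ fun j => by rw [map_sub, hη, hψX, map_natCast, sub_self]
  choose t ht using fun k : s.J => hres (some k) fun j => hsome j k
  set D' := (if s.vert then D else 0) with hD'
  set n := Gf r (Fintype.card s.J) D' I with hn
  let 𝒜 : Subring (Fin r → ℤ_[ℓ]) :=
    (Algebra.adjoin ℤ_[ℓ] (Set.range fun k => (ℓ : ℤ_[ℓ]) • t k)).toSubring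
  have hfree : ∀ i ∈ some '' (s.J : Set ι), X i ∈ 𝒜 := by
    rintro _ ⟨k, hk, rfl⟩
    rw [eq_add_of_sub_eq (ht ⟨k, hk⟩), ← Algebra.smul_def]
    exact 𝒜.add_mem (Algebra.subset_adjoin ⟨⟨k, hk⟩, rfl⟩) (natCast_mem 𝒜 _)
  have hnew : ∀ η, s.Dep η → X η ∈ padicdetApx 𝒜 (π ^ n) := by
    intro η hη
    have hco : ∀ (A : Subring (Fin r → ℤ_[ℓ])), (∀ i ∈ some '' (s.J : Set ι), X i ∈ A) →
        ∀ j, (s.gv X η).coeff j ∈ A := fun A hA j => by
      unfold Sys.gv
      rw [Polynomial.coeff_map]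
      exact padicdet_ev_mem_supp A X _ hA _ ((hs η hη).2 j).1
    have hx : (s.gv X η).eval (X η) = 0 := by
      funext j
      apply Subtype.ext
      change φ j _ = 0
      rw [padicdet_map_eval, hφX, hφX', ← padicdet_map_eval, ((hnd j) η hη).1, map_zero]
    set dv := (s.gv X η).derivative.eval (X η) with hdv
    have hdv0 : IsUnit (dv j0) := by
      rw [PadicInt.isUnit_iff]
      refine le_antisymm (PadicInt.norm_le_one _) ?_
      rw [PadicInt.norm_def, ← hφ, hdv, padicdet_map_deriv, hφX, hφX', ← padicdet_map_deriv]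
      exact padicdet_one_le_norm _ ((hg j0).2 η hη)
    obtain ⟨u0, hu0⟩ := hdv0.exists_left_inv
    have hdvj : ∀ j, ψ j dv = ψ j0 dv := fun j => by
      have : dv ∈ RingHom.eqLocus (ψ j) (ψ j0) := by
        refine padicdet_deriv_mem _ _ (hco _ ?_) _ (hdep η hη j)
        rintro _ ⟨k, -, rfl⟩
        exact hsome j k
      exact this
    refine newton_mem 𝒜 π (s.gv X η) (hco 𝒜 hfree) (X η) hx _
      (algebraMap ℤ_[ℓ] (Fin r → ℤ_[ℓ]) u0) (natCast_mem 𝒜 _) (Subalgebra.algebraMap_mem _ _)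
      (hres η (hdep η hη)) (hπ _ fun j => ?_) n
    rw [map_sub, map_mul, ← hdv, hdvj, map_one]
    change PadicInt.toZMod u0 * PadicInt.toZMod (dv j0) - 1 = 0
    rw [← map_mul, hu0, map_one, sub_self]
  have hall : ∀ i, X (some i) ∈ padicdetApx 𝒜 (π ^ n) := fun i => by
    by_cases hi : i ∈ s.J
    · exact ⟨_, hfree _ ⟨i, hi, rfl⟩, by simp⟩
    · exact hnew (some i) hi
  let M' : Matrix (Fin r) (Fin r) ℤ_[ℓ] := fun i => ev X (f i)
  have hdvd : (ℓ : ℤ_[ℓ]) ^ n ∣ M'.det := by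
    refine padicdet_core (ℓ : ℤ_[ℓ]) t (X none) D' I M' fun i => ?_
    cases hv : s.vert with
    | false =>
      refine ⟨{(0, ev X (f i))}, by simp [M'], ?_⟩
      intro x hx
      rw [Finset.mem_singleton] at hx
      subst hx
      refine ⟨Nat.zero_le _, ?_⟩
      refine padicdet_ev_mem_supp _ X Set.univ ?_ _ (by simp)
      rintro (_ | k) -
      · exact hnew none hv
      · exact hall k
    | true =>
      let cf : ℕ → Fin r → ℤ_[ℓ] := fun k => ∑ d ∈ (f i).support.filter (fun d => d none = k),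
        (((f i).coeff d : ℤ) : Fin r → ℤ_[ℓ]) * ∏ a : ι, X (some a) ^ d (some a)
      refine ⟨(range (D + 1)).map ⟨fun k => (k, cf k), fun a b h => congrArg Prod.fst h⟩, ?_, ?_⟩
      · rw [Finset.sum_map]
        simp only [Function.Embedding.coeFn_mk, cf, Finset.sum_mul]
        change MvPolynomial.eval₂ _ _ _ = _
        rw [MvPolynomial.eval₂_eq', ← Finset.sum_fiberwise_of_maps_to (s := (f i).support)
          (t := range (D + 1)) (g := fun d => d none)]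
        · refine Finset.sum_congr rfl fun k _ => Finset.sum_congr rfl fun d hd => ?_
          rw [Fintype.prod_option, (Finset.mem_filter.1 hd).2, eq_intCast]
          ring
        · intro d hd
          exact Finset.mem_range.2 (Nat.lt_succ_of_le
            ((MvPolynomial.monomial_le_degreeOf none hd).trans (hf hv i)))
      · intro x hx
        obtain ⟨k, hk, rfl⟩ := Finset.mem_map.1 hx
        refine ⟨?_, ?_⟩
        · simp only [Function.Embedding.coeFn_mk, hD', hv, if_true]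
          exact Nat.le_of_lt_succ (Finset.mem_range.1 hk)
        · exact Subring.sum_mem _ fun d _ => Subring.mul_mem _ (intCast_mem _ _)
            (Subring.prod_mem _ fun a _ => Subring.pow_mem _ (hall a) _)
  have hdet : ((M'.det : ℤ_[ℓ]) : ℚ_[ℓ]) = (∏ j, (u j : ℚ_[ℓ])) * (M.det : ℚ_[ℓ]) := by
    have h1 := RingHom.map_det (PadicInt.Coe.ringHom (p := ℓ)) M'
    have h2 := RingHom.map_det (Int.castRingHom ℚ_[ℓ]) M
    rw [eq_intCast] at h2
    change ((M'.det : ℤ_[ℓ]) : ℚ_[ℓ]) = _ at h1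
    rw [h1, h2, ← Matrix.det_mul_row]
    congr 1
    ext i j
    change φ j (ev X (f i)) = _
    rw [padicdet_map_ev, hφX, ← padicdet_map_ev, hM]
    simp
  have hn1 : ‖((M'.det : ℤ_[ℓ]) : ℚ_[ℓ])‖ ≤ (ℓ : ℝ) ^ (-n : ℤ) := by
    rw [← PadicInt.norm_def, PadicInt.norm_le_pow_iff_mem_span_pow, Ideal.mem_span_singleton]
    exact hdvd
  have hn2 : 1 ≤ ‖∏ j, (u j : ℚ_[ℓ])‖ := by
    rw [norm_prod]
    exact Finset.one_le_prod fun j _ => padicdet_one_le_norm _ (hu j)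
  rw [hdet, norm_mul] at hn1
  rw [← Fintype.card_coe s.J]
  refine (Padic.norm_int_le_pow_iff_dvd (p := ℓ) _ _).1 (le_trans ?_ hn1)
  exact le_mul_of_one_le_left (norm_nonneg _) hn2

end Crest.Agent.R022
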