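import Crest.Agent.R022.Defs

set_option autoImplicit false

namespace Crest.Agent.R022

open Finset

attribute [local instance] Matrix.seminormedAddCommGroup in
theorem siegel_base {α β : Type*} [Fintype α] [Fintype β] (A : Matrix α β ℤ) (H : ℕ) (hH : 1 ≤ H)
    (hA : ∀ i u, (A i u).natAbs ≤ H) (hn : Fintype.card α < Fintype.card β) :
    ∃ t : β → ℤ, t ≠ 0 ∧ (∀ u, (t u).natAbs ≤ (Fintype.card β * H) ^ Fintype.card β) ∧
      ∀ i, ∑ u, A i u * t u = 0 := by
  have h1 : 1 ≤ Fintype.card β * H := Nat.mul_pos (by omega) hH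
  rcases Nat.eq_zero_or_pos (Fintype.card α) with h0 | h0
  · have : Nonempty β := Fintype.card_pos_iff.1 (by omega)
    have := Fintype.card_eq_zero_iff.1 h0
    exact ⟨fun _ => 1, fun h => one_ne_zero (congrFun h (Classical.arbitrary β)),
      fun _ => Nat.one_le_pow _ _ h1, fun i => isEmptyElim i⟩
  obtain ⟨t, ht0, ht, hb⟩ := Int.Matrix.exists_ne_zero_int_vec_norm_le A hn h0
  refine ⟨t, ht0, fun u => ?_, fun i => congrFun ht i⟩
  have hH' : (1 : ℝ) ≤ H := by exact_mod_cast hH
  have hAn : max 1 ‖A‖ ≤ H := max_le hH' ((Matrix.norm_le_iff (by positivity)).2 fun i j => by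
    rw [Int.norm_eq_abs, ← Int.cast_abs, ← Int.natCast_natAbs]
    exact_mod_cast hA i j)
  have hmn : (Fintype.card α : ℝ) + 1 ≤ Fintype.card β := by exact_mod_cast hn
  have hm0 : (0 : ℝ) ≤ Fintype.card α := by positivity
  have h2 : (1 : ℝ) ≤ Fintype.card β * H := by exact_mod_cast h1
  have h3 : ‖t u‖ ≤ ((Fintype.card β : ℝ) * H) ^ (Fintype.card β : ℝ) := by
    refine (norm_le_pi_norm t u).trans (hb.trans ((Real.rpow_le_rpow (by positivity)
      (mul_le_mul_of_nonneg_left hAn (by positivity))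
      (div_nonneg hm0 (by linarith))).trans (Real.rpow_le_rpow_of_exponent_le h2 ?_)))
    rw [div_le_iff₀ (by linarith)]
    nlinarith
  rw [Real.rpow_natCast, Int.norm_eq_abs, ← Int.cast_abs, ← Int.natCast_natAbs] at h3
  exact_mod_cast h3

/-- Small integer solutions with a prescribed nonzero coordinate.
Hint: take a rational solution with `x u0 ≠ 0` of minimal support `U'`; the solution space of the
system restricted to the columns `U'` is then one-dimensional.  Choose a maximal `ℚ`-independent set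
of rows (restricted to `U'`), it has `< #U'` elements; apply Siegel's lemma
`Int.Matrix.exists_ne_zero_int_vec_norm_le` (or Cramer's rule); if there are no rows take a unit
vector. -/
theorem siegel_coord {I U : Type*} [Fintype U] (A : I → U → ℤ) (H : ℕ) (hH : 1 ≤ H)
    (hA : ∀ i u, (A i u).natAbs ≤ H) (x : U → ℚ) (u0 : U) (hx0 : x u0 ≠ 0)
    (hx : ∀ i, ∑ u, (A i u : ℚ) * x u = 0) :
    ∃ t : U → ℤ, t u0 ≠ 0 ∧ (∀ u, (t u).natAbs ≤ (Fintype.card U * H) ^ Fintype.card U) ∧
      ∀ i, ∑ u, A i u * t u = 0 := by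
  classical
  let R : Set (U → ℚ) := Set.range fun i u => (A i u : ℚ)
  let e : U → U → ℚ := fun u => Pi.single u 1
  let φ : (U → ℚ) → (U → ℚ) →ₗ[ℚ] ℚ := fun y => Fintype.linearCombination ℚ y
  have hφ : ∀ y v, φ y v = ∑ u, v u * y u := fun y v => by
    simp [φ, Fintype.linearCombination_apply]
  have hφe : ∀ y u, φ y (e u) = y u := fun y u => by simp [φ, e]
  have hker : ∀ (y : U → ℚ) (s : Set (U → ℚ)), (∀ v ∈ s, φ y v = 0) →
      ∀ v ∈ Submodule.span ℚ s, φ y v = 0 := fun y s hs v hv =>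
    (Submodule.span_le (p := LinearMap.ker (φ y))).2 hs hv
  obtain ⟨b1, hb1R, -, hRb1, hb1⟩ := exists_linearIndepOn_id_extension
    (linearIndepOn_empty ℚ id) (Set.empty_subset R)
  have he0 : e u0 ∉ Submodule.span ℚ b1 := fun h => hx0 (by
    rw [← hφe x u0]
    refine hker x b1 (fun v hv => ?_) _ h
    obtain ⟨i, rfl⟩ := hb1R hv
    rw [hφ]; exact hx i)
  obtain ⟨b2, hb2, h12, hsp, hli⟩ := exists_linearIndepOn_id_extension (hb1.id_insert he0)
    (Set.subset_union_left (t := Set.range e))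
  have hfin : b2.Finite := LinearIndependent.set_finite_of_isNoetherian hli
  have : Fintype b2 := hfin.fintype
  have hcard : Fintype.card b2 ≤ Fintype.card U := by
    simpa using LinearIndependent.fintype_card_le_finrank hli
  have hint : ∀ v : b2, ∃ w : U → ℤ, (∀ u, (w u).natAbs ≤ H) ∧ v.1 = fun u => (w u : ℚ) := by
    rintro ⟨v, hv⟩
    have h1 : v ∈ R ∨ v ∈ Set.range e := by
      rcases hb2 hv with (rfl | h) | h
      exacts [Or.inr ⟨u0, rfl⟩, Or.inl (hb1R h), Or.inr h]
    rcases h1 with ⟨i, rfl⟩ | ⟨u, rfl⟩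
    · exact ⟨A i, hA i, rfl⟩
    · refine ⟨Pi.single u 1, fun u' => ?_, funext fun u' => ?_⟩
      · by_cases h : u' = u <;> simp [h, hH]
      · by_cases h : u' = u <;> simp [e, h]
  choose w hw hwv using hint
  let v0 : b2 := ⟨e u0, h12 (Set.mem_insert _ _)⟩
  obtain ⟨t, ht0, htb, ht⟩ := siegel_base (α := {v : b2 // v ≠ v0}) (fun v => w v.1) H hH
    (fun v => hw v.1) ((Fintype.card_subtype_lt (x := v0) (by simp)).trans_le hcard)
  have key : ∀ v (hv : v ∈ b2), v ≠ e u0 → φ (fun u => (t u : ℚ)) v = 0 := fun v hv hne => by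
    have := ht ⟨⟨v, hv⟩, fun h => hne (congrArg Subtype.val h)⟩
    rw [hφ, show v = fun u => (w ⟨v, hv⟩ u : ℚ) from hwv ⟨v, hv⟩]
    beta_reduce
    exact_mod_cast this
  refine ⟨t, fun h => ht0 (funext fun u => ?_), htb, fun i => ?_⟩
  · have := hker (fun u => (t u : ℚ)) b2 (fun v hv => by
      by_cases hne : v = e u0
      · rw [hne, hφe, h, Int.cast_zero]
      · exact key v hv hne) _ (hsp (Or.inr ⟨u, rfl⟩))
    rw [hφe] at this
    exact_mod_cast this
  · have := hker (fun u => (t u : ℚ)) b1 (fun v hv => key v (h12 (Or.inr hv))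
      fun h => he0 (h ▸ Submodule.subset_span hv)) _ (hRb1 ⟨i, rfl⟩)
    rw [hφ] at this
    beta_reduce at this
    exact_mod_cast this

end Crest.Agent.R022
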