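import Crest.Agent.R022.Comp
import Crest.Agent.R022.Siegel

set_option autoImplicit false

namespace Crest.Agent.R022

open Finset

/-- the order generated by the roots -/
abbrev Ord {d : ℕ} (ϑ : Fin d → ℂ) : Subalgebra ℤ ℂ := Algebra.adjoin ℤ (Set.range ϑ)

/-- the roots as elements of the order -/
def rt {d : ℕ} (ϑ : Fin d → ℂ) (i : Fin d) : Ord ϑ :=
  ⟨ϑ i, Algebra.subset_adjoin (Set.mem_range_self i)⟩

theorem primes_integral {d : ℕ} {F : Polynomial ℤ} {ϑ : Fin d → ℂ} (hF : FS F ϑ) :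
    Algebra.IsIntegral ℤ (Ord ϑ) :=
  Algebra.IsIntegral.adjoin (by
    rintro _ ⟨i, rfl⟩
    exact ⟨F, hF.monic, hF.root i⟩)

theorem primes_aeval_coe {d : ℕ} (ϑ : Fin d → ℂ) (i : Fin d) (G : Polynomial ℤ) :
    ((Polynomial.aeval (rt ϑ i) G : Ord ϑ) : ℂ) = Polynomial.aeval (ϑ i) G :=
  (Polynomial.aeval_algHom_apply (Ord ϑ).val (rt ϑ i) G).symm

theorem primes_root {d : ℕ} {F : Polynomial ℤ} {ϑ : Fin d → ℂ} (hF : FS F ϑ) (i : Fin d) :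
    Polynomial.aeval (rt ϑ i) F = 0 :=
  Subtype.ext (by rw [primes_aeval_coe, hF.root i]; rfl)

theorem primes_dvd {d : ℕ} {F : Polynomial ℤ} {ϑ : Fin d → ℂ} (hF : FS F ϑ) (i : Fin d)
    {G : Polynomial ℤ} (hG : Polynomial.aeval (ϑ i) G = 0) : F ∣ G := by
  have h1 : F.map (Int.castRingHom ℚ) = minpoly ℚ (ϑ i) :=
    minpoly.eq_of_irreducible_of_monic hF.irr
      (by rw [← algebraMap_int_eq, Polynomial.aeval_map_algebraMap, hF.root i]) (hF.monic.map _)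
  rw [← Polynomial.map_dvd_map (Int.castRingHom ℚ) (RingHom.injective_int _) hF.monic, h1]
  exact minpoly.dvd ℚ _ (by rw [← algebraMap_int_eq, Polynomial.aeval_map_algebraMap, hG])

theorem primes_over {d : ℕ} {F : Polynomial ℤ} {ϑ : Fin d → ℂ} (hF : FS F ϑ) (i : Fin d) {p : ℕ}
    (hp : p.Prime) {N : ℤ} (hN : (p : ℤ) ∣ F.eval N) : ∃ 𝔓 : Ideal (Ord ϑ), 𝔓.IsPrime ∧
      ∀ G : Polynomial ℤ, Polynomial.aeval (rt ϑ i) G ∈ 𝔓 ↔ (p : ℤ) ∣ G.eval N := by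
  haveI := Fact.mk hp
  haveI := primes_integral hF
  letI : Algebra (Polynomial ℤ) (Ord ϑ) := (Polynomial.aeval (rt ϑ i)).toRingHom.toAlgebra
  haveI : IsScalarTower ℤ (Polynomial ℤ) (Ord ϑ) :=
    IsScalarTower.of_algebraMap_eq' (RingHom.ext_int _ _)
  haveI : Algebra.IsIntegral (Polynomial ℤ) (Ord ϑ) := Algebra.IsIntegral.tower_top ℤ
  let ψ : Polynomial ℤ →+* ZMod p := (Int.castRingHom (ZMod p)).comp (Polynomial.evalRingHom N)
  have hψ : ∀ G, G ∈ RingHom.ker ψ ↔ (p : ℤ) ∣ G.eval N := fun G => by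
    rw [RingHom.mem_ker]
    exact ZMod.intCast_zmod_eq_zero_iff_dvd _ _
  haveI := RingHom.ker_isPrime ψ
  obtain ⟨Q, -, hQ, hQ'⟩ := Ideal.exists_ideal_over_prime_of_isIntegral (RingHom.ker ψ)
    (⊥ : Ideal (Ord ϑ)) (fun G hG => by
      have h0 : Polynomial.aeval (rt ϑ i) G = 0 := hG
      have h1 : F ∣ G := primes_dvd hF i (by rw [← primes_aeval_coe, h0]; rfl)
      exact (hψ G).2 (hN.trans (Polynomial.eval_dvd h1)))
  exact ⟨Q, hQ, fun G => by rw [← hψ, ← hQ']; rfl⟩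

theorem primes_int {d : ℕ} {F : Polynomial ℤ} {ϑ : Fin d → ℂ} (hF : FS F ϑ) (i j : Fin d) :
    ∃ n : ℤ, n ≠ 0 ∧ (j ≠ i → rt ϑ i - rt ϑ j ∣ (n : Ord ϑ)) := by
  by_cases h : j = i
  · exact ⟨1, one_ne_zero, fun h' => absurd h h'⟩
  haveI := primes_integral hF
  have h0 : rt ϑ i - rt ϑ j ≠ 0 := fun h0 => h (hF.inj (congrArg Subtype.val (sub_eq_zero.1 h0))).symm
  have h1 := Ideal.comap_ne_bot_of_integral_mem (R := ℤ) h0 (Ideal.mem_span_singleton_self _)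
    (Algebra.IsIntegral.isIntegral _)
  obtain ⟨n, hn, hn0⟩ := Submodule.exists_mem_ne_zero_of_ne_bot h1
  exact ⟨n, hn0, fun _ => Ideal.mem_span_singleton.1 hn⟩

/-- For large `p` and every `i` there is a prime above `p` containing `α_i` and no other conjugate.
Hint: `ℤ[T] → Ord ϑ`, `T ↦ ϑ_i` is integral with kernel `(F)` (`F` is monic and the minimal
polynomial of `ϑ_i`), contained in the kernel `𝔪` of `ℤ[T] → ZMod p`, `T ↦ N`; lying over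
(`Ideal.exists_ideal_over_prime_of_isIntegral`) gives `𝔓` with `p, N - ϑ_i ∈ 𝔓`.  Then
`conj a ϑ_i ≡ conj a N ≡ 0`.  For `j ≠ i`: `conj b ϑ_j * conj a ϑ_j ^ k = m ^ k (N - ϑ_j)` (from
`conj_bvec`, cancel `p ^ k`), so `conj a ϑ_j ∈ 𝔓` would give `p ∣ m` or `ϑ_i - ϑ_j ∈ 𝔓`; each
`ϑ_i - ϑ_j ≠ 0` divides a fixed nonzero integer in `Ord ϑ` (`Ideal.comap_ne_bot_of_integral_mem`). -/
theorem exists_prime_face {d : ℕ} {F : Polynomial ℤ} {ϑ : Fin d → ℂ} (hF : FS F ϑ) (hd : 2 ≤ d)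
    (k : ℕ) (hk : 1 ≤ k) (C : ℕ) :
    ∃ p₀ : ℕ, ∀ (X : ℕ) (N : ℤ) (p : ℕ) (m : ℤ) (a b : Fin d → ℤ) (A : ℕ),
      AD F k C X N p m a b A → p₀ ≤ p → ∀ i : Fin d, ∃ 𝔓 : Ideal (Ord ϑ), 𝔓.IsPrime ∧
        (∀ t : ℤ, (t : Ord ϑ) ∈ 𝔓 ↔ (p : ℤ) ∣ t) ∧
        conj (fun j => (a j : Ord ϑ)) (rt ϑ i) ∈ 𝔓 ∧
        ∀ j, j ≠ i → conj (fun j => (a j : Ord ϑ)) (rt ϑ j) ∉ 𝔓 := by
  choose n hn0 hn using primes_int hF
  refine ⟨C + ∑ q : Fin d × Fin d, (n q.1 q.2).natAbs + 1, fun X N p m a b A hA hp i => ?_⟩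
  obtain ⟨𝔓, h𝔓, hG⟩ := primes_over hF i hA.prime
    ((dvd_pow_self (p : ℤ) (by omega)).trans hA.dvdF)
  have hint : ∀ t : ℤ, (t : Ord ϑ) ∈ 𝔓 ↔ (p : ℤ) ∣ t := fun t => by
    simpa using hG (Polynomial.C t)
  have hsmall : ∀ t : ℤ, t ≠ 0 → t.natAbs < p → (t : Ord ϑ) ∉ 𝔓 := fun t ht htp h =>
    absurd (Nat.le_of_dvd (Int.natAbs_pos.2 ht) (Int.natCast_dvd.1 ((hint t).1 h))) (by omega)
  refine ⟨𝔓, h𝔓, hint, ?_, fun j hj h => ?_⟩
  · have := (hG (∑ j : Fin d, Polynomial.C (a j) * Polynomial.X ^ (j : ℕ))).2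
      (by simpa [conj, Polynomial.eval_finset_sum] using hA.dvda)
    simpa [conj] using this
  · have hN : (N : Ord ϑ) - rt ϑ i ∈ 𝔓 := by
      have := (hG (Polynomial.C N - Polynomial.X)).2 (by simp)
      rwa [map_sub, Polynomial.aeval_C, Polynomial.aeval_X] at this
    have h1 := conj_bvec F hF.monic hF.deg hd k (rt ϑ j) (primes_root hF j)
      (fun j => (a j : Ord ϑ)) (N : Ord ϑ)
    have h2 : bvec F k (fun j => (a j : Ord ϑ)) (N : Ord ϑ) =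
        fun j => (p : Ord ϑ) ^ k * (b j : Ord ϑ) := funext fun j => by
      have := map_bvec F k (Int.castRingHom (Ord ϑ)) a N j
      rw [← hA.hb j] at this
      simpa using this.symm
    have h3 : nm F (fun j => (a j : Ord ϑ)) = (p : Ord ϑ) * (m : Ord ϑ) := by
      have := map_nm F (Int.castRingHom (Ord ϑ)) a
      rw [hA.hnm] at this
      simpa using this.symm
    rw [h2, h3, conj_smul, mul_pow, mul_assoc, mul_assoc] at h1
    have h4 := mul_left_cancel₀ (pow_ne_zero k (Nat.cast_ne_zero.2 hA.prime.ne_zero)) h1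
    have h5 : (m : Ord ϑ) ^ k * ((N : Ord ϑ) - rt ϑ j) ∈ 𝔓 := by
      rw [← h4]
      exact 𝔓.mul_mem_left _ (𝔓.pow_mem_of_mem h k hk)
    rcases h𝔓.mem_or_mem h5 with h6 | h6
    · exact hsmall m hA.m0 (by have := hA.hm; omega) (h𝔓.mem_of_pow_mem k h6)
    · have h7 : rt ϑ i - rt ϑ j ∈ 𝔓 := by
        have := 𝔓.sub_mem h6 hN
        rwa [sub_sub_sub_cancel_left] at this
      have h8 : (n i j).natAbs ≤ ∑ q : Fin d × Fin d, (n q.1 q.2).natAbs :=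
        Finset.single_le_sum (f := fun q : Fin d × Fin d => (n q.1 q.2).natAbs)
          (fun _ _ => Nat.zero_le _) (Finset.mem_univ (i, j))
      exact hsmall (n i j) (hn0 i j) (by omega) (𝔓.mem_of_dvd (hn i j hj) h7)

end Crest.Agent.R022
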