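import Crest.Agent.R022.Defs

set_option autoImplicit false

namespace Crest.Agent.R022

open Finset

open Crest.NumberTheoryR

theorem rho_bezout (f : Polynomial ℤ) (hirr : Irreducible (f.map (Int.castRingHom ℚ))) :
    ∃ (u v : Polynomial ℤ) (Δ : ℤ), Δ ≠ 0 ∧ u * f + v * f.derivative = Polynomial.C Δ := by
  obtain ⟨a, b, hab⟩ : IsCoprime (f.map (Int.castRingHom ℚ))
      (f.map (Int.castRingHom ℚ)).derivative := hirr.separable
  obtain ⟨c₁, hc₁, h₁⟩ := IsLocalization.integerNormalization_spec (nonZeroDivisors ℤ) a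
  obtain ⟨c₂, hc₂, h₂⟩ := IsLocalization.integerNormalization_spec (nonZeroDivisors ℤ) b
  refine ⟨Polynomial.C c₂ * IsLocalization.integerNormalization (nonZeroDivisors ℤ) a,
    Polynomial.C c₁ * IsLocalization.integerNormalization (nonZeroDivisors ℤ) b, c₁ * c₂,
    mul_ne_zero (nonZeroDivisors.ne_zero hc₁) (nonZeroDivisors.ne_zero hc₂), ?_⟩
  apply Polynomial.map_injective (Int.castRingHom ℚ) Int.cast_injective
  have e : algebraMap ℤ ℚ = Int.castRingHom ℚ := rfl
  rw [e] at h₁ h₂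
  rw [Polynomial.derivative_map] at hab
  simp only [Polynomial.map_add, Polynomial.map_mul, h₁, h₂, zsmul_eq_mul,
    map_mul, eq_intCast, Polynomial.map_intCast]
  linear_combination ((c₁ : Polynomial ℚ) * c₂) * hab

/-- For large primes the number of roots modulo prime powers is at most the degree.
Hint: `f` is separable over `ℚ`, so `u f + v f' = Δ ≠ 0` with `u, v ∈ ℤ[T]`; for `p ∤ Δ` and
`p ∤ leadingCoeff f` (or just `f ≢ 0 mod p`), two roots modulo `p ^ j` that agree modulo `p` agree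
modulo `p ^ j` (`f(x) - f(y) = (x - y)(f'(y) + (x - y) k)`), and there are at most `deg f` roots in
`ZMod p`. -/
theorem rho_le (f : Polynomial ℤ) (hirr : Irreducible (f.map (Int.castRingHom ℚ))) :
    ∃ p₀ : ℕ, ∀ p j : ℕ, p.Prime → p₀ ≤ p → 1 ≤ j → polyRootCountMod f (p ^ j) ≤ f.natDegree := by
  classical
  obtain ⟨u, v, Δ, hΔ, huv⟩ := rho_bezout f hirr
  refine ⟨Δ.natAbs + 1, fun p j hp hp0 hj => ?_⟩
  have : Fact p.Prime := ⟨hp⟩
  have hpΔ : ¬ (p : ℤ) ∣ Δ := fun h => by
    have := Nat.le_of_dvd (Int.natAbs_pos.2 hΔ) (Int.natCast_dvd.1 h)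
    omega
  have hpi : Prime (p : ℤ) := Nat.prime_iff_prime_int.1 hp
  have hne : f.map (Int.castRingHom (ZMod p)) ≠ 0 := fun h0 => by
    have h1 := congrArg (Polynomial.map (Int.castRingHom (ZMod p))) huv
    rw [Polynomial.map_add, Polynomial.map_mul, Polynomial.map_mul, ← Polynomial.derivative_map, h0,
      Polynomial.map_C] at h1
    simp only [mul_zero, map_zero, add_zero] at h1
    have h2 := Polynomial.C_eq_zero.1 h1.symm
    exact hpΔ ((ZMod.intCast_zmod_eq_zero_iff_dvd _ _).1 h2)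
  have hpj : (p : ℤ) ∣ ((p ^ j : ℕ) : ℤ) := by
    push_cast
    exact dvd_pow_self _ (by omega)
  refine le_trans ?_ ((Multiset.toFinset_card_le _).trans ((Polynomial.card_roots'
    (f.map (Int.castRingHom (ZMod p)))).trans Polynomial.natDegree_map_le))
  unfold polyRootCountMod
  refine Finset.card_le_card_of_injOn (fun a : ℕ => (a : ZMod p)) (fun a ha => ?_)
    (fun a ha b hb hab => ?_)
  · simp only [coe_filter, Set.mem_ofPred_eq] at ha
    rw [mem_coe, Multiset.mem_toFinset, Polynomial.mem_roots hne, Polynomial.IsRoot.def]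
    have h1 : ((a : ℕ) : ZMod p) = Int.castRingHom (ZMod p) (a : ℤ) := by simp
    beta_reduce
    rw [h1, Polynomial.eval_map, Polynomial.eval₂_at_apply]
    exact (ZMod.intCast_zmod_eq_zero_iff_dvd _ _).2 (hpj.trans ha.2)
  · simp only [coe_filter, Set.mem_ofPred_eq, mem_range] at ha hb
    have h1 : (p : ℤ) ∣ (a : ℤ) - b := by
      rw [← ZMod.intCast_zmod_eq_zero_iff_dvd]
      push_cast
      exact sub_eq_zero.2 hab
    obtain ⟨k, hk⟩ := Polynomial.binomExpansion f (b : ℤ) ((a : ℤ) - b)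
    rw [add_sub_cancel] at hk
    have h2 : ((p ^ j : ℕ) : ℤ) ∣ ((a : ℤ) - b) * (f.derivative.eval (b : ℤ) + k * ((a : ℤ) - b)) := by
      have e : ((a : ℤ) - b) * (f.derivative.eval (b : ℤ) + k * ((a : ℤ) - b)) =
          f.eval (a : ℤ) - f.eval (b : ℤ) := by rw [hk]; ring
      rw [e]
      exact dvd_sub ha.2 hb.2
    have h3 : ¬ (p : ℤ) ∣ f.derivative.eval (b : ℤ) + k * ((a : ℤ) - b) := fun h => by
      have h4 : (p : ℤ) ∣ f.derivative.eval (b : ℤ) := (dvd_add_left (h1.mul_left k)).1 h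
      have h5 := congrArg (Polynomial.eval (b : ℤ)) huv
      simp only [Polynomial.eval_add, Polynomial.eval_mul, Polynomial.eval_C] at h5
      exact hpΔ (h5 ▸ dvd_add ((hpj.trans hb.2).mul_left _) (h4.mul_left _))
    rw [Nat.cast_pow] at h2
    have h6 := hpi.pow_dvd_of_dvd_mul_right j h3 h2
    rw [← Nat.cast_pow] at h6
    have h7 := Int.eq_zero_of_dvd_of_natAbs_lt_natAbs h6 (by
      rw [Int.natAbs_natCast]; omega)
    omega

/-- integers in a short interval are distinct modulo `q` -/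
theorem card_le_rho (f : Polynomial ℤ) (q X : ℕ) (hX : 2 * X < q) (T : Finset ℤ)
    (hT : ∀ N ∈ T, N.natAbs ≤ X ∧ (q : ℤ) ∣ f.eval N) : T.card ≤ polyRootCountMod f q := by
  have hq : (0 : ℤ) < q := by omega
  unfold polyRootCountMod
  refine Finset.card_le_card_of_injOn (fun N : ℤ => (N % q).toNat) (fun N hN => ?_)
    (fun N hN M hM h => ?_)
  · have h0 := Int.emod_nonneg N hq.ne'
    have h1 := Int.emod_lt_of_pos N hq
    simp only [coe_filter, Set.mem_ofPred_eq, mem_range]
    refine ⟨by omega, ?_⟩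
    rw [Int.toNat_of_nonneg h0]
    have h2 : (q : ℤ) ∣ N - N % q := Int.dvd_self_sub_of_emod_eq rfl
    have h3 := h2.trans (Polynomial.sub_dvd_eval_sub N (N % q) f)
    exact (dvd_sub_right (hT N hN).2).1 h3
  · have h0 := Int.emod_nonneg N hq.ne'
    have h0' := Int.emod_nonneg M hq.ne'
    have h1 : N % q = M % q := by
      beta_reduce at h
      omega
    have h2 : (q : ℤ) ∣ N - M :=
      Int.dvd_of_emod_eq_zero (Int.emod_eq_emod_iff_emod_sub_eq_zero.1 h1)
    have h3 := (hT N hN).1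
    have h4 := (hT M hM).1
    have h7 := Int.eq_zero_of_dvd_of_natAbs_lt_natAbs h2 (by
      rw [Int.natAbs_natCast]; omega)
    omega

/-- counting in residue classes -/
theorem card_dvd_le (f : Polynomial ℤ) (q X : ℕ) (hq : 0 < q) (T : Finset ℕ)
    (hT : ∀ n ∈ T, 1 ≤ n ∧ n ≤ X ∧ (q : ℤ) ∣ f.eval (n : ℤ)) :
    (T.card : ℝ) ≤ polyRootCountMod f q * ((X : ℝ) / q + 1) := by
  have h1 : T.card ≤ (X / q + 1) * polyRootCountMod f q := by
    unfold polyRootCountMod
    refine Finset.card_le_mul_card_image_of_maps_to (f := fun n : ℕ => n % q) (fun n hn => ?_) _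
      (fun a _ => ?_)
    · rw [mem_filter, mem_range]
      refine ⟨Nat.mod_lt _ hq, ?_⟩
      have h2 : (q : ℤ) ∣ (n : ℤ) - ((n % q : ℕ) : ℤ) := by
        push_cast
        exact Int.dvd_self_sub_of_emod_eq rfl
      have h3 := h2.trans (Polynomial.sub_dvd_eval_sub _ _ f)
      exact (dvd_sub_right (hT n hn).2.2).1 h3
    · rw [← card_range (X / q + 1)]
      refine Finset.card_le_card_of_injOn (fun n : ℕ => n / q) (fun n hn => ?_)
        (fun n hn m hm h => ?_)
      · simp only [coe_filter, Set.mem_ofPred_eq] at hn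
        rw [mem_coe, mem_range]
        exact Nat.lt_succ_of_le (Nat.div_le_div_right (hT n hn.1).2.1)
      · simp only [coe_filter, Set.mem_ofPred_eq] at hn hm
        beta_reduce at h
        rw [← Nat.div_add_mod n q, ← Nat.div_add_mod m q, h, hn.2, hm.2]
  have h2 : ((X / q : ℕ) : ℝ) ≤ (X : ℝ) / q := Nat.cast_div_le
  calc (T.card : ℝ) ≤ (((X / q + 1) * polyRootCountMod f q : ℕ) : ℝ) := by exact_mod_cast h1
    _ = polyRootCountMod f q * (((X / q : ℕ) : ℝ) + 1) := by push_cast; ring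
    _ ≤ _ := by gcongr

end Crest.Agent.R022
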