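import Crest.Agent.R022.Defs

set_option autoImplicit false

namespace Crest.Agent.R022

open Finset

theorem sel_extend {K M : Type*} [Field K] [AddCommGroup M] [Module K M] (T : ℕ → Set M)
    (D S n m : ℕ) (hnm : n ≤ m) (hm : (m : Cardinal) ≤ Module.rank K (Submodule.span K (T D)))
    (h : ∃ (v : Fin n → M) (lev : Fin n → ℕ), LinearIndependent K v ∧
      (∀ i, v i ∈ T (lev i) ∧ lev i ≤ D) ∧ ∑ i, lev i + S ≤ D * n) :
    ∃ (v : Fin m → M) (lev : Fin m → ℕ), LinearIndependent K v ∧
      (∀ i, v i ∈ T (lev i) ∧ lev i ≤ D) ∧ ∑ i, lev i + S ≤ D * m := by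
  classical
  induction m, hnm using Nat.le_induction with
  | base => exact h
  | succ m hnm ih =>
    obtain ⟨v, lev, hv, hl, hs⟩ := ih (le_trans (by exact_mod_cast Nat.le_succ m) hm)
    obtain ⟨x, hxT, hx⟩ : ∃ x ∈ T D, x ∉ Submodule.span K (Set.range v) := by
      by_contra hcon
      push Not at hcon
      have h1 : Submodule.span K (T D) ≤ Submodule.span K (Set.range v) :=
        Submodule.span_le.2 hcon
      have h2 := Submodule.rank_mono h1
      have h3 : Set.range v = ((Finset.univ.image v : Finset M) : Set M) := by simp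
      have h4 := rank_span_finset_le (R := K) (Finset.univ.image v)
      rw [← h3] at h4
      have h5 : ((m + 1 : ℕ) : Cardinal) ≤ ((Finset.univ.image v).card : ℕ) :=
        hm.trans (h2.trans h4)
      have h6 : m + 1 ≤ (Finset.univ.image v).card := by exact_mod_cast h5
      have h7 : (Finset.univ.image v).card ≤ m := by
        simpa using Finset.card_image_le (s := Finset.univ) (f := v)
      omega
    refine ⟨Fin.cons x v, Fin.cons D lev, hv.finCons hx, fun i => ?_, ?_⟩
    · refine Fin.cases ?_ (fun i => ?_) i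
      · simpa using hxT
      · simpa using hl i
    · rw [Fin.sum_univ_succ]
      simp only [Fin.cons_zero, Fin.cons_succ]
      rw [mul_add, mul_one]
      omega

/-- Selection of independent elements from a nested family of spanning sets (induction on `D`:
extend the family of size `g (D - 1)` by elements of `T D`, one at a time, as long as its size is
smaller than the rank). -/
theorem select_levels {K M : Type*} [Field K] [AddCommGroup M] [Module K M] (T : ℕ → Set M)
    (g : ℕ → ℕ) (D : ℕ) (hT : ∀ e < D, Submodule.span K (T e) ≤ Submodule.span K (T (e + 1)))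
    (hg : ∀ e ≤ D, (g e : Cardinal) ≤ Module.rank K (Submodule.span K (T e)))
    (hmono : ∀ e < D, g e ≤ g (e + 1)) :
    ∃ (v : Fin (g D) → M) (lev : Fin (g D) → ℕ), LinearIndependent K v ∧
      (∀ i, v i ∈ T (lev i) ∧ lev i ≤ D) ∧
      ∑ i, lev i + ∑ e ∈ range D, g e ≤ D * g D := by
  induction D with
  | zero =>
    exact sel_extend T 0 _ 0 (g 0) (Nat.zero_le _) (hg 0 le_rfl)
      ⟨Fin.elim0, Fin.elim0, linearIndependent_empty_type, fun i => i.elim0, by simp⟩
  | succ D ih =>
    obtain ⟨v, lev, hv, hl, hs⟩ := ih (fun e he => hT e (by omega)) (fun e he => hg e (by omega))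
      (fun e he => hmono e (by omega))
    refine sel_extend T (D + 1) _ (g D) (g (D + 1)) (hmono D (by omega)) (hg _ le_rfl)
      ⟨v, lev, hv, fun i => ⟨(hl i).1, (hl i).2.trans (Nat.le_succ D)⟩, ?_⟩
    rw [Finset.sum_range_succ, add_mul, one_mul]
    omega

/-- If all interpolation determinants vanish there is a nontrivial vanishing combination. -/
theorem exists_rel_of_det {r : ℕ} {X : Type*} (S : Set X) (f : Fin r → X → ℚ)
    (h : ∀ z : Fin r → X, (∀ j, z j ∈ S) → (Matrix.of fun i j => f i (z j)).det = 0) :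
    ∃ c : Fin r → ℚ, c ≠ 0 ∧ ∀ x ∈ S, ∑ i, c i * f i x = 0 := by
  classical
  set T : Set (Fin r → ℚ) := (fun x i => f i x) '' S with hT
  by_cases htop : Submodule.span ℚ T = ⊤
  · exfalso
    obtain ⟨v, lev, hv, hl, -⟩ := select_levels (K := ℚ) (fun _ => T) (fun _ => r) 0
      (fun e he => by omega) (fun e _ => by rw [htop]; simp) (fun e he => by omega)
    choose z hz hz' using fun j => (hl j).1
    have h1 := h z hz
    have h2 : LinearIndependent ℚ (Matrix.of fun i j => f i (z j)).col := by
      have : (Matrix.of fun i j => f i (z j)).col = v := funext fun j => hz' j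
      rw [this]
      exact hv
    rw [Matrix.linearIndependent_cols_iff_isUnit, Matrix.isUnit_iff_isUnit_det, h1] at h2
    exact not_isUnit_zero h2
  · obtain ⟨φ, hφ, hle⟩ := Submodule.exists_le_ker_of_lt_top _ (lt_top_iff_ne_top.2 htop)
    refine ⟨fun i => φ (Pi.single i 1), fun hc => hφ ?_, fun x hx => ?_⟩
    · refine LinearMap.pi_ext' fun i => LinearMap.ext_ring ?_
      simpa using congr_fun hc i
    · have h1 : φ (fun i => f i x) = 0 := hle (Submodule.subset_span ⟨x, hx, rfl⟩)
      rw [LinearMap.pi_apply_eq_sum_univ] at h1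
      rw [← h1]
      refine Finset.sum_congr rfl fun i _ => ?_
      rw [smul_eq_mul, mul_comm]
      congr 1
      refine congrArg φ (funext fun j => ?_)
      simp [Pi.single_apply, eq_comm]

/-- Covering: if `S` is covered by at most `a` pieces (fibres of a map with at most `a` values), each
covered by at most `b` labels with a property, then `S` is covered by at most `a * b` labels. -/
theorem cover_of_fibers {X Y Z : Type*} (S : Finset X) (f : X → Y) (a b : ℕ) (P : Z → Prop)
    (Rl : Z → X → Prop)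
    (ha : ∀ U : Finset Y, (∀ c ∈ U, ∃ x ∈ S, f x = c) → U.card ≤ a)
    (hb : ∀ S' ⊆ S, (∀ x ∈ S', ∀ x' ∈ S', f x = f x') →
      ∃ 𝓛 : Finset Z, 𝓛.card ≤ b ∧ (∀ s ∈ 𝓛, P s) ∧ ∀ x ∈ S', ∃ s ∈ 𝓛, Rl s x) :
    ∃ 𝓛 : Finset Z, 𝓛.card ≤ a * b ∧ (∀ s ∈ 𝓛, P s) ∧ ∀ x ∈ S, ∃ s ∈ 𝓛, Rl s x := by
  classical
  choose L hL hP hR using fun c : Y => hb (S.filter fun x => f x = c) (Finset.filter_subset _ _)
    (fun x hx x' hx' => (Finset.mem_filter.1 hx).2.trans (Finset.mem_filter.1 hx').2.symm)
  refine ⟨(S.image f).biUnion L, ?_, fun s hs => ?_, fun x hx => ?_⟩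
  · refine (Finset.card_biUnion_le_card_mul _ _ b fun c _ => hL c).trans ?_
    exact Nat.mul_le_mul_right _ (ha _ fun c hc => by simpa using hc)
  · obtain ⟨c, -, hc⟩ := Finset.mem_biUnion.1 hs
    exact hP c s hc
  · obtain ⟨s, hs, hs'⟩ := hR (f x) x (Finset.mem_filter.2 ⟨hx, rfl⟩)
    exact ⟨s, Finset.mem_biUnion.2 ⟨f x, Finset.mem_image_of_mem f hx, hs⟩, hs'⟩

end Crest.Agent.R022
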