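import Crest.Agent.R022.Delta
import Crest.Agent.R022.Rho
import Crest.Agent.R022.Mon
import Crest.Agent.R022.BadPrimes
import Crest.Agent.R022.ExCount

set_option autoImplicit false

namespace Crest.Agent.R022

open Finset

theorem uc_sum_le {R ι : Type*} [AddCommMonoid R] (f : R → ℕ) (h0 : f 0 ≤ 0)
    (hadd : ∀ x y, f (x + y) ≤ f x + f y) (s : Finset ι) (g : ι → R) :
    f (∑ i ∈ s, g i) ≤ ∑ i ∈ s, f (g i) := by
  classical
  induction s using Finset.induction_on with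
  | empty => simpa using h0
  | insert a s ha ih =>
    rw [sum_insert ha, sum_insert ha]
    exact (hadd _ _).trans (Nat.add_le_add_left ih _)

theorem uc_pow_le {R : Type*} [CommMonoid R] (f : R → ℕ) (hmul : ∀ x y, f (x * y) ≤ f x * f y)
    {B : ℕ} (h1 : f 1 ≤ B) {x : R} (hx : f x ≤ B) (e : ℕ) : f (x ^ e) ≤ B ^ (e + 1) := by
  induction e with
  | zero => simpa using h1
  | succ e ih =>
    rw [pow_succ, pow_succ]
    exact (hmul _ _).trans (Nat.mul_le_mul ih hx)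

theorem uc_prod_le {R ι : Type*} [CommMonoid R] (f : R → ℕ) (hmul : ∀ x y, f (x * y) ≤ f x * f y)
    {B : ℕ} (h1 : f 1 ≤ B) (e : ℕ) (s : Finset ι) (g : ι → R) (hg : ∀ i ∈ s, f (g i) ≤ B ^ e) :
    f (∏ i ∈ s, g i) ≤ B ^ (1 + s.card * e) := by
  classical
  induction s using Finset.induction_on with
  | empty => simpa using h1
  | insert a s ha ih =>
    rw [prod_insert ha, card_insert_of_notMem ha]
    refine (hmul _ _).trans ((Nat.mul_le_mul (hg a (mem_insert_self _ _))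
      (ih fun i hi => hg i (mem_insert_of_mem hi))).trans (le_of_eq ?_))
    rw [← pow_add]
    congr 1
    ring

theorem uc_card_support {σ R : Type*} [Fintype σ] [CommSemiring R] {δ : ℕ}
    {p : MvPolynomial σ R} (hp : p.totalDegree ≤ δ) :
    p.support.card ≤ (δ + 1) ^ Fintype.card σ := by
  classical
  have h1 : (Fintype.piFinset fun _ : σ => range (δ + 1)).card = (δ + 1) ^ Fintype.card σ := by
    simp [Fintype.card_piFinset]
  rw [← h1]
  refine card_le_card_of_injOn (fun m => (m : σ → ℕ)) (fun m hm => ?_)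
    fun m _ m' _ h => DFunLike.coe_injective h
  refine Finset.mem_coe.2 (Fintype.mem_piFinset.2 fun i => Finset.mem_range.2 ?_)
  show m i < δ + 1
  have h2 := MvPolynomial.le_totalDegree (p := p) (s := m) hm
  have h3 : m i ≤ m.sum fun _ e => e :=
    Finsupp.single_eval_le_sum (g := fun e => e) m rfl (fun _ => Nat.zero_le _) i
  omega

theorem uc_hom {ι : Type*} [Fintype ι] {t : ℂ} (ht : t ≠ 0) (x : ι → ℂ) (u : ι → ℕ) {e : ℕ}
    (h : ∑ j, u j ≤ e) :
    t ^ (e - ∑ j, u j) * ∏ j, x j ^ u j = t ^ e * ∏ j, (t⁻¹ * x j) ^ u j := by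
  simp only [mul_pow, prod_mul_distrib, prod_pow_eq_pow_sum]
  rw [pow_sub₀ _ ht h, inv_pow, mul_assoc]

/-- A unit certificate holds at boundedly many arithmetic points.
Hint: for `z ∈ S` with data `(N, p, a, b, A)` put `α_j = conj a (rt ϑ j) ∈ Ord ϑ`, so that
`alv ϑ c (toC z) j = α_j / a c` (`hom_pt`, `conj_smul`).  Multiply the certificate by
`(a c) ^ (δ + 1)`: `lam z = (a c) ^ (δ + 1 - |ν|) α^ν`, `μ z u = (a c) ^ (δ - |u|) α_i α^u` for
`u ∈ Ψ.support` (at most `(δ + 1) ^ (n + 1)` monomials), all of norm `≤ (c' X) ^ c'`.  `exists_delta`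
gives `Δ ≠ 0`.  For `X` large, `p ≥ p₀`; with `𝔓` from `exists_prime_face`, `μ z u ∈ 𝔓`,
`α^ν ∉ 𝔓`, and `a c ∉ 𝔓` since `0 < |a c| ≤ A < p`.  Hence `p ∣ Δ`.  The primes satisfy `p ^ 2 > 2 X`, so `p ≥ P := sqrt X + 1`,
`|Δ| ≤ P ^ E`, at most `E` primes occur (`card_primes_dvd`), and each prime has at most `n + 1`
points (`card_le_rho` with `q = p ^ 2`, `rho_le`, injectivity of `z ↦ z none`). -/
theorem card_le_of_cert {n : ℕ} {F : Polynomial ℤ} {ϑ : Fin (n + 1) → ℂ} (hF : FS F ϑ)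
    (hn : 1 ≤ n) (k : ℕ) (hk : 2 ≤ k) (C δ : ℕ) :
    ∃ L X₀ : ℕ, ∀ X ≥ X₀, ∀ (c : Fin (n + 1)) (m : ℤ) (S : Finset (Option (Fin n) → ℚ)),
      (∀ z ∈ S, IsPt F k C X c m z) → Set.InjOn (fun z : Option (Fin n) → ℚ => z none) (S : Set (Option (Fin n) → ℚ)) →
      ∀ (i : Fin (n + 1)) (ν : Fin (n + 1) → ℕ) (Ψ : MvPolynomial (Fin (n + 1)) ℂ), ν i = 0 →
        ∑ j, ν j ≤ δ → Ψ.totalDegree ≤ δ →
        (∀ z ∈ S, CertAt i ν Ψ (alv ϑ c (toC z))) → S.card ≤ L := by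
  classical
  have hint : ∀ i, IsIntegral ℤ (ϑ i) := fun i =>
    ⟨F, hF.monic, by simpa [Polynomial.aeval_def] using hF.root i⟩
  obtain ⟨nrm, c0, hc0, hmul, hadd, hint', -, hΔ⟩ := exists_delta ϑ hint ((δ + 1) ^ (n + 1))
  obtain ⟨p₀, hp₀⟩ := exists_prime_face hF (by omega) k (by omega) C
  obtain ⟨p₁, hp₁⟩ := rho_le F hF.irr
  set K : ℕ := ∑ j : Fin (n + 1), ∑ l : Fin (n + 1), nrm (rt ϑ j ^ (l : ℕ)) with hK
  set c1 : ℕ := c0 ^ 3 * (C + 1) * (K + 1) with hc1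
  set E0 : ℕ := δ + 3 + (n + 1) * (δ + 1) with hE0
  refine ⟨(2 * ((2 * E0 + 1) * c0)) * (n + 1), c0 + c1 + p₀ ^ 2 + p₁ ^ 2, ?_⟩
  intro X hX c m S hS hinj i ν Ψ hν0 hν hΨ hcert
  have hX1 : 1 ≤ X := by omega
  have hS' : ∀ z : S, ∃ (N : ℤ) (p : ℕ) (a b : Fin (n + 1) → ℤ) (A : ℕ),
      AD F k C X N p m a b A ∧ a c ≠ 0 ∧ z.1 = pt c a N := fun z => hS z.1 z.2
  choose N p a b A hAD hac hz using hS'
  -- the conjugates in the order
  set α : S → Fin (n + 1) → Ord ϑ := fun z j => conj (fun l => (a z l : Ord ϑ)) (rt ϑ j) with hα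
  have hαc : ∀ z j, alv ϑ c (toC z.1) j = ((a z c : ℂ))⁻¹ * (α z j : ℂ) := by
    intro z j
    have h1 : hom c (toC z.1) = fun l => ((a z c : ℂ))⁻¹ * (a z l : ℂ) := by
      funext l
      have := map_hom (Rat.castHom ℂ) c z.1 l
      rw [hz z, hom_pt c _ (hac z)] at this
      rw [hz z]
      refine Eq.trans this.symm ?_
      simp
    have h2 : (α z j : ℂ) = conj (fun l => (a z l : ℂ)) (ϑ j) := by
      have := map_conj (Ord ϑ).val.toRingHom (fun l => (a z l : Ord ϑ)) (rt ϑ j)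
      simpa [rt, hα] using this
    rw [alv, h1, conj_smul, h2]
    rfl
  -- norm bounds
  set B : ℕ := c1 * X with hB
  set Nm : Ord ϑ → ℕ := fun x => c0 * nrm x with hNm
  have hNmul : ∀ x y, Nm (x * y) ≤ Nm x * Nm y := fun x y => by
    calc c0 * nrm (x * y) ≤ c0 * (c0 * nrm x * nrm y) := Nat.mul_le_mul_left _ (hmul x y)
      _ = c0 * nrm x * (c0 * nrm y) := by ring
  have hnN : ∀ x, nrm x ≤ Nm x := fun x => Nat.le_mul_of_pos_left _ hc0
  have hB1 : 1 ≤ B := Nat.one_le_iff_ne_zero.2 (by positivity)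
  have hc00 : c0 * c0 ≤ c0 ^ 3 := by
    rw [← sq]; exact Nat.pow_le_pow_right hc0 (by norm_num)
  have hNint : ∀ t : ℤ, t.natAbs ≤ (C + 1) * X → Nm (t : Ord ϑ) ≤ B := fun t ht => by
    calc c0 * nrm (t : Ord ϑ) ≤ c0 * (c0 * ((C + 1) * X)) :=
          Nat.mul_le_mul_left _ ((hint' t).trans (Nat.mul_le_mul_left _ ht))
      _ = (c0 * c0) * (C + 1) * 1 * X := by ring
      _ ≤ c0 ^ 3 * (C + 1) * (K + 1) * X := by gcongr; omega
  have hN1 : Nm 1 ≤ B := by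
    have := hNint 1 (by simpa using Nat.one_le_iff_ne_zero.2 (by positivity))
    simpa using this
  have haX : ∀ z l, (a z l).natAbs ≤ (C + 1) * X := fun z l =>
    ((hAD z).ha l).trans ((hAD z).hA.trans (Nat.mul_le_mul_right _ (Nat.le_succ _)))
  have hNα : ∀ z j, Nm (α z j) ≤ B := fun z j => by
    have h0 : nrm 0 ≤ 0 := by simpa using hint' 0
    have h1 : nrm (α z j) ≤ ∑ l : Fin (n + 1), nrm ((a z l : Ord ϑ) * rt ϑ j ^ (l : ℕ)) :=
      uc_sum_le nrm h0 hadd _ _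
    have h2 : ∀ l : Fin (n + 1), nrm ((a z l : Ord ϑ) * rt ϑ j ^ (l : ℕ)) ≤
        c0 * (c0 * ((C + 1) * X)) * nrm (rt ϑ j ^ (l : ℕ)) := fun l =>
      (hmul _ _).trans (Nat.mul_le_mul_right _ (Nat.mul_le_mul_left _
        ((hint' _).trans (Nat.mul_le_mul_left _ (haX z l)))))
    have h3 : ∑ l : Fin (n + 1), nrm (rt ϑ j ^ (l : ℕ)) ≤ K :=
      single_le_sum (f := fun j : Fin (n + 1) => ∑ l : Fin (n + 1), nrm (rt ϑ j ^ (l : ℕ)))
        (fun _ _ => Nat.zero_le _) (mem_univ j)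
    have h4 := h1.trans (sum_le_sum fun l _ => h2 l)
    rw [← mul_sum] at h4
    calc c0 * nrm (α z j) ≤ c0 * (c0 * (c0 * ((C + 1) * X)) * (K + 1)) :=
          Nat.mul_le_mul_left _ (h4.trans (Nat.mul_le_mul_left _ (by omega)))
      _ = B := by rw [hB, hc1]; ring
  have hNmon : ∀ z (u : Fin (n + 1) → ℕ), ∑ j, u j ≤ δ →
      Nm (∏ j, α z j ^ u j) ≤ B ^ (1 + (n + 1) * (δ + 1)) := fun z u hu => by
    have := uc_prod_le Nm hNmul hN1 (δ + 1) univ (fun j => α z j ^ u j) fun j _ =>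
      (uc_pow_le Nm hNmul hN1 (hNα z j) (u j)).trans (Nat.pow_le_pow_right hB1 (by
        have := single_le_sum (f := u) (fun _ _ => Nat.zero_le _) (mem_univ j)
        omega))
    simpa using this
  have hsupp : ∀ u ∈ Ψ.support, ∑ j, u j ≤ δ := fun u hu => by
    have := (MvPolynomial.le_totalDegree hu).trans hΨ
    rwa [Finsupp.sum_fintype _ _ (fun _ => rfl)] at this
  obtain ⟨Δ, t, hΔ0, hΔb, hΔe⟩ := hΔ (B ^ E0) S Ψ.support
    (fun z => (a z c : Ord ϑ) ^ (δ + 1 - ∑ j, ν j) * ∏ j, α z j ^ ν j)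
    (fun z u => α z i * ((a z c : Ord ϑ) ^ (δ - ∑ j, u.1 j) * ∏ j, α z j ^ u.1 j))
    (fun u => Ψ.coeff u.1)
    (by simpa using uc_card_support hΨ) (Nat.one_le_pow _ _ hB1)
    (fun z => by
      refine (hnN _).trans ((hNmul _ _).trans ?_)
      refine (Nat.mul_le_mul (uc_pow_le Nm hNmul hN1 (hNint _ (haX z c)) _) (hNmon z ν hν)).trans ?_
      rw [← pow_add]
      exact Nat.pow_le_pow_right hB1 (by omega))
    (fun z u => by
      refine (hnN _).trans ((hNmul _ _).trans ?_)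
      refine (Nat.mul_le_mul (hNα z i) ((hNmul _ _).trans (Nat.mul_le_mul
        (uc_pow_le Nm hNmul hN1 (hNint _ (haX z c)) _) (hNmon z u.1 (hsupp _ u.2))))).trans ?_
      rw [← pow_add, ← pow_succ']
      exact Nat.pow_le_pow_right hB1 (by omega))
    (fun z => by
      have ht : (a z c : ℂ) ≠ 0 := Int.cast_ne_zero.2 (hac z)
      have h1 := hcert z.1 z.2
      rw [CertAt, MvPolynomial.aeval_def, MvPolynomial.eval₂_eq'] at h1
      simp only [hαc] at h1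
      push_cast
      rw [uc_hom ht _ _ (by omega : ∑ j, ν j ≤ δ + 1), h1, mul_sum, mul_sum,
        ← sum_coe_sort Ψ.support]
      refine sum_congr rfl fun u _ => ?_
      rw [uc_hom ht _ _ (hsupp _ u.2)]
      simp only [Algebra.algebraMap_self, RingHom.id_apply]
      field_simp
      ring)
  -- every prime divides `Δ`
  have hpbig : ∀ z, X < p z ^ 2 := fun z => by have := (hAD z).big; omega
  have hpp : ∀ z q, q ^ 2 ≤ X → q ≤ p z := fun z q hq =>
    (lt_of_pow_lt_pow_left₀ 2 (Nat.zero_le _) (hq.trans_lt (hpbig z))).le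
  have hdvd : ∀ z, (p z : ℤ) ∣ Δ := fun z => by
    obtain ⟨𝔓, h𝔓, h1, h2, h3⟩ := hp₀ X _ _ _ _ _ _ (hAD z) (hpp z _ (by omega)) i
    have h4 : (Δ : Ord ϑ) * ((a z c : Ord ϑ) ^ (δ + 1 - ∑ j, ν j) * ∏ j, α z j ^ ν j) ∈ 𝔓 := by
      rw [hΔe z]
      exact Ideal.sum_mem _ fun u _ => Ideal.mul_mem_left _ _ (Ideal.mul_mem_right _ _ h2)
    rcases h𝔓.mem_or_mem h4 with h5 | h5
    · exact (h1 Δ).1 h5
    exfalso
    rcases h𝔓.mem_or_mem h5 with h6 | h6
    · have h7 := (h1 _).1 (h𝔓.mem_of_pow_mem _ h6)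
      have h8 := Int.natAbs_le_of_dvd_ne_zero h7 (hac z)
      have := (hAD z).ha c
      have := (hAD z).hAp
      simp only [Int.natAbs_natCast] at h8
      omega
    · obtain ⟨j, -, hj⟩ := (Ideal.IsPrime.prod_mem_iff (hp := h𝔓)).1 h6
      by_cases hji : j = i
      · rw [hji, hν0, pow_zero] at hj
        exact h𝔓.ne_top ((Ideal.eq_top_iff_one _).2 hj)
      · exact h3 j hji (h𝔓.mem_of_pow_mem _ hj)
  have hΔP : Δ.natAbs ≤ (X.sqrt + 1) ^ (2 * ((2 * E0 + 1) * c0)) := by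
    refine hΔb.trans ?_
    have h1 : c0 * B ^ E0 ≤ X ^ (2 * E0 + 1) := by
      calc c0 * B ^ E0 ≤ X * (X * X) ^ E0 :=
            Nat.mul_le_mul (by omega) (Nat.pow_le_pow_left (Nat.mul_le_mul_right _ (by omega)) _)
        _ = X ^ (2 * E0 + 1) := by rw [← sq, ← pow_mul, pow_succ']
    calc (c0 * B ^ E0) ^ c0 ≤ (X ^ (2 * E0 + 1)) ^ c0 := Nat.pow_le_pow_left h1 _
      _ = X ^ ((2 * E0 + 1) * c0) := by rw [← pow_mul]
      _ ≤ ((X.sqrt + 1) ^ 2) ^ ((2 * E0 + 1) * c0) :=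
          Nat.pow_le_pow_left (Nat.lt_succ_sqrt' X).le _
      _ = _ := by rw [← pow_mul]
  rw [← card_attach]
  refine card_le_mul_of_fibers _ p _ _ (fun U hU => ?_) fun q U _ hU => ?_
  · refine card_primes_dvd Δ (X.sqrt + 1) _ hΔ0 ?_ hΔP U fun ℓ hℓ => ?_
    · have := Nat.sqrt_pos.2 hX1
      omega
    · obtain ⟨z, -, rfl⟩ := hU ℓ hℓ
      exact ⟨(hAD z).prime, Nat.sqrt_lt'.2 (hpbig z), hdvd z⟩
  · rcases U.eq_empty_or_nonempty with rfl | ⟨z0, hz0⟩
    · simp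
    obtain rfl := hU z0 hz0
    have hNinj : Function.Injective N := fun z z' e =>
      Subtype.ext (hinj z.2 z'.2 (by
        show z.1 none = z'.1 none
        rw [hz z, hz z']
        simp only [pt, e]))
    rw [← card_image_of_injective U hNinj]
    refine (card_le_rho F (p z0 ^ 2) X (hAD z0).big _ fun M hM => ?_).trans ?_
    · obtain ⟨z, hzU, rfl⟩ := mem_image.1 hM
      refine ⟨(hAD z).hN, ?_⟩
      rw [← hU z hzU]
      push_cast
      exact (pow_dvd_pow _ hk).trans (hAD z).dvdF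
    · rw [← hF.deg]
      exact hp₁ _ 2 (hAD z0).prime (hpp z0 _ (by omega)) (by norm_num)

end Crest.Agent.R022
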