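import Crest.Agent.R022.Hilb
import Crest.Agent.R022.DetZero
import Crest.Agent.R022.Cut
import Crest.Agent.R022.Height
import Crest.Agent.R022.Decomp
import Crest.Agent.R022.Generic
import Crest.Agent.R022.Classes
import Crest.Agent.R022.UC
import Crest.Agent.R022.Constr

set_option autoImplicit false

namespace Crest.Agent.R022

open Finset

theorem step_cert_spec {n : ℕ} {Ω : Type*} [Field Ω] [Algebra ℂ Ω] (ϑ : Fin (n + 1) → ℂ)
    (c : Fin (n + 1)) (ω : Option (Fin n) → Ω) (z : Option (Fin n) → ℚ) (hsp : Spec ω z)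
    (i : Fin (n + 1)) (ν : Fin (n + 1) → ℕ) (Ψ : MvPolynomial (Fin (n + 1)) ℂ)
    (h : CertAt i ν Ψ (alv ϑ c ω)) : CertAt i ν Ψ (alv ϑ c (toC z)) := by
  set aP := alv ϑ c (fun j => (MvPolynomial.X j : MvPolynomial (Option (Fin n)) ℂ)) with haP
  have key : ∀ {K : Type _} [CommRing K] [Algebra ℂ K] (x : Option (Fin n) → K),
      MvPolynomial.aeval x (∏ j, aP j ^ ν j - aP i * MvPolynomial.aeval aP Ψ) =
        ∏ j, alv ϑ c x j ^ ν j - alv ϑ c x i * MvPolynomial.aeval (alv ϑ c x) Ψ := by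
    intro K _ _ x
    have h1 : ∀ j, MvPolynomial.aeval x (aP j) = alv ϑ c x j := fun j => aeval_alv ϑ c x j
    rw [map_sub, map_mul, map_prod, ← AlgHom.comp_apply, MvPolynomial.comp_aeval]
    simp only [map_pow, h1]
  have key2 : ∀ (x : Option (Fin n) → ℂ),
      MvPolynomial.aeval x (∏ j, aP j ^ ν j - aP i * MvPolynomial.aeval aP Ψ) =
        ∏ j, alv ϑ c x j ^ ν j - alv ϑ c x i * MvPolynomial.aeval (alv ϑ c x) Ψ := by
    intro x
    have h1 : ∀ j, MvPolynomial.aeval x (aP j) = alv ϑ c x j := fun j => aeval_alv ϑ c x j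
    rw [map_sub, map_mul, map_prod, ← AlgHom.comp_apply, MvPolynomial.comp_aeval]
    simp only [map_pow, h1]
  have h2 := hsp _ (by rw [key ω]; exact sub_eq_zero.mpr h)
  have h3 := key2 (toC z)
  exact sub_eq_zero.mp (h3.symm.trans h2)

theorem step_ne_spec {n : ℕ} {Ω : Type*} [Field Ω] [Algebra ℂ Ω] (ϑ : Fin (n + 1) → ℂ)
    (c : Fin (n + 1)) (ω : Option (Fin n) → Ω) (z : Option (Fin n) → ℚ) (hsp : Spec ω z)
    (i : Fin (n + 1)) (h : alv ϑ c (toC z) i ≠ 0 ∧ toC z none - ϑ i ≠ 0) :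
    alv ϑ c ω i ≠ 0 ∧ ω none - algebraMap ℂ Ω (ϑ i) ≠ 0 := by
  constructor
  · intro h0
    apply h.1
    have := hsp _ ((aeval_alv ϑ c ω i).trans h0)
    exact (aeval_alv ϑ c (toC z) i).symm.trans this
  · intro h0
    apply h.2
    have := hsp (MvPolynomial.X none - MvPolynomial.C (ϑ i)) (by simpa using h0)
    simpa [toC] using this

theorem step_height (C c₁ t B P X : ℕ) (hX : X ≤ P ^ B) (hC : C ≤ P) (hc : c₁ ≤ P) (ht : t ≤ P) :
    t * (c₁ * (C * X ^ 2)) ^ c₁ ≤ P ^ ((2 * B + 2) * c₁ + 1) := by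
  have h1 : c₁ * (C * X ^ 2) ≤ P ^ (2 * B + 2) := by
    calc c₁ * (C * X ^ 2) ≤ P * (P * (P ^ B) ^ 2) := by gcongr
      _ = P ^ (2 * B + 2) := by ring
  calc t * (c₁ * (C * X ^ 2)) ^ c₁ ≤ P * (P ^ (2 * B + 2)) ^ c₁ := by gcongr
    _ = P ^ ((2 * B + 2) * c₁ + 1) := by rw [← pow_mul]; ring

/-- One application of the determinant method on a set of points with a common generic point. -/
theorem step_core {n : ℕ} {F : Polynomial ℤ} {ϑ : Fin (n + 1) → ℂ} (hF : FS F ϑ) (hn : 3 ≤ n)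
    (k : ℕ) (hk : 2 ≤ k) (C B Jn D I y : ℕ) (hC : 1 ≤ C) (vert : Bool) (hy : 1 ≤ y)
    (hnum : NumOK (n + 1) k vert y Jn B D I) (δ : ℕ) :
    ∃ δ' E' L P₀ : ℕ, ∀ P ≥ P₀, ∀ X : ℕ, P ≤ X → X ≤ P ^ B → ∀ (c : Fin (n + 1)) (m : ℤ)
      (S : Finset (Option (Fin n) → ℚ)), (∀ z ∈ S, IsPt F k C X c m z) →
      Set.InjOn (fun z : Option (Fin n) → ℚ => z none) (S : Set (Option (Fin n) → ℚ)) →
      ∀ (τ : Fin Jn → ℕ) (σ : Fin Jn → Sys (Fin n)) (H : ℕ), Function.Injective τ →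
      (∀ l, (τ l).Prime ∧ P ≤ τ l ∧ C < τ l ∧ τ l ^ 2 ≤ 2 * X) →
      (∀ l, (σ l).Cx δ H ∧ (σ l).vert = vert ∧ (σ l).J.card = y) →
      (∀ l, ∀ z ∈ S, (σ l).ND z ∧ (σ l).Good z (τ l)) →
      (∀ l, ∀ z ∈ S, ∀ z' ∈ S, cl (τ l) z = cl (τ l) z') →
      (vert = false → ∀ l, ∀ z ∈ S, ∀ z' ∈ S, res (τ l) (z none) = res (τ l) (z' none)) →
      ∀ (l₀ : Fin Jn) (ω : Option (Fin n) → Om (Fin n)), (σ l₀).Gen ω → (∀ z ∈ S, Spec ω z) →
      ∃ 𝓛 : Finset (Sys (Fin n)), 𝓛.card ≤ L ∧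
        (∀ s ∈ 𝓛, s.Cx δ' (P ^ E') ∧ s.rank < 2 * y + (if vert then 1 else 0)) ∧
        ∀ z ∈ S, ∃ s ∈ 𝓛, s.ND z := by
  classical
  obtain ⟨δc, hδc⟩ := hilbert_gen hF hn k hk δ D
  obtain ⟨L₁, X₀, hL₁⟩ := card_le_of_cert hF (by omega) k hk C δc
  obtain ⟨δ₂, hδ₂⟩ := mon_totalDegree F k n D
  obtain ⟨δ₃, hδ₃⟩ := cut (ι := Fin n) δ δ₂
  obtain ⟨c₁, hc₁⟩ := rel_of_complex (σ := Option (Fin n)) δ₃
  obtain ⟨L₂, hL₂⟩ := decompN (ι := Fin n) (y + (if vert then 1 else 0)) δ₃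
  set g : ℕ → ℕ := gfun (n + 1) k vert y with hg
  have hle : ∑ e ∈ range D, g e ≤ D * g D := by
    have : ∀ e ≤ D, g e ≤ g D := by
      intro e he
      induction he using Nat.decreasingInduction with
      | self => exact le_rfl
      | of_succ e he ih => exact (hnum.1 e he).trans ih
    calc ∑ e ∈ range D, g e ≤ ∑ e ∈ range D, g D :=
          Finset.sum_le_sum fun e he => this e (Finset.mem_range.mp he).le
      _ = D * g D := by simp
  obtain ⟨P₁, hP₁⟩ := det_zero F k n C (g D) D I Jn B (D * g D - ∑ e ∈ range D, g e) y vert (by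
    have h := hnum.2
    rw [← hg] at h
    rw [Nat.mul_sub]
    have := Nat.mul_le_mul_left B hle
    omega)
  refine ⟨max δ₃ 1, (2 * B + 2) * (c₁ + 1) + 1, max L₁ L₂,
    max (max (max P₁ X₀) (max C (c₁ + 1))) (δ₃.factorial + 1), ?_⟩
  intro P hP X hPX hX c m S hS hinj τ σ H hτ hp hσ hnd hcl hN l₀ ω hgen hsp
  simp only [ge_iff_le, max_le_iff] at hP
  obtain ⟨⟨⟨hP1, hP2⟩, hP3, hP4⟩, hP5⟩ := hP
  have hP0 : 1 ≤ P := by omega
  have hX1 : 1 ≤ X := by omega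
  have hH1 : 1 ≤ C * X ^ 2 := Nat.mul_pos hC (Nat.pow_pos hX1)
  rcases S.eq_empty_or_nonempty with rfl | ⟨z₀, hz₀⟩
  · exact ⟨∅, by simp, by simp, by simp⟩
  have hne : ∀ i, alv ϑ c ω i ≠ 0 ∧ ω none - algebraMap ℂ (Om (Fin n)) (ϑ i) ≠ 0 := fun i =>
    step_ne_spec ϑ c ω z₀ (hsp z₀ hz₀) i ((hS z₀ hz₀).ne_zero hF (by omega) i)
  rcases hδc c (σ l₀) H ω (hσ l₀).1 hgen (by rw [(hσ l₀).2.2]; exact hy) hne with hc | hr
  · obtain ⟨i, ν, Ψ, h1, h2, h3, h4⟩ := hc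
    have hcard := hL₁ X (by omega) c m S hS hinj i ν Ψ h1 h2 h3
      (fun z hz => step_cert_spec ϑ c ω z (hsp z hz) i ν Ψ h4)
    have hex : ∀ z ∈ S, ∃ s : Sys (Fin n), s.Cx 1 (C * X ^ 2) ∧ s.rank = 0 ∧ s.ND z :=
      fun z hz => exists_sys_point _ z ((hS z hz).ptH hX1)
    have : Nonempty (Sys (Fin n)) := ⟨σ l₀⟩
    choose! sz hsz1 hsz2 hsz3 using hex
    refine ⟨S.image sz, Finset.card_image_le.trans (hcard.trans (le_max_left _ _)), ?_,
      fun z hz => ⟨sz z, Finset.mem_image_of_mem _ hz, hsz3 z hz⟩⟩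
    intro s hs
    obtain ⟨z, hz, rfl⟩ := Finset.mem_image.mp hs
    refine ⟨(hsz1 z hz).mono (le_max_right _ _) ?_, by rw [hsz2 z hz]; omega⟩
    have h5 := step_height C 1 1 B P X hX hP3 hP0 hP0
    simp only [one_mul, pow_one, mul_one] at h5
    refine h5.trans (Nat.pow_le_pow_right hP0 ?_)
    nlinarith
  · rw [(hσ l₀).2.1, (hσ l₀).2.2, ← hg] at hr
    obtain ⟨u, v, lev, hlev, hind, hsum⟩ := select_mon hF (by omega) k c D g ω hne hr hnum.1
    obtain ⟨q, hq0, hq⟩ := exists_rel_of_det (S : Set (Option (Fin n) → ℚ))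
      (fun i z => ev z (mon F k c D (lev i) (u i) (v i))) (fun z hz =>
        hP₁ P hP1 X hX c m z (fun j => hS _ (hz j)) τ σ δ H hτ hp hσ
          (fun l j => hnd l _ (hz j)) (fun l j j' => hcl l _ (hz j) _ (hz j'))
          (fun hv l j j' => hN hv l _ (hz j) _ (hz j')) u v lev hlev (by omega))
    set f : MvPolynomial (Option (Fin n)) ℂ := ∑ i, MvPolynomial.C (q i : ℂ) *
      MvPolynomial.map (Int.castRingHom ℂ) (mon F k c D (lev i) (u i) (v i)) with hf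
    have hfdeg : f.totalDegree ≤ δ₂ := by
      refine MvPolynomial.totalDegree_finsetSum_le fun i _ => ?_
      refine (MvPolynomial.totalDegree_mul _ _).trans ?_
      rw [MvPolynomial.totalDegree_C, zero_add]
      exact (Finset.sup_mono (MvPolynomial.support_map_subset _ _)).trans
        (hδ₂ c _ _ _ (hlev i).1 (hlev i).2.1 (hlev i).2.2)
    have hfω : MvPolynomial.aeval ω f ≠ 0 := by
      intro h0
      apply hq0
      have h1 : ∑ i, (q i : ℂ) • ev ω (mon F k c D (lev i) (u i) (v i)) = 0 := by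
        rw [← h0, hf, map_sum]
        refine Finset.sum_congr rfl fun i _ => ?_
        rw [map_mul, aeval_map_int, MvPolynomial.aeval_C, Algebra.smul_def]
      have h2 := Fintype.linearIndependent_iff.mp hind _ h1
      funext i
      exact_mod_cast h2 i
    have hfz : ∀ z ∈ S, MvPolynomial.aeval (toC z) f = 0 := by
      intro z hz
      have h1 := congrArg (fun x : ℚ => (x : ℂ)) (hq z hz)
      simp only [Rat.cast_zero] at h1
      rw [← h1, hf, map_sum]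
      push_cast
      refine Finset.sum_congr rfl fun i _ => ?_
      rw [map_mul, aeval_map_int, MvPolynomial.aeval_C, ev_toC]
      simp
    have hm : (σ l₀).m = y + (if vert then 1 else 0) := by
      simp only [Sys.m, (hσ l₀).2.1, (hσ l₀).2.2]
    obtain ⟨𝓛, h1, h2, h3⟩ := hL₂ ((c₁ * (C * X ^ 2)) ^ c₁) S (fun A hA => by
      obtain ⟨h, hh0, hhs, hhd, hhz⟩ := hδ₃ (σ l₀) H ω (hσ l₀).1 hgen.nd f hfdeg hfω A
        (hA.trans hm.symm)
      exact hc₁ _ S _ h hH1 (fun z hz => (hS z hz).ptH hX1) hh0 hhs hhd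
        (fun z hz => hhz z (hsp z hz) (hfz z hz)))
    refine ⟨𝓛, h1.trans (le_max_right _ _), fun s hs => ⟨(h2 s hs).1.mono (le_max_left _ _) ?_, ?_⟩,
      h3⟩
    · refine (step_height C c₁ _ B P X hX hP3 (by omega) (by omega)).trans
        (Nat.pow_le_pow_right hP0 ?_)
      nlinarith
    · have := (h2 s hs).2
      split_ifs at this ⊢ <;> omega

/-- The step of the exchange argument. -/
theorem step_gen {n : ℕ} {F : Polynomial ℤ} {ϑ : Fin (n + 1) → ℂ} (hF : FS F ϑ) (hn : 3 ≤ n)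
    (k : ℕ) (hk : 2 ≤ k) (C B Jn D I y : ℕ) (hC : 1 ≤ C) (vert : Bool) (hy : 1 ≤ y)
    (hJ : 0 < Jn) (hnum : NumOK (n + 1) k vert y Jn B D I) (δ : ℕ) :
    ∃ δ' E' L P₀ : ℕ, ∀ P ≥ P₀, ∀ X : ℕ, P ≤ X → X ≤ P ^ B → ∀ (c : Fin (n + 1)) (m : ℤ)
      (S : Finset (Option (Fin n) → ℚ)), (∀ z ∈ S, IsPt F k C X c m z) →
      Set.InjOn (fun z : Option (Fin n) → ℚ => z none) (S : Set (Option (Fin n) → ℚ)) →
      ∀ (τ : Fin Jn → ℕ) (σ : Fin Jn → Sys (Fin n)) (H : ℕ), Function.Injective τ →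
      (∀ l, (τ l).Prime ∧ P ≤ τ l ∧ C < τ l ∧ τ l ^ 2 ≤ 2 * X) →
      (∀ l, (σ l).Cx δ H ∧ (σ l).vert = vert ∧ (σ l).J.card = y) →
      (∀ l, ∀ z ∈ S, (σ l).ND z ∧ (σ l).Good z (τ l)) →
      (∀ l, ∀ z ∈ S, ∀ z' ∈ S, cl (τ l) z = cl (τ l) z') →
      ∃ 𝓛 : Finset (Sys (Fin n)), 𝓛.card ≤ L ∧
        (∀ s ∈ 𝓛, s.Cx δ' (P ^ E') ∧ s.rank < 2 * y + (if vert then 1 else 0)) ∧
        ∀ z ∈ S, ∃ s ∈ 𝓛, s.ND z := by
  classical
  obtain ⟨δ', E', L, P₀, h⟩ := step_core hF hn k hk C B Jn D I y hC vert hy hnum δ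
  refine ⟨δ', E', (δ + 1) ^ Jn * ((δ + 1) ^ (n + 1) * L), P₀, ?_⟩
  intro P hP X hPX hX c m S hS hinj τ σ H hτ hp hσ hnd hcl
  set l₀ : Fin Jn := ⟨0, hJ⟩
  obtain ⟨𝒢, h𝒢, hgen⟩ := generic_exists (σ l₀) δ H (hσ l₀).1
  have hgen' : ∀ z ∈ S, ∃ ω ∈ 𝒢, (σ l₀).Gen ω ∧ Spec ω z := fun z hz => hgen z (hnd l₀ z hz).1
  choose! om hom1 hom2 hom3 using hgen'
  refine cover_of_fibers S (fun z (l : Fin Jn) => if vert then 0 else res (τ l) (z none)) _ _ _
    (fun s z => Sys.ND s z) ?_ ?_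
  · intro U hU
    set T : Fin Jn → Finset ℕ := fun l => S.image fun z => if vert then 0 else res (τ l) (z none)
    have hsub : U ⊆ Fintype.piFinset T := by
      intro x hx
      obtain ⟨z, hz, rfl⟩ := hU x hx
      exact Fintype.mem_piFinset.mpr fun l => Finset.mem_image_of_mem _ hz
    refine (Finset.card_le_card hsub).trans ?_
    rw [Fintype.card_piFinset]
    refine (Finset.prod_le_pow_card _ _ (δ + 1) fun l _ => ?_).trans (by simp)
    cases hv : vert with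
    | true =>
      refine le_trans (Finset.card_le_one.mpr fun a ha b hb => ?_) (by omega)
      obtain ⟨z, -, rfl⟩ := Finset.mem_image.mp ha
      obtain ⟨z', -, rfl⟩ := Finset.mem_image.mp hb
      simp [hv]
    | false =>
      rcases S.eq_empty_or_nonempty with hS0 | ⟨z₀, hz₀⟩
      · simp [T, hS0]
      refine le_trans (classN_count (σ l) δ H (hσ l).1 ((hσ l).2.1.trans hv) (τ l) (hp l).1
        (cl (τ l) z₀) _ fun x hx => ?_) (Nat.le_succ _)
      obtain ⟨z, hz, rfl⟩ := Finset.mem_image.mp hx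
      exact ⟨z, (hnd l z hz).1, (hnd l z hz).2, hcl l z hz z₀ hz₀, by simp [hv]⟩
  · intro S' hS' hres
    refine cover_of_fibers S' om _ _ _ (fun s z => Sys.ND s z) ?_ ?_
    · intro U hU
      have hsub : U ⊆ 𝒢 := by
        intro x hx
        obtain ⟨z, hz, rfl⟩ := hU x hx
        exact hom1 z (hS' hz)
      simpa using (Finset.card_le_card hsub).trans h𝒢
    · intro S'' hS'' hom
      rcases S''.eq_empty_or_nonempty with rfl | ⟨z₀, hz₀⟩
      · exact ⟨∅, by simp, by simp, by simp⟩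
      have hsub : S'' ⊆ S := hS''.trans hS'
      refine h P hP X hPX hX c m S'' (fun z hz => hS z (hsub hz))
        (hinj.mono (Finset.coe_subset.mpr hsub)) τ σ H hτ hp hσ
        (fun l z hz => hnd l z (hsub hz)) (fun l z hz z' hz' => hcl l z (hsub hz) z' (hsub hz'))
        (fun hv l z hz z' hz' => ?_) l₀ (om z₀) (hom2 z₀ (hsub hz₀))
        (fun z hz => hom z hz z₀ hz₀ ▸ hom3 z (hsub hz))
      have := congrFun (hres z (hS'' hz) z' (hS'' hz')) l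
      simpa [hv] using this

end Crest.Agent.R022
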